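import Crest.Agent.X212.Lab56.Pt
import Crest.Agent.X212.Met55.Mix
import Crest.Agent.X212.Line51.Rl
import Crest.Agent.X212.Line51.Defs

/-!
# X212 / Lab56, part Defs (helper56): spin^c data

* `C8 M ι κ` : fields of complex spinor modules, `C8.On I P O`, `CI I m m' u O` (unitary intertwiners),
  `rot`, `bar`, `tw`, `comp`, the line `hl m m'` of intertwiners;
* `M8 M ι κ` : the same in the real format of layer AN, `C8.re`;
* `Sc I M ι κ` : a spanning frame with a module, `pol` (polar rotation between frames), `tp`, `Iw`, `Eqv`,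
  `pull`, `bar`, `tw`, `hl`, `det`.
-/

set_option autoImplicit false
set_option linter.unusedSectionVars false

open Set Filter Topology Function Matrix Module
open scoped ContDiff Manifold Kronecker ComplexOrder
open Crest.Agent.X212.Pj41 Crest.Agent.X212.Met55
open Crest.Agent.X212.An (Eu CL En Sym Skw trn)
open Crest.Agent.X212.Wz78 (Pr Cl)
open Crest.Agent.X212.Line51 (Uni rl iL)

noncomputable section

namespace Crest.Agent.X212.Lab56

variable {E : Type} [NormedAddCommGroup E] [NormedSpace ℝ E] [FiniteDimensional ℝ E]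
  {H : Type} [TopologicalSpace H] {I : ModelWithCorners ℝ E H}
  {M : Type} [TopologicalSpace M] [ChartedSpace H M] [IsManifold I ∞ M]
  {E' : Type} [NormedAddCommGroup E'] [NormedSpace ℝ E'] [FiniteDimensional ℝ E']
  {H' : Type} [TopologicalSpace H'] {I' : ModelWithCorners ℝ E' H'}
  {N : Type} [TopologicalSpace N] [ChartedSpace H' N] [IsManifold I' ∞ N]
  {ι ι' ι'' κ l n k : Type} [Fintype ι] [Fintype ι'] [Fintype ι''] [Fintype κ] [Fintype l] [Fintype n]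
  [Fintype k] [DecidableEq ι] [DecidableEq ι'] [DecidableEq ι''] [DecidableEq κ] [DecidableEq l]
  [DecidableEq n] [DecidableEq k]

/-! ### fields of modules -/

/-- the data of a complex spinor module -/
structure C8 (M ι κ : Type) where
  p : M → Matrix κ κ ℂ
  ρ : ι → M → Matrix κ κ ℂ

namespace C8

/-- the generators at a point -/
abbrev r (m : C8 M ι κ) (x : M) : ι → Matrix κ κ ℂ := fun a => m.ρ a x

variable (I) in
/-- a smooth module over the range of `P` on `O` -/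
structure On (P : M → Matrix ι ι ℝ) (m : C8 M ι κ) (O : Set M) : Prop where
  p4 : ∀ x ∈ O, P4 (P x)
  sp : ∀ x ∈ O, MSm I m.p x
  sρ : ∀ a, ∀ x ∈ O, MSm I (m.ρ a) x
  pc : ∀ x ∈ O, PC (P x) (m.p x) (m.r x)

/-- change of the frame -/
def rot (m : C8 M ι κ) (R : M → Matrix ι ι' ℝ) : C8 M ι' κ :=
  ⟨m.p, fun a x => Lab56.rot (R x) (m.r x) a⟩

/-- the conjugate module -/
def bar (m : C8 M ι κ) : C8 M ι κ := ⟨fun x => cj (m.p x), fun a x => cj (m.ρ a x)⟩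

/-- twisting by a line -/
def tw (m : C8 M ι κ) (q : M → Matrix n n ℂ) : C8 M ι (κ × n) :=
  ⟨fun x => m.p x ⊗ₖ q x, fun a x => m.ρ a x ⊗ₖ q x⟩

/-- pull-back -/
def comp (m : C8 M ι κ) (f : N → M) : C8 N ι κ := ⟨fun y => m.p (f y), fun a y => m.ρ a (f y)⟩

end C8

variable (I) in
/-- a smooth unitary intertwiner on `O` -/
structure CI (m : C8 M ι κ) (m' : C8 M ι l) (u : M → Matrix l κ ℂ) (O : Set M) : Prop where
  sm : ∀ x ∈ O, MSm I u x
  un : ∀ x ∈ O, Un (m.p x) (m.r x) (m'.p x) (m'.r x) (u x)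

/-- the line of intertwiners -/
def hl (m : C8 M ι κ) (m' : C8 M ι l) (x : M) : Matrix (l × κ) (l × κ) ℂ := hP (m.r x) (m'.r x)

variable (I) in
/-- a smooth line on `O` -/
structure LOn (q : M → Matrix n n ℂ) (O : Set M) : Prop where
  sm : ∀ x ∈ O, MSm I q x
  prj : ∀ x ∈ O, Prj (q x)
  tr : ∀ x ∈ O, (q x).trace = 1

section mod

variable {P : M → Matrix ι ι ℝ} {P' : M → Matrix ι' ι' ℝ} {m : C8 M ι κ} {m' : C8 M ι l}
  {m'' : C8 M ι n} {u : M → Matrix l κ ℂ} {w : M → Matrix n l ℂ} {O O' : Set M}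
  {q : M → Matrix n n ℂ} {q' : M → Matrix k k ℂ}

theorem LOn.mono (h : LOn I q O) (hO : O' ⊆ O) : LOn I q O' :=
  ⟨fun x hx => h.sm x (hO hx), fun x hx => h.prj x (hO hx), fun x hx => h.tr x (hO hx)⟩

theorem LOn.comp {f : N → M} {W : Set N} (h : LOn I q O) (hf : ∀ y ∈ W, ContMDiffAt I' I ∞ f y)
    (hm : MapsTo f W O) : LOn I' (fun y => q (f y)) W :=
  ⟨fun y hy => (h.sm _ (hm hy)).comp (hf y hy), fun _ hy => h.prj _ (hm hy), fun _ hy => h.tr _ (hm hy)⟩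

theorem LOn.of_ln {L : Line51.Ln E M n} (h : L.On I O) : LOn I L.p O := ⟨h.sm, h.prj, h.tr⟩

theorem C8.On.mono (h : m.On I P O) (hO : O' ⊆ O) : m.On I P O' :=
  ⟨fun x hx => h.p4 x (hO hx), fun x hx => h.sp x (hO hx), fun a x hx => h.sρ a x (hO hx),
    fun x hx => h.pc x (hO hx)⟩

theorem C8.On.congr {Q : M → Matrix ι ι ℝ} (h : m.On I P O) (e : ∀ x ∈ O, Q x = P x) : m.On I Q O :=
  ⟨fun x hx => e x hx ▸ h.p4 x hx, h.sp, h.sρ, fun x hx => e x hx ▸ h.pc x hx⟩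

theorem p4_of_piso {Q : Matrix ι ι ℝ} {Q' : Matrix ι' ι' ℝ} {R : Matrix ι ι' ℝ} (h : P4 Q)
    (hR : PIso R Q' Q) : P4 Q' :=
  ⟨⟨fun a b => by
      conv_lhs => rw [← hR.prj_src.herm]
      simp, fun a b => congrFun (congrFun hR.prj_src.idem a) b⟩, hR.trace_eq.trans h.rk⟩

theorem msm_rot {R : M → Matrix ι ι' ℝ} {x : M} (hR : MSm I R x) (h : ∀ a, MSm I (m.ρ a) x) (b : ι') :
    MSm I ((m.rot R).ρ b) x := MSm.sum fun a _ => MSm.rsmul (hR a b) (h a)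

theorem C8.On.rot (h : m.On I P O) {R : M → Matrix ι ι' ℝ} (sR : ∀ x ∈ O, MSm I R x)
    (hR : ∀ x ∈ O, PIso (R x) (P' x) (P x)) : (m.rot R).On I P' O :=
  ⟨fun x hx => p4_of_piso (h.p4 x hx) (hR x hx), h.sp,
    fun b x hx => msm_rot (sR x hx) (fun a => h.sρ a x hx) b, fun x hx => (h.pc x hx).rot (hR x hx)⟩

theorem C8.On.bar (h : m.On I P O) : m.bar.On I P O :=
  ⟨h.p4, fun x hx => (h.sp x hx).ct.transpose, fun a x hx => (h.sρ a x hx).ct.transpose,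
    fun x hx => (h.pc x hx).bar⟩

theorem C8.On.tw (h : m.On I P O) (hq : LOn I q O) : (m.tw q).On I P O :=
  ⟨h.p4, fun x hx => (h.sp x hx).kron (hq.sm x hx), fun a x hx => (h.sρ a x hx).kron (hq.sm x hx),
    fun x hx => (h.pc x hx).tw (hq.prj x hx) (hq.tr x hx)⟩

theorem C8.On.comp {f : N → M} {W : Set N} (h : m.On I P O) (hf : ∀ y ∈ W, ContMDiffAt I' I ∞ f y)
    (hm : MapsTo f W O) : (m.comp f).On I' (fun y => P (f y)) W :=
  ⟨fun _ hy => h.p4 _ (hm hy), fun y hy => (h.sp _ (hm hy)).comp (hf y hy),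
    fun a y hy => (h.sρ a _ (hm hy)).comp (hf y hy), fun _ hy => h.pc _ (hm hy)⟩

theorem C8.bar_bar (m : C8 M ι κ) : m.bar.bar = m := by
  simp only [C8.bar, cj_cj]

theorem CI.mono (h : CI I m m' u O) (hO : O' ⊆ O) : CI I m m' u O' :=
  ⟨fun x hx => h.sm x (hO hx), fun x hx => h.un x (hO hx)⟩

theorem CI.uni (h : CI I m m' u O) : Uni I m.p m'.p u O := ⟨h.sm, fun x hx => (h.un x hx).iso⟩

theorem C8.On.refl (h : m.On I P O) : CI I m m m.p O := ⟨h.sp, fun x hx => (h.pc x hx).refl⟩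

theorem CI.symm (h : m.On I P O) (h' : m'.On I P O) (i : CI I m m' u O) :
    CI I m' m (fun x => (u x)ᴴ) O :=
  ⟨fun x hx => (i.sm x hx).ct, fun x hx => (i.un x hx).symm (h.pc x hx) (h'.pc x hx)⟩

theorem CI.trans (i : CI I m m' u O) (j : CI I m' m'' w O) : CI I m m'' (fun x => w x * u x) O :=
  ⟨fun x hx => (j.sm x hx).mul (i.sm x hx), fun x hx => (i.un x hx).trans (j.un x hx)⟩

/-- only the values on `O` matter -/
theorem CI.of_eq {a : C8 M ι κ} {a' : C8 M ι l} (i : CI I m m' u O)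
    (e : ∀ x ∈ O, a.p x = m.p x ∧ a.r x = m.r x) (e' : ∀ x ∈ O, a'.p x = m'.p x ∧ a'.r x = m'.r x) :
    CI I a a' u O :=
  ⟨i.sm, fun x hx => by rw [(e x hx).1, (e x hx).2, (e' x hx).1, (e' x hx).2]; exact i.un x hx⟩

theorem CI.congr {u' : M → Matrix l κ ℂ} (hO : IsOpen O) (i : CI I m m' u O) (e : EqOn u' u O) :
    CI I m m' u' O :=
  ⟨fun x hx => (i.sm x hx).congr (eventually_of_mem (hO.mem_nhds hx) e),
    fun x hx => (e hx).symm ▸ i.un x hx⟩

theorem CI.rot (i : CI I m m' u O) (R : M → Matrix ι ι' ℝ) : CI I (m.rot R) (m'.rot R) u O :=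
  ⟨i.sm, fun x hx => (i.un x hx).rot (R x)⟩

theorem CI.bar (i : CI I m m' u O) : CI I m.bar m'.bar (fun x => cj (u x)) O :=
  ⟨fun x hx => (i.sm x hx).ct.transpose, fun x hx => (i.un x hx).bar⟩

theorem CI.tw (i : CI I m m' u O) {v : M → Matrix k n ℂ} (hv : Uni I q q' v O) :
    CI I (m.tw q) (m'.tw q') (fun x => u x ⊗ₖ v x) O :=
  ⟨fun x hx => (i.sm x hx).kron (hv.sm x hx), fun x hx => (i.un x hx).tw (hv.iso x hx)⟩

theorem CI.comp {f : N → M} {W : Set N} (i : CI I m m' u O) (hf : ∀ y ∈ W, ContMDiffAt I' I ∞ f y)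
    (hm : MapsTo f W O) : CI I' (m.comp f) (m'.comp f) (fun y => u (f y)) W :=
  ⟨fun y hy => (i.sm _ (hm hy)).comp (hf y hy), fun _ hy => i.un _ (hm hy)⟩

theorem CI.smul (i : CI I m m' u O) {g : M → Circle} (hg : ∀ x ∈ O, FSm I (fun y => (g y : ℂ)) x) :
    CI I m m' (fun x => (g x : ℂ) • u x) O :=
  ⟨fun x hx => MSm.smul (hg x hx) (i.sm x hx), fun x hx => (i.un x hx).smul (g x)⟩

theorem msm_qR {K : M → Matrix κ κ ℂ} {x : M} (h : MSm I K x) : MSm I (fun y => qR (K y)) x :=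
  MSm.rsmul contMDiffAt_const ((((h.mul (h.mul (h.mul h))).add
    (MSm.rsmul contMDiffAt_const (h.mul (h.mul h)))).sub (MSm.rsmul contMDiffAt_const (h.mul h))).sub
      (MSm.rsmul contMDiffAt_const h))

theorem lOn_hl (h : m.On I P O) (h' : m'.On I P O) : LOn I (hl m m') O :=
  ⟨fun x hx => msm_qR (MSm.sum fun a _ => (h'.sρ a x hx).kron (h.sρ a x hx).transpose).neg,
    fun x hx => prj_hP (h.p4 x hx) (h.pc x hx) (h'.pc x hx),
    fun x hx => trace_hP (h.p4 x hx) (h.pc x hx) (h'.pc x hx)⟩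

/-- the unit section of `hl` given by an intertwiner -/
def col (u : M → Matrix l κ ℂ) (x : M) : Matrix (l × κ) Unit ℂ := vec ((1 / 2 : ℂ) • u x)

/-- the intertwiner given by a unit section of `hl` -/
def unc (s : M → Matrix (l × κ) Unit ℂ) (x : M) : Matrix l κ ℂ := (2 : ℂ) • mat (s x)

theorem col_unc (s : M → Matrix (l × κ) Unit ℂ) : col (unc s) = s := by
  funext x; ext; simp [col, unc, vec, mat]

theorem unc_col (u : M → Matrix l κ ℂ) : unc (col u) = u := by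
  funext x; ext; simp [col, unc, vec, mat]

theorem CI.col (h : m.On I P O) (h' : m'.On I P O) (i : CI I m m' u O) :
    Uni I (fun _ => 1) (hl m m') (col u) O :=
  ⟨fun x hx a _ => MSm.smul contMDiffAt_const (i.sm x hx) a.1 a.2,
    fun x hx => (i.un x hx).col (h.p4 x hx) (h.pc x hx) (h'.pc x hx)⟩

theorem ci_unc (h : m.On I P O) (h' : m'.On I P O) {s : M → Matrix (l × κ) Unit ℂ}
    (hs : Uni I (fun _ => 1) (hl m m') s O) : CI I m m' (unc s) O :=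
  ⟨fun x hx => MSm.smul contMDiffAt_const fun a b => hs.sm x hx (a, b) (),
    fun x hx => un_of_col (h.p4 x hx) (h.pc x hx) (h'.pc x hx) (hs.iso x hx)⟩

/-- gluing of two modules -/
theorem C8.exists_glue [T2Space M] [SigmaCompactSpace M] {U V : Set M} (hU : IsOpen U) (hV : IsOpen V)
    (hc : U ∪ V = univ) (h : m.On I P U) (h' : m'.On I P V) (i : CI I m m' u (U ∩ V)) :
    ∃ (g : C8 M ι (κ ⊕ l)) (a : M → Matrix (κ ⊕ l) κ ℂ) (b : M → Matrix (κ ⊕ l) l ℂ),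
      g.On I P univ ∧ CI I m g a U ∧ CI I m' g b V ∧ ∀ x ∈ U ∩ V, b x * u x = a x := by
  obtain ⟨Q, a, b, h1, h2, h3, h4, -⟩ := exists_glue_two hU hV hc
    (fun x hx => ⟨h.sp x hx, (h.pc x hx).prj⟩) (fun x hx => ⟨h'.sp x hx, (h'.pc x hx).prj⟩)
    fun x hx hx' => ⟨i.sm x ⟨hx, hx'⟩, (i.un x ⟨hx, hx'⟩).iso⟩
  have hc' : ∀ x, x ∈ U ∨ x ∈ V := fun x => (hc ▸ mem_univ x : x ∈ U ∪ V)
  have key : ∀ c, ∀ x ∈ U, x ∈ V → a x * m.ρ c x * (a x)ᴴ = b x * m'.ρ c x * (b x)ᴴ :=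
    fun c x hx hx' => by
      have k := i.un x ⟨hx, hx'⟩
      rw [← (h4 x hx hx').2, conjTranspose_mul, Matrix.mul_assoc (b x), k.ρ, Matrix.mul_assoc,
        Matrix.mul_assoc, ← Matrix.mul_assoc (u x), k.iso.tgt, ← Matrix.mul_assoc _ (m'.p x),
        (h'.pc x hx').cl.pr, Matrix.mul_assoc]
  have ex : ∀ c, ∃ t : M → Matrix (κ ⊕ l) (κ ⊕ l) ℂ, (∀ x, MSm I t x) ∧
      (∀ x ∈ U, t x = a x * m.ρ c x * (a x)ᴴ) ∧ ∀ x ∈ V, t x = b x * m'.ρ c x * (b x)ᴴ := fun c => by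
    obtain ⟨t, t1, t2⟩ := exists_patch_sm (I := I) (U := fun z : Bool => cond z U V)
      (by rintro (_ | _); exacts [hV, hU])
      (fun x => (hc' x).elim (fun e => ⟨true, e⟩) fun e => ⟨false, e⟩)
      (fun z x => cond z (a x * m.ρ c x * (a x)ᴴ) (b x * m'.ρ c x * (b x)ᴴ))
      (by
        rintro (_ | _) x hx
        exacts [((h3 x hx).1.mul (h'.sρ c x hx)).mul (h3 x hx).1.ct,
          ((h2 x hx).1.mul (h.sρ c x hx)).mul (h2 x hx).1.ct])
      (by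
        rintro (_ | _) (_ | _) x h5 h6
        exacts [rfl, (key c x h6 h5).symm, key c x h5 h6, rfl])
    exact ⟨t, t1, t2 true, t2 false⟩
  choose t t1 t2 t3 using ex
  have eU : ∀ x ∈ U, (fun c => t c x) = fun c => a x * m.ρ c x * (a x)ᴴ :=
    fun x hx => funext fun c => t2 c x hx
  have eV : ∀ x ∈ V, (fun c => t c x) = fun c => b x * m'.ρ c x * (b x)ᴴ :=
    fun x hx => funext fun c => t3 c x hx
  refine ⟨⟨Q, t⟩, a, b, ⟨fun x _ => (hc' x).elim (h.p4 x) (h'.p4 x), fun x _ => (h1 x).1,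
    fun c x _ => t1 c x, fun x _ => ?_⟩, ⟨fun x hx => (h2 x hx).1, fun x hx => ?_⟩,
    ⟨fun x hx => (h3 x hx).1, fun x hx => ?_⟩, fun x hx => (h4 x hx.1 hx.2).2⟩
  · show PC (P x) (Q x) fun c => t c x
    rcases hc' x with hx | hx
    · rw [eU x hx]; exact ((h.pc x hx).push (h2 x hx).2).1
    · rw [eV x hx]; exact ((h'.pc x hx).push (h3 x hx).2).1
  · show Un _ _ (Q x) (fun c => t c x) _
    rw [eU x hx]; exact ((h.pc x hx).push (h2 x hx).2).2
  · show Un _ _ (Q x) (fun c => t c x) _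
    rw [eV x hx]; exact ((h'.pc x hx).push (h3 x hx).2).2

end mod

/-! ### the real format -/

/-- the data of a real spinor module of rank eight -/
structure M8 (M ι κ : Type) [Fintype κ] where
  J : En κ
  p : M → En κ
  ρ : ι → M → En κ

variable (I) in
/-- a smooth real module over the range of `P` on `O` -/
structure M8.On (P : ι → ι → M → ℝ) (m : M8 M ι κ) (O : Set M) : Prop where
  Jsq : m.J * m.J = -1
  Jsk : Skw m.J
  sp : ∀ x ∈ O, FSm I m.p x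
  sρ : ∀ a, ∀ x ∈ O, FSm I (m.ρ a) x
  psym : ∀ x ∈ O, Sym (m.p x)
  pidem : ∀ x ∈ O, m.p x * m.p x = m.p x
  prk : ∀ x ∈ O, LinearMap.trace ℝ _ (m.p x : Eu κ →ₗ[ℝ] Eu κ) = 8
  Jp : ∀ x ∈ O, m.J * m.p x = m.p x * m.J
  cl : ∀ x ∈ O, Cl (fun a b => P a b x) (m.p x) fun a => m.ρ a x
  ρsk : ∀ a, ∀ x ∈ O, Skw (m.ρ a x)
  Jρ : ∀ a, ∀ x ∈ O, m.J * m.ρ a x = m.ρ a x * m.J

/-- the real module of a complex module -/
def C8.re (m : C8 M ι κ) : M8 M ι (κ ⊕ κ) := ⟨iL κ, fun x => rl (m.p x), fun a x => rl (m.ρ a x)⟩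

theorem C8.On.re {P : M → Matrix ι ι ℝ} {m : C8 M ι κ} {O : Set M} (h : m.On I P O) :
    m.re.On I (fun a b x => P x a b) O := by
  refine ⟨Line51.iL_sq, Line51.iL_skw, fun x hx => Line51.fsm_rl (h.sp x hx),
    fun a x hx => Line51.fsm_rl (h.sρ a x hx), fun x hx => Line51.sym_rl (h.pc x hx).prj.herm,
    fun x hx => (Line51.rl_mul _ _).symm.trans (congrArg rl (h.pc x hx).prj.idem),
    fun x hx => (Line51.rl_trace _).trans (by rw [(h.pc x hx).tr]; norm_num),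
    fun x _ => Line51.iL_mul _, fun x hx => ⟨fun a b => ?_, fun a => ?_, fun a => ?_, fun a => ?_⟩,
    fun a x hx => Line51.skw_rl ((h.pc x hx).sk a), fun a x _ => Line51.iL_mul _⟩ <;>
    simp only [C8.re, ← Line51.rl_mul, ← map_add, ← map_smul, ← map_sum]
  exacts [congrArg rl ((h.pc x hx).cl.rel a b), congrArg rl ((h.pc x hx).cl.pl a),
    congrArg rl ((h.pc x hx).cl.pr a), congrArg rl ((h.pc x hx).cl.proj a)]

/-- the real form of a unitary intertwiner -/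
theorem CI.re {m : C8 M ι κ} {m' : C8 M ι l} {u : M → Matrix l κ ℂ} {O : Set M} (i : CI I m m' u O)
    {x : M} (hx : x ∈ O) : FSm I (fun y => rl (u y)) x ∧ trn (rl (u x)) ∘L rl (u x) = m.re.p x ∧
      rl (u x) ∘L trn (rl (u x)) = m'.re.p x ∧ rl (u x) ∘L m.re.J = m'.re.J ∘L rl (u x) ∧
      ∀ a, rl (u x) ∘L m.re.ρ a x = m'.re.ρ a x ∘L rl (u x) := by
  refine ⟨Line51.fsm_rl (i.sm x hx), ?_, ?_, Line51.rl_comp_iL _, fun a => ?_⟩ <;>
    simp only [C8.re, ← Line51.rl_ct, ← Line51.rl_comp]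
  exacts [congrArg rl (i.un x hx).iso.src, congrArg rl (i.un x hx).iso.tgt,
    congrArg rl ((i.un x hx).ρ a)]

/-! ### frames -/

/-- an isomorphism from the range of `Q'` onto the range of `Q` -/
structure GI (G : Matrix ι ι' ℝ) (Q' : Matrix ι' ι' ℝ) (Q : Matrix ι ι ℝ) : Prop where
  src : Prj Q'
  tgt : Prj Q
  r : G * Q' = G
  l : Q * G = G
  inv : ∃ G' : Matrix ι' ι ℝ, G' * G = Q'
  tr : Q'.trace = Q.trace

theorem GI.pos {G : Matrix ι ι' ℝ} {Q' : Matrix ι' ι' ℝ} {Q : Matrix ι ι ℝ} (h : GI G Q' Q) :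
    (gram Q' G).PosDef := let ⟨_, e⟩ := h.inv; gram_posDef_of_left_inv h.src e

theorem GI.piso {G : Matrix ι ι' ℝ} {Q' : Matrix ι' ι' ℝ} {Q : Matrix ι ι ℝ} (h : GI G Q' Q) :
    PIso (nrm Q' G) Q' Q := nrm_piso h.src h.tgt h.r h.l h.pos h.tr

/-- the polar rotation from the frame `w` to the frame `e` -/
def pol (e : ι → VF I M) (w : ι' → VF I M) (x : M) : Matrix ι ι' ℝ := nrm (fP w x) (fM e w x)

section frames

variable {e : ι → VF I M} {w : ι' → VF I M} {z : ι'' → VF I M} {x : M}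

theorem prj_fP (h : Sp (atx e x)) : Prj (fP e x) :=
  ⟨by rw [conjTranspose_eq_transpose_of_trivial]; exact prj_transpose, h.prj_prj⟩

theorem p4_fP (h4 : finrank ℝ E = 4) (h : Sp (atx e x)) : P4 (fP e x) :=
  ⟨⟨prj_symm, fun a b => congrFun (congrFun h.prj_prj a) b⟩,
    (h.trace_prj (b := finBasis ℝ E)).trans (by simp [h4])⟩

theorem fM_mul (h : Sp (atx w x)) : fM e w x * fM w z x = fM e z x := by
  rw [fM, fM, fM, tm, tm, tm, Matrix.mul_assoc, ← Matrix.mul_assoc (fm _ _), h.fm_ri, Matrix.one_mul]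

theorem fM_self : fM e e x = fP e x := rfl

theorem gi_fM (h : Sp (atx e x)) (h' : Sp (atx w x)) : GI (fM e w x) (fP w x) (fP e x) :=
  ⟨prj_fP h', prj_fP h, fM_mul (z := w) h', h.prj_tm, ⟨_, fM_mul (e := w) h⟩,
    (h'.trace_prj (b := finBasis ℝ E)).trans (h.trace_prj (b := finBasis ℝ E)).symm⟩

theorem piso_pol (h : Sp (atx e x)) (h' : Sp (atx w x)) : PIso (pol e w x) (fP w x) (fP e x) :=
  (gi_fM h h').piso

theorem msm_pol (h : FAt e x) (h' : FAt w x) : MSm I (pol e w) x :=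
  MSm.nrm h'.msm_fP (msm_fM h h'.sm) ((sp_eventually h'.sm h'.sp).mono fun _ k => prj_fP k)
    (gi_fM h.sp h'.sp).pos

theorem pol_of_piso (h : PIso (fM e w x) (fP w x) (fP e x)) : pol e w x = fM e w x := nrm_of_piso h

theorem pol_self (h : Sp (atx e x)) : pol e e x = fP e x := nrm_of_piso (prj_fP h).refl

/-- for frames of the same metric the rotation is the matrix of coefficients -/
theorem pol_of_co (h : Sp (atx e x)) (h' : Sp (atx w x)) (c : Co (atx e x) (atx w x)) :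
    pol e w x = fM e w x :=
  pol_of_piso ⟨by rw [conjTranspose_eq_transpose_of_trivial]; exact (fM_rot h c).2,
    by rw [conjTranspose_eq_transpose_of_trivial]; exact (fM_rot h c).1, (gi_fM h h').r⟩

theorem pol_rel {f : N → M} {y : N} (h : IsLocalDiffeomorphAt I' I ∞ f y) {e' : ι → VF I' N}
    {w' : ι' → VF I' N} (hs : Sp (atx e' y)) (hs' : Sp (atx w' y))
    (hr : ∀ a, mfderiv I' I f y (e' a y) = e a (f y)) (hw : ∀ a, mfderiv I' I f y (w' a y) = w a (f y)) :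
    pol e' w' y = pol e w (f y) := by
  rw [pol, pol, fP_rel h hs' hw, fM_rel h hs hr hw]

end frames

/-! ### spin^c data -/

variable (I M) in
/-- a spanning frame with a module -/
structure Sc (ι κ : Type) where
  e : ι → VF I M
  m : C8 M ι κ

namespace Sc

/-- smooth data on `O` -/
structure On (d : Sc I M ι κ) (O : Set M) : Prop where
  fr : ∀ x ∈ O, FAt d.e x
  m : d.m.On I (fP d.e) O

/-- the module transported to the frame `w` -/
def tp (d : Sc I M ι κ) (w : ι' → VF I M) : C8 M ι' κ := d.m.rot (pol d.e w)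

variable (I') in
/-- pull-back along a local diffeomorphism -/
def pull (d : Sc I M ι κ) (f : N → M) : Sc I' N ι κ := ⟨fun a => pbv I' I f (d.e a), d.m.comp f⟩

/-- the conjugate structure -/
def bar (d : Sc I M ι κ) : Sc I M ι κ := ⟨d.e, d.m.bar⟩

/-- twisting by a line -/
def tw (d : Sc I M ι κ) (q : M → Matrix n n ℂ) : Sc I M ι (κ × n) := ⟨d.e, d.m.tw q⟩

/-- the difference line -/
def hl (d : Sc I M ι κ) (d' : Sc I M ι' l) : M → Matrix (l × κ) (l × κ) ℂ := Lab56.hl (d.tp d'.e) d'.m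

/-- the determinant line -/
def det (d : Sc I M ι κ) : M → Matrix (κ × κ) (κ × κ) ℂ := Lab56.hl d.m.bar d.m

end Sc

/-- an isomorphism of spin^c data on `O` -/
abbrev Iw (d : Sc I M ι κ) (d' : Sc I M ι' l) (u : M → Matrix l κ ℂ) (O : Set M) : Prop :=
  CI I (d.tp d'.e) d'.m u O

/-- isomorphic spin^c data on `O` -/
def Eqv (d : Sc I M ι κ) (d' : Sc I M ι' l) (O : Set M) : Prop := ∃ u, Iw d d' u O

section sc

variable {d : Sc I M ι κ} {d' : Sc I M ι' l} {O O' : Set M} {w : ι' → VF I M} {f : N → M} {W : Set N}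
  {u : M → Matrix l κ ℂ} {q : M → Matrix n n ℂ} {q' : M → Matrix k k ℂ}

theorem Sc.On.mono (h : d.On O) (hO : O' ⊆ O) : d.On O' := ⟨fun x hx => h.fr x (hO hx), h.m.mono hO⟩

theorem Sc.On.tp (h : d.On O) (hw : ∀ x ∈ O, FAt w x) : (d.tp w).On I (fP w) O :=
  h.m.rot (fun x hx => msm_pol (h.fr x hx) (hw x hx)) fun x hx => piso_pol (h.fr x hx).sp (hw x hx).sp

theorem Sc.On.chg (h : d.On O) (hw : ∀ x ∈ O, FAt w x) : (⟨w, d.tp w⟩ : Sc I M ι' κ).On O :=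
  ⟨hw, h.tp hw⟩

theorem Sc.On.bar (h : d.On O) : d.bar.On O := ⟨h.fr, h.m.bar⟩

theorem Sc.On.tw (h : d.On O) (hq : LOn I q O) : (d.tw q).On O := ⟨h.fr, h.m.tw hq⟩

theorem Sc.On.pull (h : d.On O) (hf : ∀ y ∈ W, IsLocalDiffeomorphAt I' I ∞ f y) (hm : MapsTo f W O) :
    (d.pull I' f).On W :=
  ⟨fun y hy => (h.fr _ (hm hy)).pbv (hf y hy),
    (h.m.comp (fun y hy => (hf y hy).contMDiffAt) hm).congr fun y hy =>
      fP_rel (hf y hy) ((h.fr _ (hm hy)).pbv (hf y hy)).sp fun a => pbv_rel (hf y hy) (d.e a)⟩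

theorem Sc.On.hl (h : d.On O) (h' : d'.On O) : LOn I (d.hl d') O := lOn_hl (h.tp h'.fr) h'.m

theorem Sc.On.det (h : d.On O) : LOn I d.det O := lOn_hl h.m.bar h.m

theorem Sc.On.re (h : d.On O) : d.m.re.On I (fun a b x => fP d.e x a b) O := h.m.re

theorem Sc.On.tp_self (h : d.On O) {x : M} (hx : x ∈ O) : (d.tp d.e).r x = d.m.r x := by
  have := (h.m.pc x hx).rot_self (h.m.p4 x hx).pr.symm
  rw [← this]
  exact congrArg (fun R => rot R (d.m.r x)) (pol_self (h.fr x hx).sp)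

/-- for a common frame `Iw` is `CI` -/
theorem iw_iff {m' : C8 M ι l} (h : d.On O) : Iw d ⟨d.e, m'⟩ u O ↔ CI I d.m m' u O :=
  ⟨fun i => i.of_eq (fun _ hx => ⟨rfl, (h.tp_self hx).symm⟩) fun _ _ => ⟨rfl, rfl⟩,
    fun i => i.of_eq (fun _ hx => ⟨rfl, h.tp_self hx⟩) fun _ _ => ⟨rfl, rfl⟩⟩

theorem Eqv.mono (h : Eqv d d' O) (hO : O' ⊆ O) : Eqv d d' O' := let ⟨u, i⟩ := h; ⟨u, i.mono hO⟩

theorem Eqv.refl (h : d.On O) : Eqv d d O := ⟨_, (iw_iff h).2 h.m.refl⟩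

theorem Eqv.chg (h : d.On O) (hw : ∀ x ∈ O, FAt w x) : Eqv d (⟨w, d.tp w⟩ : Sc I M ι' κ) O :=
  ⟨_, (h.tp hw).refl⟩

theorem eqv_iff (h : d.On O) (h' : d'.On O) :
    Eqv d d' O ↔ ∃ s : M → Matrix (l × κ) Unit ℂ, Uni I (fun _ => 1) (d.hl d') s O :=
  ⟨fun ⟨_, i⟩ => ⟨_, CI.col (h.tp h'.fr) h'.m i⟩, fun ⟨_, s⟩ => ⟨_, ci_unc (h.tp h'.fr) h'.m s⟩⟩

theorem tp_pull (h : d.On O) (hw : ∀ x ∈ O, FAt w x) (hf : ∀ y ∈ W, IsLocalDiffeomorphAt I' I ∞ f y)
    (hm : MapsTo f W O) {y : N} (hy : y ∈ W) :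
    ((d.pull I' f).tp fun a => pbv I' I f (w a)).r y = (d.tp w).r (f y) :=
  congrArg (fun R => rot R (d.m.r (f y))) (pol_rel (hf y hy) ((h.fr _ (hm hy)).pbv (hf y hy)).sp
    ((hw _ (hm hy)).pbv (hf y hy)).sp (fun a => pbv_rel (hf y hy) (d.e a))
    fun a => pbv_rel (hf y hy) (w a))

theorem Iw.pull (h : d.On O) (h' : d'.On O) (i : Iw d d' u O)
    (hf : ∀ y ∈ W, IsLocalDiffeomorphAt I' I ∞ f y) (hm : MapsTo f W O) :
    Iw (d.pull I' f) (d'.pull I' f) (fun y => u (f y)) W :=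
  (CI.comp i (fun y hy => (hf y hy).contMDiffAt) hm).of_eq
    (fun _ hy => ⟨rfl, tp_pull h h'.fr hf hm hy⟩) fun _ _ => ⟨rfl, rfl⟩

theorem Eqv.pull (h : d.On O) (h' : d'.On O) (i : Eqv d d' O)
    (hf : ∀ y ∈ W, IsLocalDiffeomorphAt I' I ∞ f y) (hm : MapsTo f W O) :
    Eqv (d.pull I' f) (d'.pull I' f) W := let ⟨_, i⟩ := i; ⟨_, i.pull h h' hf hm⟩

theorem hl_pull (h : d.On O) (h' : d'.On O) (hf : ∀ y ∈ W, IsLocalDiffeomorphAt I' I ∞ f y)
    (hm : MapsTo f W O) {y : N} (hy : y ∈ W) : (d.pull I' f).hl (d'.pull I' f) y = d.hl d' (f y) :=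
  congrArg (fun R => hP R (d'.m.r (f y))) (tp_pull h h'.fr hf hm hy)

theorem det_pull (d : Sc I M ι κ) (f : N → M) (y : N) : (d.pull I' f).det y = d.det (f y) := rfl

theorem tp_bar (d : Sc I M ι κ) (w : ι' → VF I M) : d.bar.tp w = (d.tp w).bar :=
  congrArg (C8.mk _) (funext₂ fun a x => (cj_rot (pol d.e w x) (d.m.r x) a).symm)

theorem tp_tw (d : Sc I M ι κ) (q : M → Matrix n n ℂ) (w : ι' → VF I M) :
    (d.tw q).tp w = (d.tp w).tw q :=
  congrArg (C8.mk _) (funext₂ fun a x => rot_tw (pol d.e w x) (d.m.r x) (q x) a)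

theorem Iw.bar (i : Iw d d' u O) : Iw d.bar d'.bar (fun x => cj (u x)) O := by
  rw [Iw, tp_bar]; exact CI.bar i

theorem Eqv.bar (i : Eqv d d' O) : Eqv d.bar d'.bar O := let ⟨_, i⟩ := i; ⟨_, i.bar⟩

theorem Iw.tw (i : Iw d d' u O) {v : M → Matrix k n ℂ} (hv : Uni I q q' v O) :
    Iw (d.tw q) (d'.tw q') (fun x => u x ⊗ₖ v x) O := by
  rw [Iw, tp_tw]; exact CI.tw i hv

theorem Eqv.tw (i : Eqv d d' O) {v : M → Matrix k n ℂ} (hv : Uni I q q' v O) :
    Eqv (d.tw q) (d'.tw q') O := let ⟨_, i⟩ := i; ⟨_, i.tw hv⟩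

theorem Sc.bar_bar (d : Sc I M ι κ) : d.bar.bar = d := congrArg (Sc.mk d.e) d.m.bar_bar

/-- data that agree on `O` up to literal equality -/
theorem Iw.of_eq {a : Sc I M ι κ} {a' : Sc I M ι' l} (i : Iw d d' u O)
    (e : ∀ x ∈ O, atx a.e x = atx d.e x ∧ a.m.p x = d.m.p x ∧ a.m.r x = d.m.r x)
    (e' : ∀ x ∈ O, atx a'.e x = atx d'.e x ∧ a'.m.p x = d'.m.p x ∧ a'.m.r x = d'.m.r x) :
    Iw a a' u O :=
  CI.of_eq i (fun x hx => ⟨(e x hx).2.1, by
    show rot (pol a.e a'.e x) (a.m.r x) = rot (pol d.e d'.e x) (d.m.r x)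
    rw [pol, pol, fP, fP, fM, fM, (e x hx).1, (e' x hx).1, (e x hx).2.2]⟩) fun x hx => (e' x hx).2

end sc

end Crest.Agent.X212.Lab56
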