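import Crest.Agent.X212.Lab56.Gd

/-!
# X212 / Lab56, part Exi (helper56): existence of spin^c data on rod manifolds

* `Eqv.of_pull`, `exists_patch`, `eqv_iUnion`, `exists_glue_eqv`, `pic_tube`, `dfm_off`, `sigX`;
* `ok_all` : a datum of `N × ℝ` extends over every filling of the tube;
* `exists_dat` : it extends over the rod manifold;  `tor_wd`, `tor_V1`, `tor_V2`, `eqv_off`, `pic_off`.
-/

set_option autoImplicit false
set_option linter.unusedSectionVars false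

open Set Filter Topology Function Matrix TopologicalSpace
open scoped ContDiff Manifold
open Crest.Agent.X212.Pj41 Crest.Agent.X212.Met55 Crest.Agent.X212.Line51
open Crest.Agent.X212.Rod53 hiding Uni X cj
open Crest.Agent.X212.Pic56 (HasLog IsLine IsFrame clm)

noncomputable section

namespace Crest.Agent.X212.Lab56

variable {ι ι' κ l : Type} [Fintype ι] [Fintype ι'] [Fintype κ] [Fintype l]
  [DecidableEq ι] [DecidableEq ι'] [DecidableEq κ] [DecidableEq l]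

section gen

variable {E : Type} [NormedAddCommGroup E] [NormedSpace ℝ E] [FiniteDimensional ℝ E]
  {H : Type} [TopologicalSpace H] {I : ModelWithCorners ℝ E H}
  {M : Type} [TopologicalSpace M] [ChartedSpace H M] [IsManifold I ∞ M]
  {E' : Type} [NormedAddCommGroup E'] [NormedSpace ℝ E'] [FiniteDimensional ℝ E']
  {H' : Type} [TopologicalSpace H'] {I' : ModelWithCorners ℝ E' H'}
  {N : Type} [TopologicalSpace N] [ChartedSpace H' N] [IsManifold I' ∞ N]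
  {d : Sc I M ι κ} {d' : Sc I M ι' l} {O : Set M} {W : Set N}

theorem pull_pd (φ : PartialDiffeomorph I' I N M ∞) (d : Sc I M ι κ) (hO : O ⊆ φ.target) :
    d.Eq ((d.pull I' φ).pull I φ.symm) O :=
  pull_inv d (fun _ hx => ld_pd φ.symm (hO hx)) (fun _ hx => ld_pd φ (φ.map_target (hO hx)))
    fun _ hx => eventually_of_mem (φ.open_target.mem_nhds (hO hx)) fun _ hy => φ.right_inv hy

theorem Eqv.of_pull (φ : PartialDiffeomorph I' I N M ∞) (hO : O ⊆ φ.target) (hm : MapsTo φ.symm O W)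
    (h : (d.pull I' φ).On W) (h' : (d'.pull I' φ).On W) (i : Eqv (d.pull I' φ) (d'.pull I' φ) W) :
    Eqv d d' O :=
  (i.pull h h' (fun _ hx => ld_pd φ.symm (hO hx)) hm).of_eq (pull_pd φ d hO).symm (pull_pd φ d' hO).symm

theorem on_of_loc (h : ∀ x ∈ O, ∃ V, x ∈ V ∧ d.On V) : d.On O :=
  ⟨fun x hx => let ⟨_, a, b⟩ := h x hx; b.fr x a, fun x hx => let ⟨_, a, b⟩ := h x hx; b.m.p4 x a,
    fun x hx => let ⟨_, a, b⟩ := h x hx; b.m.sp x a, fun c x hx => let ⟨_, a, b⟩ := h x hx; b.m.sρ c x a,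
    fun x hx => let ⟨_, a, b⟩ := h x hx; b.m.pc x a⟩

theorem exists_idx {A X : Type*} [Nonempty A] {V : A → Set X} (hd : Pairwise (Disjoint on V)) :
    ∃ k : X → A, ∀ i, ∀ x ∈ V i, k x = i :=
  ⟨fun x => Classical.epsilon fun i => x ∈ V i, fun i x hx => by_contra fun e =>
    disjoint_left.1 (hd e) (Classical.epsilon_spec (p := fun i => x ∈ V i) ⟨i, hx⟩) hx⟩

theorem exists_patch {A : Type*} [Nonempty A] {V : A → Set M} (hV : ∀ i, IsOpen (V i))
    (hd : Pairwise (Disjoint on V)) {D : A → Sc I M ι κ} (h : ∀ i, (D i).On (V i)) :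
    ∃ e : Sc I M ι κ, e.On (⋃ i, V i) := by
  obtain ⟨k, hk⟩ := exists_idx hd
  refine ⟨⟨fun c x => (D (k x)).e c x, fun x => (D (k x)).m.p x, fun c x => (D (k x)).m.ρ c x⟩,
    on_of_loc fun x hx => ?_⟩
  obtain ⟨i, hi⟩ := mem_iUnion.1 hx
  exact ⟨_, hi, Sc.Eq.on (d := D i) (fun y hy => by rw [← hk i y hy]; exact ⟨rfl, rfl, rfl⟩) (hV i) (h i)⟩

theorem eqv_iUnion {A : Type*} [Nonempty A] {V : A → Set M} (hV : ∀ i, IsOpen (V i))
    (hd : Pairwise (Disjoint on V)) (h : ∀ i, Eqv d d' (V i)) : Eqv d d' (⋃ i, V i) := by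
  obtain ⟨k, hk⟩ := exists_idx hd
  choose u hu using h
  have e := fun i => CI.congr (u' := fun x => u (k x) x) (hV i) (hu i) fun x hx => by beta_reduce; rw [hk i x hx]
  exact ⟨_, fun x hx => let ⟨i, hi⟩ := mem_iUnion.1 hx; (e i).sm x hi,
    fun x hx => let ⟨i, hi⟩ := mem_iUnion.1 hx; (e i).un x hi⟩

variable [T2Space M] [SigmaCompactSpace M] [I.Boundaryless]

theorem exists_glue_eqv {U V : Set M} (hU : IsOpen U) (hV : IsOpen V) (hn : (U ∪ V).Nonempty) (h : d.On U)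
    (h' : d'.On V) (i : Eqv d d' (U ∩ V)) :
    ∃ g : Sc I M (ι ⊕ ι') (κ ⊕ l), g.On (U ∪ V) ∧ Eqv d g U ∧ Eqv d' g V := by
  let A : Opens M := ⟨U ∪ V, hU.union hV⟩
  have := sigma_opens (I := I) A
  have : Nonempty A := hn.to_subtype
  have hv := Cyl58.isOE_val (IA := I) A
  have t : hv.pd.target = U ∪ V := Subtype.range_val
  have r : ∀ x ∈ U ∪ V, (hv.pd.symm x : M) = x := fun x hx => hv.pd.right_inv (t.ge hx)
  have k1 := h.pull (W := Subtype.val ⁻¹' U) (fun y _ => hv.loc y) (mapsTo_preimage _ _)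
  have k2 := h'.pull (W := Subtype.val ⁻¹' V) (fun y _ => hv.loc y) (mapsTo_preimage _ _)
  obtain ⟨u, i⟩ := i.pull (W := Subtype.val ⁻¹' U ∩ Subtype.val ⁻¹' V) (h.mono inter_subset_left)
    (h'.mono inter_subset_right) (fun y _ => hv.loc y) fun _ hy => hy
  obtain ⟨g, a, b, g1, g2, g3, -⟩ := Sc.exists_glue (hU.preimage hv.continuous) (hV.preimage hv.continuous)
    (eq_univ_of_forall fun y => y.2) k1 k2 i
  have ld := fun x (hx : x ∈ U ∪ V) => ld_pd hv.pd.symm (t.ge hx)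
  exact ⟨g.pull I hv.pd.symm, g1.pull ld (mapsTo_univ _ _),
    (Eqv.pull k1 (g1.mono (subset_univ _)) ⟨a, g2⟩ (fun x hx => ld x (Or.inl hx)) fun x hx =>
      show _ ∈ U from (r x (Or.inl hx)).symm ▸ hx).of_eq
      (pull_pd hv.pd d (subset_union_left.trans t.ge)).symm (.refl _ _),
    (Eqv.pull k2 (g1.mono (subset_univ _)) ⟨b, g3⟩ (fun x hx => ld x (Or.inr hx)) fun x hx =>
      show _ ∈ V from (r x (Or.inr hx)).symm ▸ hx).of_eq
      (pull_pd hv.pd d' (subset_union_right.trans t.ge)).symm (.refl _ _)⟩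

end gen

/-- lines on a solid torus times an interval are trivial -/
theorem pic_tube {J : Set ℝ} (hJ : IsOpen J) (hc : OrdConnected J) :
    Pic0 IR ((univ : Set (Circle × ℂ)) ×ˢ J) (univ ×ˢ J) := fun n _ _ q hq => by
  rcases J.eq_empty_or_nonempty with rfl | ⟨s, hs⟩
  · exact ⟨0, fun _ h => h.2.elim, fun _ h => h.2.elim⟩
  obtain ⟨a, ha⟩ := Pic56.frame_circle (hq.isLine.comp (g := fun u : Circle => ((u, 0), s)) (T := univ)
    (by fun_prop) fun _ _ => ⟨trivial, hs⟩)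
  refine Dfm.fr (O := univ ×ˢ J) (O₀ := {z | z.1.2 = 0 ∧ z.2 = s}) ⟨fun z => ((z.2.1.1, z.1 • z.2.1.2), (1 - z.1) * s + z.1 * z.2.2),
    by fun_prop, fun t ht x hx => ⟨trivial, hc.convex hs hx.2 (sub_nonneg.2 ht.2) ht.1 (sub_add_cancel _ _)⟩,
    fun x _ => by simp, fun x _ => by simp⟩ (isOpen_univ.prod hJ) hq (s := fun z => a z.1.1)
    ⟨((continuousOn_univ.1 ha.cont).comp (by fun_prop)).continuousOn, ?_, fun z _ => ha.ne _ trivial⟩
  rintro ⟨⟨u, _⟩, _⟩ ⟨rfl, rfl⟩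
  exact ha.sec u trivial

variable {EN HN : Type} [NormedAddCommGroup EN] [NormedSpace ℝ EN] [FiniteDimensional ℝ EN]
  [TopologicalSpace HN] {IN : ModelWithCorners ℝ EN HN} [IN.Boundaryless]
  {N : Type} [TopologicalSpace N] [ChartedSpace HN N] [IsManifold IN ∞ N] [T2Space N]
  {T : Tb IN N} {v : ℝ → Z2} {a b a' b' : Z2} {c s : ℝ} {J J' : Set ℝ} {x : Rod53.X T v}
  {d : Sc (𝓡 4) (Rod53.X T v) ι' l}

theorem sigX [SecondCountableTopology N] (hv : Loc v) : SigmaCompactSpace (Rod53.X T v) :=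
  have := T.secondCountable hv
  have := ChartedSpace.locallyCompactSpace E4 (Rod53.X T v)
  inferInstance

theorem dfm_off {A : Set N} {S : Set (Rod53.X T v)} (hS : ∀ q : N × ℝ, q.1 ∈ T.Ex → (T.ext v q ∈ S ↔ q.1 ∈ A))
    (hJ : OrdConnected J) (hs : s ∈ J) (hs' : s ∈ J') :
    Dfm (S ∩ T.time v ⁻¹' J ∩ off T v) (S ∩ T.time v ⁻¹' J' ∩ off T v) :=
  have m : ∀ J : Set ℝ, MapsTo (T.ext v) ((T.Ex ∩ A) ×ˢ J) (S ∩ T.time v ⁻¹' J ∩ off T v) := fun _ q hq =>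
    ⟨⟨(hS q hq.1.1).2 hq.1.2, by rw [mem_preimage, T.time_ext hq.1.1]; exact hq.2⟩, ext_mem_off hq.1.1⟩
  (dfm_cyl (T.Ex ∩ A) hJ hs hs').comp (p := (T.ext v).symm) (q := T.ext v)
    (fun _ hy => (ld_ext_symm hy.2).contMDiffAt.continuousAt.continuousWithinAt)
    (fun _ hy => ⟨⟨(maps_ext_symm hy.2).1, (hS _ (maps_ext_symm hy.2).1).1 (by
      rw [ext_ext_symm hy.2]; exact hy.1.1)⟩, by rw [time_eq hy.2]; exact hy.1.2⟩)
    (fun q hq => (ld_pd (T.ext v) (mk_mem_prod hq.1.1 trivial)).contMDiffAt.continuousAt.continuousWithinAt)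
    (m J) (fun _ hq => m J' hq.2) fun _ hy => ext_ext_symm hy.2

theorem mem_rod_target (hu : Rod53.Uni a b) (h : x ∈ T.tor v) (h' : x ∈ off T v ∨ T.time v x ∈ Jr v a) :
    x ∈ (T.rod v hu).target := by
  obtain ⟨w, hw, rfl⟩ := T.mem_rod hu h (h'.imp_left fun o => by
    obtain ⟨w, k, rfl⟩ := (Cls19.mem_tube (J := univ)).1 ⟨⟨h, o⟩, trivial⟩
    rw [T.yy_rod uni_std (Or.inl k.1)]
    exact norm_ne_zero_iff.2 k.1)
  exact (T.rod v hu).map_source hw

theorem mem_vtx_target (hu : Rod53.Uni a b) (h : x ∈ T.tor v) (h' : T.time v x ∈ Jv v a b c) :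
    x ∈ (T.vtx v hu c).target :=
  let ⟨_, hz, e⟩ := T.mem_vtx hu h (Or.inr h'); e ▸ (T.vtx v hu c).map_source hz

theorem rod_symm (hu : Rod53.Uni a b) (h : x ∈ (T.rod v hu).target) :
    ((T.rod v hu).symm x).2 = T.time v x ∧ (((T.rod v hu).symm x).1.2 ≠ 0 ↔ x ∈ off T v) := by
  have k := (T.rod v hu).map_target h
  have e : T.rod v hu ((T.rod v hu).symm x) = x := (T.rod v hu).right_inv h
  exact ⟨(T.time_rod hu k).symm.trans (congrArg _ e), (rod_mem_off (T := T) hu k).symm.trans (iff_of_eq (congrArg (· ∈ off T v) e))⟩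

theorem maps_rod (hu : Rod53.Uni a b) (h : J ⊆ Jr v a) :
    MapsTo (T.rod v hu) (univ ×ˢ J) (T.tor v ∩ T.time v ⁻¹' J) := fun _ hw =>
  ⟨T.rod_mem_tor hu (Or.inr (h hw.2)), by rw [mem_preimage, T.time_rod hu (Or.inr (h hw.2))]; exact hw.2⟩

theorem pic_tor (hu : Rod53.Uni a b) (hJ : IsOpen J) (hc : OrdConnected J) (h : J ⊆ Jr v a) :
    Pic0 (𝓡 4) (T.tor v ∩ T.time v ⁻¹' J) (T.tor v ∩ T.time v ⁻¹' J) :=
  have k := fun x (hx : x ∈ T.tor v ∩ T.time v ⁻¹' J) => mem_rod_target hu hx.1 (Or.inr (h hx.2))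
  (pic_tube hJ hc).comp (f := (T.rod v hu).symm) (g := T.rod v hu)
    (fun x hx => (ld_pd (T.rod v hu).symm (k x hx)).contMDiffAt)
    (fun x hx => ⟨trivial, by rw [(rod_symm hu (k x hx)).1]; exact hx.2⟩)
    (fun _ hw => (ld_pd (T.rod v hu) (Or.inr (h hw.2))).contMDiffAt) (maps_rod hu h)
    fun x hx => (T.rod v hu).right_inv (k x hx)

variable (T v) in
/-- the flat datum of a vertex chart -/
def vd (hu : Rod53.Uni a b) (c : ℝ) : Sc (𝓡 4) (Rod53.X T v) (Fin 4) (Fin 4) :=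
  (flat (E := ℂ × ℂ) (by simp)).pull (𝓡 4) (T.vtx v hu c).symm

theorem on_vd (hu : Rod53.Uni a b) (h : J ⊆ Jv v a b c) : (vd T v hu c).On (T.tor v ∩ T.time v ⁻¹' J) :=
  (on_flat _).pull (fun _ hx => ld_pd (T.vtx v hu c).symm (mem_vtx_target hu hx.1 (h hx.2))) (mapsTo_univ _ _)

section ok

variable {D : Sc (IN.prod 𝓘(ℝ, ℝ)) (N × ℝ) ι κ}

/-- the punctured tube -/
abbrev Zc : Set (Circle × ℂ) := {w | w.2 ≠ 0}

variable (T) in
/-- `D` extends over the filling torus -/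
def Ok (D : Sc (IN.prod 𝓘(ℝ, ℝ)) (N × ℝ) ι κ) (a b : Z2) : Prop :=
  Eqv (D.pull IR (Prod.map (T.τ ∘ gl a b) id)) (D.pull IR (Prod.map T.τ id)) (Zc ×ˢ univ)

theorem on_tau (hD : D.On univ) : (D.pull IR (Prod.map T.τ id)).On univ :=
  hD.pull (fun w _ => Cyl58.ld_prodMap (T.ld w.1) (Cyl58.ld_id _)) (mapsTo_univ _ _)

theorem on_gl (hD : D.On univ) (hu : Rod53.Uni a b) : (D.pull IR (Prod.map (T.τ ∘ gl a b) id)).On (Zc ×ˢ univ) :=
  hD.pull (fun _ hw => Cyl58.ld_prodMap ((ld_gl hu hw.1).comp _ _ (T.ld _)) (Cyl58.ld_id _)) (mapsTo_univ _ _)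

theorem on_dx (hD : D.On univ) : (D.pull (𝓡 4) (T.ext v).symm).On (off T v) :=
  hD.pull (fun _ => ld_ext_symm) (mapsTo_univ _ _)

theorem eq_rod (D : Sc (IN.prod 𝓘(ℝ, ℝ)) (N × ℝ) ι κ) (hu : Rod53.Uni a b) :
    ((D.pull (𝓡 4) (T.ext v).symm).pull IR (T.rod v hu)).Eq (D.pull IR (Prod.map (T.τ ∘ gl a b) id))
      (Zc ×ˢ univ) :=
  (pull_pull D (fun _ hw => ld_pd (T.rod v hu) (Or.inl hw.1)) fun _ hw =>
    ld_ext_symm ((rod_mem_off hu (Or.inl hw.1)).2 hw.1)).trans (pull_congr D fun _ hw =>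
      eventually_of_mem ((isOpen_ne2.prod isOpen_univ).mem_nhds hw) fun w k => by
        rw [Function.comp_apply, T.rod_eq_ext hu k.1, ext_symm_ext (T.τ_mem.2 (gl_ne.2 k.1))]; rfl)

theorem ok_iff (hD : D.On univ) (hu : Rod53.Uni a b) (hJ : IsOpen J) (hc : OrdConnected J) (hn : J.Nonempty)
    (h : J ⊆ Jr v a) (hd : d.On (T.tor v ∩ T.time v ⁻¹' J)) :
    Ok T D a b ↔ Eqv (D.pull (𝓡 4) (T.ext v).symm) d (T.tor v ∩ T.time v ⁻¹' J ∩ off T v) := by
  have o := isOpen_ne2.prod hJ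
  have s1 : Zc ×ˢ J ⊆ Zc ×ˢ univ := prod_mono_right (subset_univ _)
  have s2 : Zc ×ˢ J ⊆ univ ×ˢ J := prod_mono_left (subset_univ _)
  have k1 := (on_gl (T := T) hD hu).mono s1
  have k2 := (on_tau (T := T) hD).mono (subset_univ (univ ×ˢ J))
  have k3 := hd.pull (fun _ hw => ld_pd (T.rod v hu) (Or.inr (h hw.2))) (maps_rod hu h)
  have i := ((pic_tube hJ hc).eqv subset_rfl k2 k3).mono s2
  have e := (eq_rod (T := T) (v := v) D hu).mono s1
  constructor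
  · intro k
    have t := fun x (hx : x ∈ T.tor v ∩ T.time v ⁻¹' J ∩ off T v) => mem_rod_target hu hx.1.1 (Or.inl hx.2)
    exact Eqv.of_pull (W := Zc ×ˢ J) (T.rod v hu) t (fun x hx => ⟨(rod_symm hu (t x hx)).2.2 hx.2, by
      rw [(rod_symm hu (t x hx)).1]; exact hx.1.2⟩) (e.symm.on o k1) (k3.mono s2)
      (((k.mono s1).trans o k1 (k2.mono s2) (k3.mono s2) i).of_eq e.symm (.refl _ _))
  · intro k
    refine Eqv.cyl isOpen_ne2 isOpen_univ ordConnected_univ (subset_univ J) hn (on_gl hD hu)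
      ((on_tau hD).mono (subset_univ _)) (Eqv.trans o k1 (k3.mono s2) (k2.mono s2) ?_
        (i.symm (k2.mono s2) (k3.mono s2)))
    exact (k.pull ((on_dx hD).mono inter_subset_right) (hd.mono inter_subset_left)
      (fun _ hw => ld_pd (T.rod v hu) (Or.inl hw.1)) fun w hw =>
        ⟨maps_rod hu h (s2 hw), (rod_mem_off hu (Or.inl hw.1)).2 hw.1⟩).of_eq e (.refl _ _)

variable [SecondCountableTopology N]

theorem Ok.eqv (hD : D.On univ) (hv : Loc v) (hu : Rod53.Uni a b) (hJ : IsOpen J) (hc : OrdConnected J)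
    (hn : J.Nonempty) (h : J ⊆ Jr v a) (hd : d.On (T.tor v)) (k : Ok T D a b) :
    Eqv (D.pull (𝓡 4) (T.ext v).symm) d (T.tor v ∩ T.time v ⁻¹' univ ∩ off T v) :=
  have := sigX (T := T) hv
  (dfm_off (fun _ => T.ext_mem_tor) ordConnected_univ trivial hn.some_mem).eqv
    ((T.isOpen_tor.inter (isOpen_time isOpen_univ)).inter isOpen_off)
    (fun _ hx => ⟨⟨hx.1.1, trivial⟩, hx.2⟩) ((on_dx hD).mono inter_subset_right)
    (hd.mono fun _ hx => hx.1.1) ((ok_iff hD hu hJ hc hn h (hd.mono inter_subset_left)).1 k)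

theorem Ok.step (hD : D.On univ) (hu : Rod53.Uni a b) (hu' : Rod53.Uni a' b') (h : PM a a' ∨ a' = b)
    (k : Ok T D a b) : Ok T D a' b' := by
  have hd := (on_vd (T := T) hu (J := univ) fun x _ => Jv_vx a b 0 x).mono
    (fun x (hx : x ∈ T.tor (vx a b 0)) => ⟨hx, trivial⟩)
  have e := k.eqv hD (fun x => ⟨a, b, 0, hu, Jv_vx a b 0 x⟩) hu isOpen_Iio ordConnected_Iio nonempty_Iio
    (fun _ => Jr_vx_left) hd
  rcases h with h | rfl
  · exact (ok_iff hD hu' isOpen_Iio ordConnected_Iio nonempty_Iio (fun _ hx => Jr_congr h ▸ Jr_vx_left hx)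
      (hd.mono inter_subset_left)).2 (e.mono fun _ hx => ⟨⟨hx.1.1, trivial⟩, hx.2⟩)
  · exact (ok_iff hD hu' isOpen_Ioi ordConnected_Ioi nonempty_Ioi (fun _ => Jr_vx_right)
      (hd.mono inter_subset_left)).2 (e.mono fun _ hx => ⟨⟨hx.1.1, trivial⟩, hx.2⟩)

/-- **a datum of `N × ℝ` extends over all filling tori** -/
theorem ok_all (hD : D.On univ) (hu : Rod53.Uni a b) : Ok T D a b := by
  induction h : a.1.natAbs using Nat.strong_induction_on generalizing a b with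
  | _ n ih =>
    by_cases e : a.1 = 0
    · refine Ok.step hD uni_std hu (Or.inl ?_) (((pull_congr D fun w _ => .of_forall fun w => ?_).symm).eqv
        (on_gl hD uni_std))
      · obtain ⟨x, y⟩ := a
        obtain rfl : x = 0 := e
        have := hu.sq
        simp only [dt, zero_mul, zero_sub, neg_mul_neg] at this
        rcases Int.eq_one_or_neg_one_of_mul_eq_one (show y * (b.1 * (y * b.1)) = 1 by linarith) with rfl | rfl
        exacts [Or.inl rfl, Or.inr rfl]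
      · exact Prod.ext (congrArg T.τ (gl_id w.1)) rfl
    · have k : Rod53.Uni (b - (b.1 / a.1) • a) a := by
        have : dt (b - (b.1 / a.1) • a) a = dt b a := by simp [dt]; ring
        unfold Rod53.Uni
        rw [this]
        exact hu.symm
      refine Ok.step hD k hu (Or.inr rfl) (ih _ ?_ k rfl)
      have h1 := Int.emod_nonneg b.1 e
      have h2 := Int.emod_lt_abs b.1 e
      have h3 : (b - (b.1 / a.1) • a).1 = b.1 % a.1 := by simp [Int.emod_def, mul_comm]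
      rw [h3, ← h]
      rw [Int.abs_eq_natAbs] at h2
      omega

theorem exists_tor {w : ℤ → Z2} (hw : IsWd w) :
    ∃ e : Sc (𝓡 4) (Rod53.X T (wd w)) (Fin 4 ⊕ Fin 4) (Fin 4 ⊕ Fin 4), e.On (T.tor (wd w)) := by
  have := sigX (T := T) hw.loc
  have h1 : ∀ i : ℤ, ∃ d : Sc (𝓡 4) (Rod53.X T (wd w)) (Fin 4) (Fin 4),
      d.On (T.tor (wd w) ∩ T.time (wd w) ⁻¹' Ioo ((i : ℝ) - 1) (i + 1)) := fun i => by
    obtain ⟨b, hb⟩ := hw.prim i
    rcases hw.step i with k | k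
    · refine ⟨_, on_vd hb (c := i + 1) fun t ht => Jv.of_left (Ioo_subset_Jr' (i := i - 1) (j := i)
        (fun j a b => ?_) (by simpa using ht)) ht.2⟩
      obtain rfl | rfl : j = i - 1 ∨ j = i := by omega
      exacts [k, PM.refl _]
    · exact ⟨_, on_vd k (Ioo_subset_Jv k)⟩
  choose D hD using h1
  have o := fun a b : ℝ => T.isOpen_tor.inter (isOpen_time (T := T) (v := wd w) (isOpen_Ioo (a := a) (b := b)))
  have h2 := fun r : ℤ => exists_patch (fun i : ℤ => o _ _) (fun i j e => disjoint_left.2 fun x a b => e (by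
    have h3 : 2 * i + r < 2 * j + r + 2 := by
      exact_mod_cast (by linarith [a.2.1, b.2.2] : ((2 * i + r : ℤ) : ℝ) < (2 * j + r : ℤ) + 2)
    have h4 : 2 * j + r < 2 * i + r + 2 := by
      exact_mod_cast (by linarith [a.2.2, b.2.1] : ((2 * j + r : ℤ) : ℝ) < (2 * i + r : ℤ) + 2)
    omega)) fun i => hD (2 * i + r)
  obtain ⟨e₀, h3⟩ := h2 0
  obtain ⟨e₁, h4⟩ := h2 1
  have m : ∀ r : ℤ, ∀ x ∈ T.tor (wd w), ∀ i : ℤ, i % 2 = r → T.time (wd w) x ∈ Ioo ((i : ℝ) - 1) (i + 1) →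
      x ∈ ⋃ i : ℤ, T.tor (wd w) ∩ T.time (wd w) ⁻¹' Ioo (((2 * i + r : ℤ) : ℝ) - 1) ((2 * i + r : ℤ) + 1) :=
    fun r x hx i e k => mem_iUnion.2 ⟨i / 2, hx, by rwa [show 2 * (i / 2) + r = i by omega]⟩
  have m' : ∀ r : ℤ, r = 0 ∨ r = 1 → ∀ i : ℤ, T.tor (wd w) ∩ T.time (wd w) ⁻¹' Ioo (i : ℝ) (i + 1) ⊆
      ⋃ i : ℤ, T.tor (wd w) ∩ T.time (wd w) ⁻¹' Ioo (((2 * i + r : ℤ) : ℝ) - 1) ((2 * i + r : ℤ) + 1) :=
    fun r hr i x hx => by
      by_cases e : i % 2 = r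
      · exact m r x hx.1 i e ⟨by linarith [hx.2.1], hx.2.2⟩
      · exact m r x hx.1 (i + 1) (by omega) ⟨by simpa using hx.2.1, by push_cast; linarith [hx.2.2]⟩
  have cv : T.tor (wd w) ⊆ _ ∪ _ := fun x hx =>
    (Int.emod_two_eq_zero_or_one ⌊T.time (wd w) x⌋).imp
      (fun e => m 0 x hx _ e ⟨by linarith [Int.floor_le (T.time (wd w) x)], Int.lt_floor_add_one _⟩)
      fun e => m 1 x hx _ e ⟨by linarith [Int.floor_le (T.time (wd w) x)], Int.lt_floor_add_one _⟩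
  refine (exists_glue_eqv (isOpen_iUnion fun _ => o _ _) (isOpen_iUnion fun _ => o _ _)
    ⟨_, cv (T.rod_mem_tor uni_std (w := ((1, 1), 0)) (Or.inl one_ne_zero))⟩ h3 h4
    ((eqv_iUnion (fun i : ℤ => o i (i + 1)) (fun i j e => disjoint_left.2 fun x a b => e
      ((Int.floor_eq_iff.2 ⟨a.2.1.le, a.2.2⟩).symm.trans (Int.floor_eq_iff.2 ⟨b.2.1.le, b.2.2⟩)))
      fun i => (pic_tor (hw.prim i).choose_spec isOpen_Ioo ordConnected_Ioo Ioo_subset_Jr).eqv subset_rfl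
        (h3.mono (m' 0 (Or.inl rfl) i)) (h4.mono (m' 1 (Or.inr rfl) i))).mono ?_)).imp fun g h => h.1.mono cv
  rintro x ⟨a, b⟩
  obtain ⟨i, a⟩ := mem_iUnion.1 a
  obtain ⟨j, b⟩ := mem_iUnion.1 b
  refine mem_iUnion.2 ⟨⌊T.time (wd w) x⌋, a.1, (Int.floor_le _).lt_of_ne fun e => ?_, Int.lt_floor_add_one _⟩
  obtain ⟨a1, a2⟩ := a.2
  obtain ⟨b1, b2⟩ := b.2
  rw [← e] at a1 a2 b1 b2
  norm_cast at a1 a2 b1 b2
  omega

theorem tor_wd {w : ℤ → Z2} (hw : IsWd w) : Nonempty (Cls (𝓡 4) (T.tor (wd w))) :=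
  let ⟨_, h⟩ := exists_tor (T := T) hw; ⟨h.cls⟩

theorem tor_const (hu : Rod53.Uni a b) : Nonempty (Cls (𝓡 4) (T.tor fun _ => a)) :=
  (show wd (fun _ => a) = fun _ => a from funext fun _ => if_neg fun h => h.2 (PM.refl a)) ▸
    tor_wd ⟨fun _ => ⟨b, hu⟩, fun _ => Or.inl (PM.refl a)⟩

theorem tor_V1 (hu : Rod53.Uni a b) (h : ∀ t, t ∈ Jv v a b c) : Nonempty (Cls (𝓡 4) (T.tor v)) :=
  ⟨((on_vd (T := T) hu (J := univ) fun t _ => h t).mono fun _ hx => ⟨hx, trivial⟩).cls⟩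

theorem tor_V2 (hv : Loc v) (hu : Rod53.Uni a b) (hu' : Rod53.Uni b b') (hc : c < s)
    (h : ∀ t < s, t ∈ Jv v a b c) (h' : ∀ t, c < t → t ∈ Jv v b b' s) : Nonempty (Cls (𝓡 4) (T.tor v)) := by
  have := sigX (T := T) hv
  have k := on_vd (T := T) hu (J := Iio s) h
  have k' := on_vd (T := T) hu' (J := Ioi c) h'
  have cv : T.tor v ⊆ T.tor v ∩ T.time v ⁻¹' Iio s ∪ T.tor v ∩ T.time v ⁻¹' Ioi c := fun x hx =>
    (lt_or_ge (T.time v x) s).imp (fun e => ⟨hx, e⟩) fun e => ⟨hx, hc.trans_le e⟩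
  obtain ⟨g, g1, -⟩ := exists_glue_eqv (T.isOpen_tor.inter (isOpen_time isOpen_Iio))
    (T.isOpen_tor.inter (isOpen_time isOpen_Ioi))
    ⟨_, cv (T.rod_mem_tor uni_std (w := ((1, 1), 0)) (Or.inl one_ne_zero))⟩ k k'
    (((pic_tor hu' isOpen_Ioo ordConnected_Ioo fun t (ht : t ∈ Ioo c s) => Jv.right (h t ht.2) ht.1).eqv subset_rfl
      (k.mono fun _ hx => ⟨hx.1, hx.2.2⟩) (k'.mono fun _ hx => ⟨hx.1, hx.2.1⟩)).mono
      fun _ hx => ⟨hx.1.1, hx.2.2, hx.1.2⟩)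
  exact ⟨(g1.mono cv).cls⟩

omit [SecondCountableTopology N] in
theorem exists_rod (hv : Loc v) : ∃ a b s t, Rod53.Uni a b ∧ s < t ∧ Ioo s t ⊆ Jr v a := by
  obtain ⟨a, b, c, hu, h⟩ := hv 0
  obtain ⟨l, u, h1, h2⟩ := mem_nhds_iff_exists_Ioo_subset.1 (isOpen_interior.mem_nhds h)
  rcases le_total c 0 with k | k
  · exact ⟨b, a, 0, u, hu.symm, h1.2, fun t ht => Jv.right (h2 ⟨h1.1.trans ht.1, ht.2⟩) (k.trans_lt ht.1)⟩
  · exact ⟨a, b, l, 0, hu, h1.1, fun t ht => Jv.left (h2 ⟨ht.1, ht.2.trans h1.2⟩) (ht.2.trans_le k)⟩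

/-- **a datum of `N × ℝ` extends from the exterior over the rod manifold** -/
theorem exists_dat (hD : D.On univ) (hv : Loc v) (h : Nonempty (Cls (𝓡 4) (T.tor v))) :
    ∃ d : Dat (𝓡 4) (univ : Set (Rod53.X T v)), Eqv (D.pull (𝓡 4) (T.ext v).symm) d.d (off T v) := by
  have := sigX (T := T) hv
  obtain ⟨⟨e⟩⟩ := h
  obtain ⟨a, b, s, t, hb, h1, h2⟩ := exists_rod hv
  have c : off T v ∪ T.tor v = univ := eq_univ_of_forall fun x => (Classical.em _).imp_right tor_of_not_off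
  obtain ⟨g, g1, g2, -⟩ := exists_glue_eqv isOpen_off T.isOpen_tor (c ▸ univ_nonempty) (on_dx hD) e.ok
    (((ok_all hD hb).eqv hD hv hb isOpen_Ioo ordConnected_Ioo (nonempty_Ioo.2 h1) h2 e.ok).mono
      fun _ hx => ⟨⟨hx.2, trivial⟩, hx.1⟩)
  rw [c] at g1
  obtain ⟨k1, k2⟩ := g1.rix (Fintype.equivFin _).injective (Fintype.equivFin _).injective
  exact ⟨⟨_, _, _, k1⟩, g2.trans isOpen_off (on_dx hD) (g1.mono (subset_univ _)) (k1.mono (subset_univ _))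
    ⟨_, k2.mono (subset_univ _)⟩⟩

/-- **all data agree on the exterior** -/
theorem eqv_off (hD : D.On univ) (hv : Loc v) (hP : Pic0 (𝓡 4) univ (off T v)) (hd : d.On univ) :
    Eqv (D.pull (𝓡 4) (T.ext v).symm) d (off T v) :=
  have := sigX (T := T) hv
  let ⟨e, he⟩ := exists_dat hD hv ⟨(hd.mono (subset_univ _)).cls⟩
  he.trans isOpen_off (on_dx hD) (e.ok.mono (subset_univ _)) (hd.mono (subset_univ _))
    (hP.eqv (subset_univ _) e.ok hd)

/-- lines on the rod manifold are trivial on the exterior -/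
theorem pic_off (hv : Loc v)
    (h : ∀ {a b} (hu : Rod53.Uni a b), Pic0 (𝓡 3) univ (T.fl hu).tb.Ex) : Pic0 (𝓡 4) univ (off T v) := by
  have := sigX (T := T) hv
  obtain ⟨a, b, s, t, hu, h1, h2⟩ := exists_rod hv
  obtain ⟨r, hr⟩ := nonempty_Ioo.2 h1
  have k : Pic0 (𝓡 4) univ (univ ∩ T.time v ⁻¹' {r} ∩ off T v) :=
    (h hu).comp (f := fun x => (T.fl hu).e ((T.ext v).symm x).1) (g := fun y => (T.fl hu).cyf v hu (y, r))
      (fun x hx => ((T.fl hu).ld_e (maps_ext_symm hx.2).1).contMDiffAt.comp x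
        (contMDiffAt_fst.comp x (ld_ext_symm hx.2).contMDiffAt))
      (fun x hx => (T.fl hu).bijOn_e.mapsTo (maps_ext_symm hx.2).1)
      (fun y _ => ((T.fl hu).ld_cyf hu y (h2 hr)).contMDiffAt.comp y (contMDiffAt_id.prodMk contMDiffAt_const))
      (mapsTo_univ _ _) fun x hx => by
        rw [Fl.cyf_e _ _ _ (maps_ext_symm hx.2).1, ← show T.time v x = r from hx.1.2, ← time_eq hx.2]
        exact ext_ext_symm hx.2
  exact (k.dfm (dfm_off (A := univ) (fun _ _ => Iff.rfl) ordConnected_univ trivial rfl)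
    ((isOpen_univ.inter (isOpen_time isOpen_univ)).inter isOpen_off) (subset_univ _)).mono subset_rfl
    fun _ hx => ⟨⟨trivial, trivial⟩, hx⟩

end ok

end Crest.Agent.X212.Lab56
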