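import Crest.Agent.X212.Lab56.Lab
import Crest.Agent.X212.Rod53.Mer

/-!
# X212 / Lab56, part Gd (helper56): good tubes

* `Lg X` : every unit has a logarithm;  `Good T θ δ` : the units and the lines of the exterior;
* `thM F θ` : the angle function of the meridian tube in a filling;
* the leaves `UStmt`, `PStmt` and `good_KD`, `good_mer`.
-/

set_option autoImplicit false
set_option linter.unusedSectionVars false

open Set Filter Topology Function
open scoped ContDiff Manifold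
open Crest.Agent.X212.Line51
open Crest.Agent.X212.Rod53 hiding X cj
open Crest.Agent.X212.Pic56 (HasLog)
open Crest.Agent.X212.Ext52 (KD)
open Crest.GeometryTopology.DehnSurgery (S3)

noncomputable section

namespace Crest.Agent.X212.Lab56

/-- every unit has a logarithm -/
def Lg (X : Type*) [TopologicalSpace X] : Prop :=
  ∀ c : X → ℂ, Continuous c → (∀ x, c x ≠ 0) → HasLog c univ

section

variable {EN HN : Type} [NormedAddCommGroup EN] [NormedSpace ℝ EN] [FiniteDimensional ℝ EN]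
  [TopologicalSpace HN] {IN : ModelWithCorners ℝ EN HN} [IN.Boundaryless]
  {N : Type} [TopologicalSpace N] [ChartedSpace HN N] [IsManifold IN ∞ N] [T2Space N]
  {Y : Type} [TopologicalSpace Y] [ChartedSpace E3 Y] [IsManifold (𝓡 3) ∞ Y] [T2Space Y]

/-- the units of the exterior are generated by `θ`, the lines of `N` are trivial on the exterior -/
structure Good (T : Tb IN N) (θ : N → Circle) (δ : Z2) : Prop where
  ang : Ang T θ δ
  h1 : H1 θ T.Ex
  pic : Pic0 IN univ T.Ex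

/-- the angle function of the meridian tube in a filling -/
def thM {T : Tb IN N} {a b : Z2} (F : Fl T a b (𝓡 3) Y) (θ : N → Circle) : Y → Circle :=
  F.tb.ovr (fun y => T.ang (F.pe.symm y) ^ a.2 * θ (F.pe.symm y) ^ (-a.1)) fun w => w.1 ^ (-dt a b)

end

/-- the Seifert angle -/
def thK (k : KD) : S3 → Circle := extend Subtype.val k.θ fun _ => 1

/-- leaf: units -/
structure UStmt : Prop where
  s3 : Lg S3
  h1 : ∀ {N : Type} [TopologicalSpace N] [ChartedSpace E3 N] [IsManifold (𝓡 3) ∞ N] [T2Space N]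
    [CompactSpace N] {T : Tb (𝓡 3) N} {θ : N → Circle} {δ : Z2}, Lg N → Ang T θ δ → IsCoprime δ.1 δ.2 →
    δ.2 ≠ 0 → H1 θ T.Ex
  fill : ∀ {N : Type} [TopologicalSpace N] [ChartedSpace E3 N] [IsManifold (𝓡 3) ∞ N] [T2Space N]
    [CompactSpace N] {Y : Type} [TopologicalSpace Y] [ChartedSpace E3 Y] [IsManifold (𝓡 3) ∞ Y] [T2Space Y]
    {T : Tb (𝓡 3) N} {θ : N → Circle} {δ a b : Z2}, Fl T a b (𝓡 3) Y → Rod53.Uni a b → Ang T θ δ →
    H1 θ T.Ex → dot δ a ≠ 0 → Lg Y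
  mer : ∀ {N : Type} [TopologicalSpace N] [ChartedSpace E3 N] [IsManifold (𝓡 3) ∞ N] [T2Space N]
    {Y : Type} [TopologicalSpace Y] [ChartedSpace E3 Y] [IsManifold (𝓡 3) ∞ Y] [T2Space Y]
    {T : Tb (𝓡 3) N} {θ : N → Circle} {a b : Z2} (F : Fl T a b (𝓡 3) Y), Rod53.Uni a b → Ang T θ (0, 1) →
    Ang F.mer (thM F θ) (-a.1, a.2)

/-- leaf: lines -/
structure PStmt : Prop where
  s3 : Pic0 (𝓡 3) (univ : Set S3) univ
  fill : ∀ {N : Type} [TopologicalSpace N] [ChartedSpace E3 N] [IsManifold (𝓡 3) ∞ N] [T2Space N]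
    [CompactSpace N] {Y : Type} [TopologicalSpace Y] [ChartedSpace E3 Y] [IsManifold (𝓡 3) ∞ Y] [T2Space Y]
    {T : Tb (𝓡 3) N} {a b : Z2} (F : Fl T a b (𝓡 3) Y), Rod53.Uni a b → Pic0 (𝓡 3) univ T.Ex →
    Pic0 (𝓡 3) univ F.tb.Ex
  mer : ∀ {N : Type} [TopologicalSpace N] [ChartedSpace E3 N] [IsManifold (𝓡 3) ∞ N] [T2Space N]
    [CompactSpace N] {Y : Type} [TopologicalSpace Y] [ChartedSpace E3 Y] [IsManifold (𝓡 3) ∞ Y] [T2Space Y]
    {T : Tb (𝓡 3) N} {θ : N → Circle} {a b : Z2} (F : Fl T a b (𝓡 3) Y), Rod53.Uni a b → Ang T θ (0, 1) →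
    Pic0 (𝓡 3) univ T.Ex → Pic0 (𝓡 3) univ F.mer.Ex

theorem good_KD (hU : UStmt) (hP : PStmt) (k : KD) : Good (ofTube k.toTube) (thK k) (0, 1) :=
  ⟨ang_KD k, hU.h1 hU.s3 (ang_KD k) isCoprime_one_right one_ne_zero, hP.s3.mono subset_rfl (subset_univ _)⟩

theorem good_mer (hU : UStmt) (hP : PStmt) {N : Type} [TopologicalSpace N] [ChartedSpace E3 N]
    [IsManifold (𝓡 3) ∞ N] [T2Space N] [CompactSpace N] {Y : Type} [TopologicalSpace Y] [ChartedSpace E3 Y]
    [IsManifold (𝓡 3) ∞ Y] [T2Space Y] {T : Tb (𝓡 3) N} {θ : N → Circle} {a b : Z2} (F : Fl T a b (𝓡 3) Y)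
    (hu : Rod53.Uni a b) (h0 : a.2 ≠ 0) (h : Good T θ (0, 1)) : Good F.mer (thM F θ) (-a.1, a.2) :=
  have := F.compact hu
  ⟨hU.mer F hu h.ang, hU.h1 (hU.fill F hu h.ang h.h1 (by simpa [dot] using h0)) (hU.mer F hu h.ang)
    ⟨-(dt a b * b.2), -(dt a b * b.1), by have := hu.sq; simp only [dt] at this ⊢; linear_combination this⟩ h0,
    hP.mer F hu h.ang h.pic⟩

end Crest.Agent.X212.Lab56
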