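import Crest.Agent.X212.Lab56.Hom

/-!
# X212 / Lab56, part Eqv (helper56): `Eqv` is an equivalence relation

* `dm D u` : the map of determinant lines induced by an intertwiner;
* `exists_ci_cyl`, `exists_ci_cyl'` : families of modules;
* `pol_symm`, `Iw.symm`, `exists_rot`, `Iw.trans` (with the induced map of determinant lines), `Eqv.symm`,
  `Eqv.trans`;
* `exists_fr_of_deform`, `Eqv.of_deform` : deformations.
-/

set_option autoImplicit false
set_option linter.unusedSectionVars false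

open Set Filter Topology Function Matrix Module TopologicalSpace
open scoped ContDiff Manifold Kronecker ComplexOrder MatrixOrder
open Crest.Agent.X212.Pj41 Crest.Agent.X212.Met55
open Crest.Agent.X212.Pic56 (IsLine IsFrame HasLog clm Rk1)
open Crest.Agent.X212.Line51 (Uni)

noncomputable section

namespace Crest.Agent.X212.Lab56

section pt

variable {ι ι' ι'' κ l m : Type*} [Fintype ι] [Fintype ι'] [Fintype ι''] [Fintype κ] [Fintype l] [Fintype m]
  [DecidableEq ι] [DecidableEq ι'] [DecidableEq ι''] [DecidableEq κ] [DecidableEq l] [DecidableEq m]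
  {P : ι → ι → ℝ} {p : Matrix κ κ ℂ} {ρ : ι → Matrix κ κ ℂ} {p' : Matrix l l ℂ}
  {ρ' : ι → Matrix l l ℂ} {A : Matrix l κ ℂ}
  {Q : Matrix ι ι ℝ} {Q' : Matrix ι' ι' ℝ} {Q'' : Matrix ι'' ι'' ℝ} {G R : Matrix ι ι' ℝ}

theorem rot_rot' (R : Matrix ι ι' ℝ) (S : Matrix ι' ι'' ℝ) (ρ : ι → Matrix κ κ ℂ) :
    rot S (rot R ρ) = rot (R * S) ρ := funext (rot_rot R S ρ)

theorem p4_of_piso' (h : P4 Q) (hR : PIso R Q' Q) : P4 Q' :=
  ⟨⟨fun a b => by
      conv_lhs => rw [← hR.prj_src.herm]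
      simp, fun a b => congrFun (congrFun hR.prj_src.idem a) b⟩, hR.trace_eq.trans h.rk⟩

/-- the line of intertwiners does not depend on the frame -/
theorem hP_rot (h4 : P4 Q) (h : PC Q p ρ) (h' : PC Q p' ρ') (hR : PIso R Q' Q) :
    hP (rot R ρ) (rot R ρ') = hP ρ ρ' := by
  obtain ⟨A, hA⟩ := exists_un h4 h h'
  rw [← (hA.col h4 h h').tgt, ← ((hA.rot R).col (p4_of_piso' h4 hR) (h.rot hR) (h'.rot hR)).tgt]

theorem kk_vec (u : Matrix l κ ℂ) (J : Matrix κ κ ℂ) : (u ⊗ₖ u) * vec J = vec (u * J * uᵀ) :=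
  kron_vec u uᵀ J

theorem Un.sq {J : Matrix κ κ ℂ} (h : PC P p ρ) (h' : PC P p' ρ') (i : Un p ρ p' ρ' A)
    (j : Un (cj p) (fun a => cj (ρ a)) p ρ J) : Un (cj p') (fun a => cj (ρ' a)) p' ρ' (A * J * Aᵀ) := by
  have := ((i.bar.symm h.bar h'.bar).trans j).trans i
  rwa [cj, ct_tr, conjTranspose_conjTranspose, ← Matrix.mul_assoc] at this

theorem Un.piso_dm (h4 : P4 P) (h : PC P p ρ) (h' : PC P p' ρ') (i : Un p ρ p' ρ' A) :
    PIso ((A ⊗ₖ A) * hP (fun a => cj (ρ a)) ρ) (hP (fun a => cj (ρ a)) ρ) (hP (fun a => cj (ρ' a)) ρ') := by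
  obtain ⟨J, hJ⟩ := exists_un h4 h.bar h
  have k := hJ.col h4 h.bar h
  have k' := (i.sq h h' hJ).col h4 h'.bar h'
  have := k.symm.trans k'
  rwa [← Matrix.smul_mul, ← Matrix.mul_smul, ← kk_vec, Matrix.mul_assoc, k.tgt] at this

theorem PC.kk_det (h4 : P4 P) (h : PC P p ρ) : (p ⊗ₖ p) * hP (fun a => cj (ρ a)) ρ = hP (fun a => cj (ρ a)) ρ := by
  obtain ⟨J, hJ⟩ := exists_un h4 h.bar h
  have e := hJ.iso.idem
  rw [cj, h.prj.herm] at e
  rw [← (hJ.col h4 h.bar h).tgt, ← Matrix.mul_assoc, kk_vec, Matrix.mul_smul, Matrix.smul_mul, hJ.iso.left, e]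

theorem gram_comm (h : Prj Q') (hG : G * Q' = G) : Q' * gram Q' G = gram Q' G * Q' := by
  have e : Q' * Gᴴ = Gᴴ := by
    have := congrArg conjTranspose hG
    rwa [conjTranspose_mul, h.herm] at this
  simp only [Pj41.gram, Matrix.mul_add, Matrix.add_mul, Matrix.mul_sub, Matrix.sub_mul, h.idem,
    ← Matrix.mul_assoc Q', e, Matrix.mul_assoc _ G, hG, Matrix.mul_one, Matrix.one_mul]

/-- the unitary part of the inverse -/
theorem nrm_inv (hQ : Prj Q) (hQ' : Prj Q') {G' : Matrix ι' ι ℝ} (h1 : G * Q' = G) (h2 : Q * G = G)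
    (h3 : G' * Q = G') (h4 : G' * G = Q') (h5 : G * G' = Q) : nrm Q G' = (nrm Q' G)ᴴ := by
  have c1 : Q' * Gᴴ = Gᴴ := by
    have := congrArg conjTranspose h1
    rwa [conjTranspose_mul, hQ'.herm] at this
  have c2 : Gᴴ * Q = Gᴴ := by
    have := congrArg conjTranspose h2
    rwa [conjTranspose_mul, hQ.herm] at this
  have c3 : Q * G'ᴴ = G'ᴴ := by
    have := congrArg conjTranspose h3
    rwa [conjTranspose_mul, hQ.herm] at this
  have c4 : Gᴴ * G'ᴴ = Q' := by rw [← conjTranspose_mul, h4, hQ'.herm]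
  have pN : (gram Q Gᴴ).PosDef :=
    gram_posDef_of_left_inv hQ (b := G'ᴴ) (by rw [← conjTranspose_mul, h5, hQ.herm])
  have pS := gram_posDef_of_left_inv hQ' h4
  have pT := posDef_sqrt pN
  have dT := (isUnit_iff_isUnit_det _).1 pT.isUnit
  have e1 : gram Q Gᴴ * gram Q G' = 1 := by
    simp only [Pj41.gram, conjTranspose_conjTranspose, Matrix.mul_add, Matrix.add_mul, Matrix.mul_sub,
      Matrix.sub_mul, Matrix.mul_one, Matrix.one_mul, hQ.idem, Matrix.mul_assoc, c2]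
    rw [← Matrix.mul_assoc Gᴴ, c4, ← Matrix.mul_assoc G, h1, h5, ← Matrix.mul_assoc Q, c3]
    abel
  have e2 : CFC.sqrt (gram Q G') = (CFC.sqrt (gram Q Gᴴ))⁻¹ := by
    refine CFC.sqrt_unique ?_ pT.inv.posSemidef.nonneg
    rw [← Matrix.mul_inv_rev, CFC.sqrt_mul_sqrt_self _ pN.posSemidef.nonneg, inv_eq_right_inv e1]
  have e3 : Gᴴ * gram Q Gᴴ = gram Q' G * Gᴴ := by
    simp only [Pj41.gram, Matrix.mul_add, Matrix.add_mul, Matrix.mul_sub, Matrix.sub_mul, c1, c2,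
      Matrix.mul_assoc, conjTranspose_conjTranspose, Matrix.mul_one, Matrix.one_mul]
  have e4 : G' * gram Q Gᴴ = Gᴴ := by
    simp only [Pj41.gram, Matrix.mul_add, Matrix.mul_sub, h3, ← Matrix.mul_assoc, h4, c1,
      conjTranspose_conjTranspose, Matrix.mul_one, sub_self, add_zero]
  rw [nrm, nrm, e2, nonsing_inv_nonsing_inv _ dT, conjTranspose_mul, conjTranspose_nonsing_inv,
    (posDef_sqrt pS).isHermitian.eq, ← inv_intertwine pT.isUnit (posDef_sqrt pS).isUnit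
      (sqrt_intertwine pN.posSemidef pS e3)]
  rw [← CFC.sqrt_mul_sqrt_self _ pN.posSemidef.nonneg] at e4
  generalize CFC.sqrt (gram Q Gᴴ) = T at e4 dT
  rw [← e4, ← Matrix.mul_assoc, mul_nonsing_inv_cancel_right _ _ dT]

end pt

variable {E : Type} [NormedAddCommGroup E] [NormedSpace ℝ E] [FiniteDimensional ℝ E]
  {H : Type} [TopologicalSpace H] {I : ModelWithCorners ℝ E H}
  {M : Type} [TopologicalSpace M] [ChartedSpace H M] [IsManifold I ∞ M]
  {ι ι' ι'' κ l n k : Type} [Fintype ι] [Fintype ι'] [Fintype ι''] [Fintype κ] [Fintype l] [Fintype n]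
  [Fintype k] [DecidableEq ι] [DecidableEq ι'] [DecidableEq ι''] [DecidableEq κ] [DecidableEq l]
  [DecidableEq n] [DecidableEq k]

section gi

variable {Q : Matrix ι ι ℝ} {Q' : Matrix ι' ι' ℝ} {Q'' : Matrix ι'' ι'' ℝ} {G : Matrix ι ι' ℝ}
  {B : Matrix ι' ι'' ℝ}

theorem GI.mul (h : GI G Q' Q) (h' : GI B Q'' Q') : GI (G * B) Q'' Q := by
  obtain ⟨G', e⟩ := h.inv
  obtain ⟨B', e'⟩ := h'.inv
  exact ⟨h'.src, h.tgt, by rw [Matrix.mul_assoc, h'.r], by rw [← Matrix.mul_assoc, h.l],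
    ⟨B' * G', by rw [Matrix.mul_assoc, ← Matrix.mul_assoc G', e, h'.l, e']⟩, h'.tr.trans h.tr⟩

/-- the segment from the unitary part to the map -/
def pth (Q' : Matrix ι' ι' ℝ) (G : Matrix ι ι' ℝ) (t : ℝ) : Matrix ι ι' ℝ := t • G + (1 - t) • nrm Q' G

theorem GI.pth (h : GI G Q' Q) {t : ℝ} (h0 : 0 ≤ t) (h1 : t ≤ 1) : GI (pth Q' G t) Q' Q := by
  have pS := posDef_sqrt h.pos
  have c := sqrt_intertwine h.pos.posSemidef h.pos (gram_comm h.src h.r)
  have e : nrm Q' G * CFC.sqrt (gram Q' G) = G :=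
    nonsing_inv_mul_cancel_right _ _ ((isUnit_iff_isUnit_det _).1 pS.isUnit)
  generalize CFC.sqrt (gram Q' G) = S at pS c e
  have pt : (t • S + (1 - t) • (1 : Matrix ι' ι' ℝ)).PosDef := by
    rcases h0.eq_or_lt with rfl | h0
    · simpa using PosDef.one
    · exact (pS.smul h0).add_posSemidef (PosSemidef.one.smul (sub_nonneg.2 h1))
  refine ⟨h.src, h.tgt, ?_, ?_, ⟨(t • S + (1 - t) • 1)⁻¹ * (nrm Q' G)ᴴ, ?_⟩, h.tr⟩
  · rw [Lab56.pth, Matrix.add_mul, Matrix.smul_mul, Matrix.smul_mul, h.r, h.piso.idem]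
  · rw [Lab56.pth, Matrix.mul_add, Matrix.mul_smul, Matrix.mul_smul, h.l, h.piso.left]
  · have e2 : (nrm Q' G)ᴴ * Lab56.pth Q' G t = (t • S + (1 - t) • 1) * Q' := by
      rw [Lab56.pth, Matrix.mul_add, Matrix.mul_smul, Matrix.mul_smul, h.piso.src, Matrix.add_mul,
        Matrix.smul_mul, Matrix.smul_mul, Matrix.one_mul, ← c, ← congrArg (· * S) h.piso.src,
        Matrix.mul_assoc, e]
    rw [Matrix.mul_assoc, e2, nonsing_inv_mul_cancel_left _ _ ((isUnit_iff_isUnit_det _).1 pt.isUnit)]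

end gi

/-- the determinant line of a module -/
abbrev C8.det (m : C8 M ι κ) : M → Matrix (κ × κ) (κ × κ) ℂ := hl m.bar m

/-- the tensor square -/
def kk (u : M → Matrix l κ ℂ) (x : M) : Matrix (l × l) (κ × κ) ℂ := u x ⊗ₖ u x

/-- the map of determinant lines induced by `u` -/
def dm (D : M → Matrix (κ × κ) (κ × κ) ℂ) (u : M → Matrix l κ ℂ) (x : M) : Matrix (l × l) (κ × κ) ℂ :=
  kk u x * D x

section mod

variable {P : M → Matrix ι ι ℝ} {P' : M → Matrix ι' ι' ℝ} {P'' : M → Matrix ι'' ι'' ℝ} {m : C8 M ι κ}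
  {m' : C8 M ι l} {u : M → Matrix l κ ℂ} {w : M → Matrix n l ℂ} {O : Set M} {x : M}

theorem kk_mul (w : M → Matrix n l ℂ) (u : M → Matrix l κ ℂ) (x : M) :
    kk (fun y => w y * u y) x = kk w x * kk u x := mul_kronecker_mul _ _ _ _

theorem kk_smul (c : M → ℂ) (u : M → Matrix l κ ℂ) (x : M) :
    kk (fun y => c y • u y) x = c x ^ 2 • kk u x := by
  rw [kk, smul_kronecker, kronecker_smul, smul_smul, pow_two]; rfl

theorem kk_ct (u : M → Matrix l κ ℂ) (x : M) : kk (fun y => (u y)ᴴ) x = (kk u x)ᴴ :=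
  (conjTranspose_kronecker _ _).symm

theorem msm_kk (h : MSm I u x) : MSm I (kk u) x := h.kron h

theorem C8.On.det (h : m.On I P O) : LOn I m.det O := lOn_hl h.bar h

theorem CI.dm (h : m.On I P O) (h' : m'.On I P O) (i : CI I m m' u O) : Uni I m.det m'.det (dm m.det u) O :=
  ⟨fun x hx => (msm_kk (i.sm x hx)).mul (h.det.sm x hx),
    fun x hx => (i.un x hx).piso_dm (h.p4 x hx) (h.pc x hx) (h'.pc x hx)⟩

theorem C8.On.dm_self (h : m.On I P O) (hx : x ∈ O) : dm m.det m.p x = m.det x :=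
  (h.pc x hx).kk_det (h.p4 x hx)

theorem hl_rot (h : m.On I P O) (h' : m'.On I P O) (hx : x ∈ O) {R : M → Matrix ι ι' ℝ}
    (hR : PIso (R x) (P' x) (P x)) : hl (m.rot R) (m'.rot R) x = hl m m' x :=
  hP_rot (h.p4 x hx) (h.pc x hx) (h'.pc x hx) hR

theorem det_rot (h : m.On I P O) (hx : x ∈ O) {R : M → Matrix ι ι' ℝ} (hR : PIso (R x) (P' x) (P x)) :
    (m.rot R).det x = m.det x :=
  (congrArg (hP · _) (funext (cj_rot (R x) (m.r x)))).trans (hl_rot h.bar h hx hR)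

theorem CI.smul' (i : CI I m m' u O) {c : M → ℂ} (sc : ∀ x ∈ O, FSm I c x) (hc : ∀ x ∈ O, ‖c x‖ = 1) :
    CI I m m' (fun x => c x • u x) O :=
  ⟨fun x hx => MSm.smul (sc x hx) (i.sm x hx),
    fun x hx => ⟨piso_smul (i.un x hx).iso (hc x hx), ((i.un x hx).it.smul _).ρ⟩⟩

variable [T2Space M] [SigmaCompactSpace M] [I.Boundaryless]

local notation "IC" => ModelWithCorners.prod 𝓘(ℝ, ℝ) I

section fam

variable {P : ℝ × M → Matrix ι ι ℝ} {m : C8 (ℝ × M) ι κ} {m' : C8 (ℝ × M) ι l}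

theorem C8.On.at (h : m.On IC P (univ ×ˢ O)) (t : ℝ) :
    (m.comp fun x => (t, x)).On I (fun x => P (t, x)) O :=
  h.comp (fun _ _ => sm_in t) fun _ hx => ⟨trivial, hx⟩

theorem CI.at {u : ℝ × M → Matrix l κ ℂ} (h : CI IC m m' u (univ ×ˢ O)) (t : ℝ) :
    CI I (m.comp fun x => (t, x)) (m'.comp fun x => (t, x)) (fun x => u (t, x)) O :=
  h.comp (fun _ _ => sm_in t) fun _ hx => ⟨trivial, hx⟩

/-- **families of modules** -/
theorem exists_ci_cyl (hO : IsOpen O) (h : m.On IC P (univ ×ˢ O)) (h' : m'.On IC P (univ ×ˢ O))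
    (i : CI I (m.comp fun x => (0, x)) (m'.comp fun x => (0, x)) u O) :
    ∃ U, CI IC m m' U (univ ×ˢ O) ∧ ∀ x ∈ O, U (0, x) = u x := by
  obtain ⟨S, a, b⟩ := exists_fr_cyl hO (lOn_hl h h') (s := col u)
    ⟨(i.col (h.at 0) (h'.at 0)).sm, fun x hx => (i.un x hx).col (h.p4 (0, x) ⟨trivial, hx⟩)
      (h.pc (0, x) ⟨trivial, hx⟩) (h'.pc (0, x) ⟨trivial, hx⟩)⟩
  refine ⟨_, ci_unc h h' a, fun x hx => ?_⟩
  rw [unc, b x hx]
  exact congrFun (unc_col u) x

/-- families of modules, with a prescribed map of the determinant lines -/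
theorem exists_ci_cyl' (hO : IsOpen O) (h : m.On IC P (univ ×ˢ O)) (h' : m'.On IC P (univ ×ˢ O))
    (i : CI I (m.comp fun x => (0, x)) (m'.comp fun x => (0, x)) u O)
    {D : ℝ × M → Matrix (l × l) (κ × κ) ℂ} (hD : Uni IC m.det m'.det D (univ ×ˢ O))
    (e : ∀ x ∈ O, D (0, x) = kk u x * m.det (0, x)) :
    ∃ U, CI IC m m' U (univ ×ˢ O) ∧ (∀ x ∈ O, U (0, x) = u x) ∧ ∀ z ∈ univ ×ˢ O, dm m.det U z = D z := by
  obtain ⟨U, a, b⟩ := exists_ci_cyl hO h h' i
  have c := a.dm h h'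
  have k := fun z hz => piso_ratio (h.det.tr z hz) (c.iso z hz) (hD.iso z hz)
  obtain ⟨r, r1, r2⟩ := exists_arg_cyl hO (φ := fun z => ((dm m.det U z)ᴴ * D z).trace)
    (fun z hz => ((c.sm z hz).ct.mul (hD.sm z hz)).trace) (fun z hz => (k z hz).2) fun x hx => by
      have : dm m.det U (0, x) = D (0, x) := by rw [e x hx, dm, kk, kk, b x hx]
      rw [this, (hD.iso _ ⟨trivial, hx⟩).src, h.det.tr _ ⟨trivial, hx⟩]
  refine ⟨_, a.smul (g := fun z => Circle.exp (r z / 2))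
    fun z hz => fsm_exp ((r1 z hz).1.div_const 2), fun x hx => by simp [r2 x hx, b x hx], fun z hz => ?_⟩
  rw [(k z hz).1, (r1 z hz).2, dm, kk_smul, Matrix.smul_mul, pow_two, ← Circle.coe_mul, ← Circle.exp_add,
    add_halves, dm]

end fam

/-- the unitary part of a product and the product of the unitary parts give the same module -/
theorem exists_rot (hO : IsOpen O) (h : m.On I P O) {A : M → Matrix ι ι' ℝ} {B : M → Matrix ι' ι'' ℝ}
    (sA : ∀ x ∈ O, MSm I A x) (sB : ∀ x ∈ O, MSm I B x) (s' : ∀ x ∈ O, MSm I P' x)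
    (s'' : ∀ x ∈ O, MSm I P'' x) (gA : ∀ x ∈ O, GI (A x) (P' x) (P x))
    (gB : ∀ x ∈ O, GI (B x) (P'' x) (P' x)) :
    ∃ w, CI I (m.rot fun x => nrm (P' x) (A x) * nrm (P'' x) (B x)) (m.rot fun x => nrm (P'' x) (A x * B x))
      w O ∧ ∀ x ∈ O, dm m.det w x = m.det x := by
  let β := Real.smoothTransition
  have o := (isOpen_univ (X := ℝ)).prod hO
  have sβ : ∀ z : ℝ × M, FSm IC (fun z => β z.1) z := fun z =>
    Real.smoothTransition.contDiffAt.comp_contMDiffAt contMDiffAt_fst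
  have nA := fun x hx => MSm.nrm (s' x hx) (sA x hx)
    (eventually_of_mem (hO.mem_nhds hx) fun y hy => (gA y hy).src) (gA x hx).pos
  have nB := fun x hx => MSm.nrm (s'' x hx) (sB x hx)
    (eventually_of_mem (hO.mem_nhds hx) fun y hy => (gB y hy).src) (gB x hx).pos
  let G := fun z : ℝ × M => pth (P' z.2) (A z.2) (β z.1) * pth (P'' z.2) (B z.2) (β z.1)
  have gG : ∀ z ∈ univ ×ˢ O, GI (G z) (P'' z.2) (P z.2) := fun z hz =>
    ((gA _ hz.2).pth (Real.smoothTransition.nonneg _) (Real.smoothTransition.le_one _)).mul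
      ((gB _ hz.2).pth (Real.smoothTransition.nonneg _) (Real.smoothTransition.le_one _))
  have sG : ∀ z ∈ univ ×ˢ O, MSm IC G z := fun z hz =>
    ((MSm.rsmul (sβ z) ((sA _ hz.2).comp contMDiffAt_snd)).add
      (MSm.rsmul (contMDiffAt_const.sub (sβ z)) ((nA _ hz.2).comp contMDiffAt_snd))).mul
    ((MSm.rsmul (sβ z) ((sB _ hz.2).comp contMDiffAt_snd)).add
      (MSm.rsmul (contMDiffAt_const.sub (sβ z)) ((nB _ hz.2).comp contMDiffAt_snd)))
  have hm : (m.comp Prod.snd).On IC (fun z : ℝ × M => P z.2) (univ ×ˢ O) :=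
    h.comp (fun _ _ => contMDiffAt_snd) fun _ hz => hz.2
  have p0 := fun x hx => (gB x hx).piso.trans (gA x hx).piso
  have h0 := hm.rot (P' := fun z => P'' z.2) (R := fun z => nrm (P' z.2) (A z.2) * nrm (P'' z.2) (B z.2))
    (fun z hz => ((nA _ hz.2).mul (nB _ hz.2)).comp contMDiffAt_snd) fun z hz => p0 _ hz.2
  have h1 := hm.rot (P' := fun z => P'' z.2) (R := fun z => nrm (P'' z.2) (G z))
    (fun z hz => MSm.nrm ((s'' _ hz.2).comp contMDiffAt_snd) (sG z hz)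
      (eventually_of_mem (o.mem_nhds hz) fun y hy => (gG y hy).src) (gG z hz).pos) fun z hz => (gG z hz).piso
  have d0 := fun z hz => det_rot hm (x := z) hz (P' := fun z => P'' z.2)
    (R := fun z => nrm (P' z.2) (A z.2) * nrm (P'' z.2) (B z.2)) (p0 _ hz.2)
  obtain ⟨U, a, -, b⟩ := exists_ci_cyl' hO h0 h1 (u := m.p)
    ((h0.at 0).refl.of_eq (fun _ _ => ⟨rfl, rfl⟩) fun x hx => ⟨rfl, by
      refine congrArg (rot · (m.r x)) ?_
      simp only [G, β, pth, Real.smoothTransition.zero, zero_smul, zero_add, sub_zero, one_smul]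
      exact nrm_of_piso (p0 x hx)⟩)
    (uni_of_eq hm.det.refl d0 fun z hz => det_rot hm hz (P' := fun z => P'' z.2) (gG z hz).piso)
    fun x hx => by rw [d0 _ ⟨trivial, hx⟩]; exact (h.dm_self hx).symm
  refine ⟨_, (a.at 1).of_eq (fun _ _ => ⟨rfl, rfl⟩) fun x hx => ⟨rfl, ?_⟩, fun x hx => ?_⟩
  · refine congrArg (rot · (m.r x)) ?_
    simp only [G, β, pth, Real.smoothTransition.one, zero_smul, add_zero, sub_self, one_smul]
  · have := b (1, x) ⟨trivial, hx⟩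
    rwa [dm, d0 _ ⟨trivial, hx⟩] at this

end mod

section sc

variable {d : Sc I M ι κ} {d' : Sc I M ι' l} {d'' : Sc I M ι'' n} {O : Set M} {u : M → Matrix l κ ℂ}
  {u' : M → Matrix n l ℂ} {e : ι → VF I M} {w : ι' → VF I M} {x : M}

theorem pol_symm (h : Sp (atx e x)) (h' : Sp (atx w x)) : pol w e x = (pol e w x)ᴴ :=
  nrm_inv (prj_fP h) (prj_fP h') (gi_fM h h').r (gi_fM h h').l (gi_fM h' h).r (fM_mul h) (fM_mul h')

theorem det_tp (h : d.On O) (hx : x ∈ O) (hw : Sp (atx w x)) : (d.tp w).det x = d.det x :=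
  det_rot h.m hx (piso_pol (h.fr x hx).sp hw)

theorem Iw.dm (h : d.On O) (h' : d'.On O) (i : Iw d d' u O) : Uni I d.det d'.det (dm d.det u) O :=
  have k := CI.dm (h.tp h'.fr) h'.m i
  ⟨fun x hx => (msm_kk (i.sm x hx)).mul (h.det.sm x hx), fun x hx => by
    have := k.iso x hx
    rwa [Lab56.dm, det_tp h hx (h'.fr x hx).sp] at this⟩

/-- the image of a unit section of the determinant line -/
theorem Iw.sec (h : d.On O) (h' : d'.On O) (i : Iw d d' u O) {s : M → Matrix (κ × κ) Unit ℂ}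
    (hs : Uni I (fun _ => 1) d.det s O) : Uni I (fun _ => 1) d'.det (fun x => kk u x * s x) O :=
  ⟨fun x hx => (msm_kk (i.sm x hx)).mul (hs.sm x hx), fun x hx => by
    have := (hs.iso x hx).trans ((i.dm h h').iso x hx)
    rwa [Lab56.dm, Matrix.mul_assoc, (hs.iso x hx).left] at this⟩

theorem Iw.symm (h : d.On O) (h' : d'.On O) (i : Iw d d' u O) : Iw d' d (fun x => (u x)ᴴ) O :=
  ((CI.symm (h.tp h'.fr) h'.m i).rot (pol d'.e d.e)).of_eq (fun _ _ => ⟨rfl, rfl⟩) fun x hx => ⟨rfl, by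
    show d.m.r x = rot _ (rot _ (d.m.r x))
    rw [rot_rot', pol_symm (h.fr x hx).sp (h'.fr x hx).sp, (piso_pol (h.fr x hx).sp (h'.fr x hx).sp).tgt]
    exact ((h.m.pc x hx).rot_self (h.m.p4 x hx).pr.symm).symm⟩

theorem Eqv.symm (h : d.On O) (h' : d'.On O) (i : Eqv d d' O) : Eqv d' d O :=
  let ⟨_, i⟩ := i; ⟨_, i.symm h h'⟩

theorem Iw.refl (h : d.On O) : Iw d d d.m.p O := (iw_iff h).2 h.m.refl

/-- two isomorphisms differ by a unit function -/
theorem Iw.ratio {w : M → Matrix l κ ℂ} (h : d.On O) (h' : d'.On O) (i : Iw d d' u O) (j : Iw d d' w O) :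
    ∃ c : M → ℂ, ∀ x ∈ O, FSm I c x ∧ ‖c x‖ = 1 ∧ w x = c x • u x :=
  ⟨fun x => ((u x)ᴴ * w x).trace / 4, fun x hx =>
    have k := (i.un x hx).ratio (h'.m.p4 x hx) ((h.tp h'.fr).pc x hx) (h'.m.pc x hx) (j.un x hx)
    ⟨(((i.sm x hx).ct.mul (j.sm x hx)).trace.mul' (contMDiffAt_const (c := (4 : ℂ)⁻¹))).congr_of_eventuallyEq
      (.of_forall fun _ => div_eq_mul_inv _ _), k.2, k.1⟩⟩

variable [T2Space M] [SigmaCompactSpace M] [I.Boundaryless]

/-- **composition**, up to a locally constant sign -/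
theorem Iw.trans (hO : IsOpen O) (h : d.On O) (h' : d'.On O) (h'' : d''.On O) (i : Iw d d' u O)
    (j : Iw d' d'' u' O) : ∃ w, Iw d d'' w O ∧ ∀ x ∈ O, kk w x * d.det x = kk u' x * kk u x * d.det x := by
  obtain ⟨w, a, b⟩ := exists_rot hO h.m (A := fM d.e d'.e) (B := fM d'.e d''.e)
    (fun x hx => msm_fM (h.fr x hx) (h'.fr x hx).sm) (fun x hx => msm_fM (h'.fr x hx) (h''.fr x hx).sm)
    (fun x hx => (h'.fr x hx).msm_fP) (fun x hx => (h''.fr x hx).msm_fP)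
    (fun x hx => gi_fM (h.fr x hx).sp (h'.fr x hx).sp) fun x hx => gi_fM (h'.fr x hx).sp (h''.fr x hx).sp
  have a' : CI I ((d.tp d'.e).rot (pol d'.e d''.e)) (d.tp d''.e) w O :=
    a.of_eq (fun x _ => ⟨rfl, rot_rot' _ _ _⟩) fun x hx =>
      ⟨rfl, congrArg (fun G => rot (nrm (fP d''.e x) G) (d.m.r x)) (fM_mul (h'.fr x hx).sp).symm⟩
  have h1 := (h.chg h'.fr).tp h''.fr
  refine ⟨_, ((a'.symm h1 (h.tp h''.fr)).trans (CI.rot i (pol d'.e d''.e))).trans j, fun x hx => ?_⟩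
  have e : kk (fun y => (w y)ᴴ) x * d.det x = d.det x := by
    conv_lhs => rw [← show kk w x * d.det x = d.det x from b x hx]
    rw [← Matrix.mul_assoc, ← kk_mul, kk, (a'.un x hx).iso.src]
    exact h.m.dm_self hx
  rw [kk_mul, kk_mul, Matrix.mul_assoc, Matrix.mul_assoc, e, Matrix.mul_assoc]

theorem Eqv.trans (hO : IsOpen O) (h : d.On O) (h' : d'.On O) (h'' : d''.On O) (i : Eqv d d' O)
    (j : Eqv d' d'' O) : Eqv d d'' O :=
  let ⟨_, i⟩ := i; let ⟨_, j⟩ := j; let ⟨w, k, _⟩ := i.trans hO h h' h'' j; ⟨w, k⟩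

/-- composition, on a section of the determinant line -/
theorem Iw.trans' (hO : IsOpen O) (h : d.On O) (h' : d'.On O) (h'' : d''.On O) (i : Iw d d' u O)
    (j : Iw d' d'' u' O) : ∃ w, Iw d d'' w O ∧ ∀ x ∈ O, ∀ s : Matrix (κ × κ) Unit ℂ, d.det x * s = s →
      kk w x * s = kk u' x * (kk u x * s) := by
  obtain ⟨w, a, b⟩ := i.trans hO h h' h'' j
  exact ⟨w, a, fun x hx s hs => by
    rw [← hs, ← Matrix.mul_assoc, b x hx, Matrix.mul_assoc, Matrix.mul_assoc]⟩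

/-! ### deformations -/

/-- `O` deforms inside itself into `O₀` -/
def Dfm {X : Type*} [TopologicalSpace X] (O O₀ : Set X) : Prop :=
  ∃ h : ℝ × X → X, ContinuousOn h (Icc 0 1 ×ˢ O) ∧ (∀ t ∈ Icc (0 : ℝ) 1, ∀ x ∈ O, h (t, x) ∈ O) ∧
    (∀ x ∈ O, h (0, x) ∈ O₀) ∧ ∀ x ∈ O, h (1, x) = x

theorem Dfm.hasLog {X : Type*} [TopologicalSpace X] {O O₀ : Set X} (h : Dfm O O₀) {φ : X → ℂ}
    (hφ : ContinuousOn φ O) (h0 : ∀ x ∈ O, φ x ≠ 0) (hl : HasLog φ O₀) : HasLog φ O :=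
  let ⟨_, a, b, c, e⟩ := h; HasLog.of_deform hφ h0 a b c e hl

theorem Dfm.frame {X V : Type*} [TopologicalSpace X] [MetrizableSpace X] [NormedAddCommGroup V]
    [NormedSpace ℂ V] {O O₀ : Set X} (h : Dfm O O₀) {Q : X → V →L[ℂ] V} (hQ : IsLine Q O) {s : X → V}
    (hs : IsFrame Q s O₀) : ∃ a : O → V, IsFrame (fun x : O => Q x) a univ := by
  obtain ⟨g, a, b, c, e⟩ := h
  let _ := metrizableSpaceMetric X
  have cg : Continuous fun z : ℝ × O => g (projIcc 0 1 zero_le_one z.1, z.2) :=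
    a.comp_continuous ((continuous_subtype_val.comp (continuous_projIcc.comp continuous_fst)).prodMk
      (by fun_prop)) fun z => ⟨(projIcc 0 1 zero_le_one z.1).2, z.2.2⟩
  obtain ⟨s', h1, -⟩ := frame_htpy (X := O) (Q := fun z => Q (g (projIcc 0 1 zero_le_one z.1, z.2)))
    (hQ.comp cg.continuousOn fun z _ => b _ (projIcc 0 1 zero_le_one z.1).2 _ z.2.2)
    (hs.comp (cg.comp (Continuous.prodMk_right 0)).continuousOn fun x _ => by simpa using c _ x.2)
  exact ⟨s', h1.congr (fun x _ => by simp [e _ x.2]) fun _ _ => rfl⟩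

theorem Dfm.fr {O₀ : Set M} (h : Dfm O O₀) (hO : IsOpen O) {p : M → Matrix κ κ ℂ} (hp : LOn I p O)
    {s : M → κ → ℂ} (hs : IsFrame (fun x => clm (p x)) s O₀) :
    ∃ S : M → Matrix κ Unit ℂ, Uni I (fun _ => 1) p S O :=
  have := Manifold.metrizableSpace I M
  let ⟨_, a⟩ := h.frame hp.isLine hs
  exists_fr_of_frame hO hp a

theorem Dfm.eqv {O₀ : Set M} (k : Dfm O O₀) (hO : IsOpen O) (h0 : O₀ ⊆ O) (h : d.On O) (h' : d'.On O)
    (i : Eqv d d' O₀) : Eqv d d' O :=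
  let ⟨_, a⟩ := (eqv_iff (h.mono h0) (h'.mono h0)).1 i
  (eqv_iff h h').2 (k.fr hO (h.hl h') (frame_of_uni a))

end sc

end Crest.Agent.X212.Lab56
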