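import Crest.Agent.X212.Lab56.Eqv
import Crest.Agent.X212.Cyl58.Cap
import Crest.Agent.X212.Cyl58.Int

/-!
# X212 / Lab56, part Cls (helper56): classes, gluing, existence, twisting, cylinders

* `Sc.Eq` (literal equality on a set), `pull_pull`, `pull_id`, `pull_congr`;
* `Sc.fin`, `Cls I O`, `Sc.On.cls`, `cls_eq_iff`, `Cls.pull`, `Cls.bar`;
* `Sc.exists_glue`, `Sc.chart`, `sphD`;
* `tk`, `Iw.tk`, `Sc.ev` : twisting;
* `dfm_cyl`, `Eqv.cyl`, `exists_ext_cyl`, `Cls.res_bijective`.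
-/

set_option autoImplicit false
set_option linter.unusedSectionVars false

open Set Filter Topology Function Matrix Module TopologicalSpace Metric
open scoped ContDiff Manifold Kronecker ComplexOrder
open Crest.Agent.X212.Pj41 Crest.Agent.X212.Met55
open Crest.Agent.X212.Pic56 (IsLine IsFrame HasLog clm Rk1)
open Crest.Agent.X212.Line51 (Uni em)
open Crest.Agent.X212.Cyl58 (IsOE Up)

noncomputable section

namespace Crest.Agent.X212.Lab56

variable {E : Type} [NormedAddCommGroup E] [NormedSpace ℝ E] [FiniteDimensional ℝ E]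
  {H : Type} [TopologicalSpace H] {I : ModelWithCorners ℝ E H}
  {M : Type} [TopologicalSpace M] [ChartedSpace H M] [IsManifold I ∞ M]
  {E' : Type} [NormedAddCommGroup E'] [NormedSpace ℝ E'] [FiniteDimensional ℝ E']
  {H' : Type} [TopologicalSpace H'] {I' : ModelWithCorners ℝ E' H'}
  {N : Type} [TopologicalSpace N] [ChartedSpace H' N] [IsManifold I' ∞ N]
  {E'' : Type} [NormedAddCommGroup E''] [NormedSpace ℝ E''] [FiniteDimensional ℝ E'']
  {H'' : Type} [TopologicalSpace H''] {I'' : ModelWithCorners ℝ E'' H''}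
  {Z : Type} [TopologicalSpace Z] [ChartedSpace H'' Z] [IsManifold I'' ∞ Z]
  {ι ι' κ l n k : Type} [Fintype ι] [Fintype ι'] [Fintype κ] [Fintype l] [Fintype n]
  [Fintype k] [DecidableEq ι] [DecidableEq ι'] [DecidableEq κ] [DecidableEq l]
  [DecidableEq n] [DecidableEq k]
  {d a b : Sc I M ι κ} {d' : Sc I M ι' l} {O O' : Set M} {f f' : N → M} {g : Z → N} {W : Set N} {V : Set Z}
  {u : M → Matrix l κ ℂ} {x : M}

/-! ### literal equality -/

/-- the data agree at the points of `O` -/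
def Sc.Eq (d a : Sc I M ι κ) (O : Set M) : Prop :=
  ∀ x ∈ O, atx a.e x = atx d.e x ∧ a.m.p x = d.m.p x ∧ a.m.r x = d.m.r x

theorem Sc.Eq.refl (d : Sc I M ι κ) (O : Set M) : d.Eq d O := fun _ _ => ⟨rfl, rfl, rfl⟩

theorem Sc.Eq.symm (h : d.Eq a O) : a.Eq d O := fun x hx => ⟨(h x hx).1.symm, (h x hx).2.1.symm, (h x hx).2.2.symm⟩

theorem Sc.Eq.trans (h : d.Eq a O) (h' : a.Eq b O) : d.Eq b O := fun x hx =>
  ⟨(h' x hx).1.trans (h x hx).1, (h' x hx).2.1.trans (h x hx).2.1, (h' x hx).2.2.trans (h x hx).2.2⟩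

theorem Sc.Eq.mono (h : d.Eq a O) (hO : O' ⊆ O) : d.Eq a O' := fun x hx => h x (hO hx)

theorem Sc.Eq.det (h : d.Eq a O) (hx : x ∈ O) : a.det x = d.det x :=
  congrArg (fun r : ι → Matrix κ κ ℂ => hP (fun c => cj (r c)) r) (h x hx).2.2

theorem Sc.Eq.on (h : d.Eq a O) (hO : IsOpen O) (hd : d.On O) : a.On O :=
  have ev := fun x hx => eventually_of_mem (hO.mem_nhds (x := x) hx) h
  ⟨fun x hx => (hd.fr x hx).congr ((ev x hx).mono fun _ k c => congrFun k.1 c),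
    fun x hx => by rw [fP, (h x hx).1]; exact hd.m.p4 x hx,
    fun x hx => (hd.m.sp x hx).congr ((ev x hx).mono fun _ k => k.2.1),
    fun c x hx => (hd.m.sρ c x hx).congr ((ev x hx).mono fun _ k => congrFun k.2.2 c),
    fun x hx => by rw [fP, (h x hx).1, (h x hx).2.1, (h x hx).2.2]; exact hd.m.pc x hx⟩

theorem Sc.Eq.iw (h : d.Eq a O) (hd : d.On O) : Iw d a d.m.p O := (Iw.refl hd).of_eq (Sc.Eq.refl _ _) h

theorem Sc.Eq.eqv (h : d.Eq a O) (hd : d.On O) : Eqv d a O := ⟨_, h.iw hd⟩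

theorem Eqv.of_eq {a' : Sc I M ι' l} (i : Eqv d d' O) (e : d.Eq a O) (e' : d'.Eq a' O) : Eqv a a' O :=
  let ⟨_, i⟩ := i; ⟨_, i.of_eq e e'⟩

theorem pbv_unique {y : N} (h : IsLocalDiffeomorphAt I' I ∞ f y) {X : VF I M} {v : TangentSpace I' y}
    (e : mfderiv I' I f y v = X (f y)) : pbv I' I f X y = v := (ld_bij h).1 ((pbv_rel h X).trans e.symm)

theorem pull_pull (d : Sc I M ι κ) (hg : ∀ z ∈ V, IsLocalDiffeomorphAt I'' I' ∞ g z)
    (hf : ∀ z ∈ V, IsLocalDiffeomorphAt I' I ∞ f (g z)) :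
    ((d.pull I' f).pull I'' g).Eq (d.pull I'' (f ∘ g)) V := fun z hz =>
  ⟨funext fun c => pbv_unique ((hg z hz).comp _ _ (hf z hz)) (by
    rw [mfderiv_comp z ((hf z hz).mdifferentiableAt (by simp)) ((hg z hz).mdifferentiableAt (by simp))]
    exact (congrArg _ (pbv_rel (hg z hz) _)).trans (pbv_rel (hf z hz) _)), rfl, rfl⟩

theorem pull_id (d : Sc I M ι κ) (O : Set M) : d.Eq (d.pull I id) O := fun x _ =>
  ⟨funext fun c => pbv_unique (Cyl58.ld_id x) (by rw [mfderiv_id]; rfl), rfl, rfl⟩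

theorem pull_congr (d : Sc I M ι κ) (e : ∀ y ∈ W, f' =ᶠ[𝓝 y] f) : (d.pull I' f).Eq (d.pull I' f') W :=
  fun y hy => by
    have e0 := (e y hy).self_of_nhds
    refine ⟨funext fun c => ?_, congrArg d.m.p e0, congrArg d.m.r e0⟩
    show ((mfderiv I' I f' y).inverse (d.e c (f' y)) : E') = (mfderiv I' I f y).inverse (d.e c (f y))
    rw [(e y hy).mfderiv_eq]
    exact congrArg _ (congrArg (fun x => (d.e c x : E)) e0)

theorem Sc.Eq.pull (h : d.Eq a O) (hm : MapsTo f W O) : (d.pull I' f).Eq (a.pull I' f) W := fun y hy =>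
  ⟨funext fun c => congrArg (mfderiv I' I f y).inverse (congrFun (h _ (hm hy)).1 c), (h _ (hm hy)).2⟩

/-- pulling back along a map and a section of it -/
theorem pull_inv (d : Sc I M ι κ) {j : M → N} (hj : ∀ x ∈ O, IsLocalDiffeomorphAt I I' ∞ j x)
    (hf : ∀ x ∈ O, IsLocalDiffeomorphAt I' I ∞ f (j x)) (e : ∀ x ∈ O, f ∘ j =ᶠ[𝓝 x] id) :
    d.Eq ((d.pull I' f).pull I j) O :=
  ((pull_id d O).trans (pull_congr d e)).trans (pull_pull d hj hf).symm

/-! ### other index sets -/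

/-- the same module in another ambient space -/
def C8.push (m : C8 M ι κ) (V : Matrix l κ ℂ) : C8 M ι l :=
  ⟨fun x => V * m.p x * Vᴴ, fun c x => V * m.p x * m.ρ c x * (V * m.p x)ᴴ⟩

theorem C8.On.push {P : M → Matrix ι ι ℝ} {m : C8 M ι κ} (h : m.On I P O) {V : Matrix l κ ℂ}
    (hV : Vᴴ * V = 1) : (m.push V).On I P O ∧ CI I m (m.push V) (fun x => V * m.p x) O :=
  have s := fun x hx => (MSm.const V).mul (h.sp x hx)
  have k := fun x hx => (h.pc x hx).push (Line51.piso_cj hV (h.pc x hx).prj)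
  ⟨⟨h.p4, fun x hx => (s x hx).mul (MSm.const _), fun c x hx => ((s x hx).mul (h.sρ c x hx)).mul (s x hx).ct,
    fun x hx => (k x hx).1⟩, s, fun x hx => (k x hx).2⟩

/-- the data with other index sets -/
def Sc.rix (d : Sc I M ι κ) (α : ι → ι') (β : κ → l) : Sc I M ι' l :=
  ⟨pad α d.e, (d.tp (pad α d.e)).push (em β)⟩

theorem Sc.On.rix (h : d.On O) {α : ι → ι'} {β : κ → l} (hα : Injective α) (hβ : Injective β) :
    (d.rix α β).On O ∧ Iw d (d.rix α β) (fun x => em β * d.m.p x) O :=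
  have k := (h.tp fun x hx => (h.fr x hx).pad hα).push (Line51.em_iso hβ)
  ⟨⟨fun x hx => (h.fr x hx).pad hα, k.1⟩, k.2⟩

variable (I) in
/-- data on `O` with standard index sets -/
structure Dat (O : Set M) where
  n : ℕ
  N : ℕ
  d : Sc I M (Fin n) (Fin N)
  ok : d.On O

variable (I) in
/-- spin^c structures on `O` -/
def Cls (O : Set M) : Type := Quot fun a b : Dat I O => Eqv a.d b.d O

/-- the class of a datum -/
def Sc.On.cls (h : d.On O) : Cls I O :=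
  Quot.mk _ ⟨_, _, d.rix (Fintype.equivFin ι) (Fintype.equivFin κ),
    (h.rix (Equiv.injective _) (Equiv.injective _)).1⟩

/-- pull-back of classes -/
def Cls.pull (hf : ∀ y ∈ W, IsLocalDiffeomorphAt I' I ∞ f y) (hm : MapsTo f W O) : Cls I O → Cls I' W :=
  Quot.map (fun a => ⟨_, _, a.d.pull I' f, a.ok.pull hf hm⟩) fun a b i => i.pull a.ok b.ok hf hm

/-- restriction of classes -/
def Cls.res (h : O' ⊆ O) : Cls I O → Cls I O' :=
  Quot.map (fun a => ⟨_, _, a.d, a.ok.mono h⟩) fun _ _ i => i.mono h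

/-- conjugation of classes -/
def Cls.bar : Cls I O → Cls I O := Quot.map (fun a => ⟨_, _, a.d.bar, a.ok.bar⟩) fun _ _ i => i.bar

theorem Cls.bar_bar (c : Cls I O) : c.bar.bar = c := by
  obtain ⟨a⟩ := c
  exact Quot.sound (show Eqv a.d.bar.bar a.d O by rw [Sc.bar_bar]; exact .refl a.ok)

section cls

variable [T2Space M] [SigmaCompactSpace M] [I.Boundaryless]

theorem mk_eq_iff (hO : IsOpen O) {a b : Dat I O} :
    (Quot.mk _ a : Cls I O) = Quot.mk _ b ↔ Eqv a.d b.d O :=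
  Quot.eq.trans (Equivalence.eqvGen_iff ⟨fun a => .refl a.ok, fun {a b} i => i.symm a.ok b.ok,
    fun {a b c} i j => i.trans hO a.ok b.ok c.ok j⟩)

theorem cls_eq_mk (hO : IsOpen O) (h : d.On O) {a : Dat I O} : h.cls = Quot.mk _ a ↔ Eqv d a.d O := by
  have k := h.rix (Fintype.equivFin ι).injective (Fintype.equivFin κ).injective
  exact (mk_eq_iff hO).trans ⟨fun i => Eqv.trans hO h k.1 a.ok ⟨_, k.2⟩ i,
    fun i => (Eqv.symm h k.1 ⟨_, k.2⟩).trans hO k.1 h a.ok i⟩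

theorem cls_eq_iff (hO : IsOpen O) (h : d.On O) (h' : d'.On O) : h.cls = h'.cls ↔ Eqv d d' O := by
  have k := h'.rix (Fintype.equivFin ι').injective (Fintype.equivFin l).injective
  exact (cls_eq_mk hO h).trans ⟨fun i => i.trans hO h k.1 h' (Eqv.symm h' k.1 ⟨_, k.2⟩),
    fun i => i.trans hO h h' k.1 ⟨_, k.2⟩⟩

theorem Cls.ind (hO : IsOpen O) (c : Cls I O) :
    ∃ (n N : ℕ) (d : Sc I M (Fin n) (Fin N)) (h : d.On O), h.cls = c := by
  obtain ⟨a⟩ := c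
  exact ⟨_, _, a.d, a.ok, (cls_eq_mk hO a.ok).2 (.refl a.ok)⟩

theorem res_cls (h : d.On O) (k : O' ⊆ O) : h.cls.res k = (h.mono k).cls := rfl

theorem bar_cls (hO : IsOpen O) (h : d.On O) : h.cls.bar = h.bar.cls := by
  have k := h.rix (Fintype.equivFin ι).injective (Fintype.equivFin κ).injective
  exact ((cls_eq_mk hO h.bar (a := ⟨_, _, _, k.1.bar⟩)).2 ⟨_, k.2.bar⟩).symm

end cls

theorem pull_cls [T2Space N] [SigmaCompactSpace N] [I'.Boundaryless] (hW : IsOpen W) (h : d.On O)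
    (hf : ∀ y ∈ W, IsLocalDiffeomorphAt I' I ∞ f y) (hm : MapsTo f W O) :
    h.cls.pull hf hm = (h.pull hf hm).cls := by
  have k := h.rix (Fintype.equivFin ι).injective (Fintype.equivFin κ).injective
  exact ((cls_eq_mk hW (h.pull hf hm) (a := ⟨_, _, _, k.1.pull hf hm⟩)).2 ⟨_, k.2.pull h k.1 hf hm⟩).symm

theorem Cls.pull_pull (c : Cls I O) (hf : ∀ y ∈ W, IsLocalDiffeomorphAt I' I ∞ f y) (hm : MapsTo f W O)
    (hg : ∀ z ∈ V, IsLocalDiffeomorphAt I'' I' ∞ g z) (hn : MapsTo g V W) :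
    (c.pull hf hm).pull hg hn = c.pull (fun z hz => (hg z hz).comp _ _ (hf _ (hn hz))) (hm.comp hn) := by
  obtain ⟨a⟩ := c
  exact Quot.sound ((Lab56.pull_pull a.d hg fun _ hz => hf _ (hn hz)).eqv ((a.ok.pull hf hm).pull hg hn))

theorem Cls.pull_congr (c : Cls I O) (hf : ∀ y ∈ W, IsLocalDiffeomorphAt I' I ∞ f y) (hm : MapsTo f W O)
    (hf' : ∀ y ∈ W, IsLocalDiffeomorphAt I' I ∞ f' y) (hm' : MapsTo f' W O) (e : ∀ y ∈ W, f' =ᶠ[𝓝 y] f) :
    c.pull hf hm = c.pull hf' hm' := by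
  obtain ⟨a⟩ := c
  exact Quot.sound ((Lab56.pull_congr a.d e).eqv (a.ok.pull hf hm))

theorem Cls.res_eq_pull (c : Cls I O) (h : O' ⊆ O) :
    c.res h = c.pull (f := id) (fun x _ => Cyl58.ld_id x) h := by
  obtain ⟨a⟩ := c
  exact Quot.sound ((Lab56.pull_id a.d O').eqv (a.ok.mono h))

theorem Cls.pull_bar (c : Cls I O) (hf : ∀ y ∈ W, IsLocalDiffeomorphAt I' I ∞ f y) (hm : MapsTo f W O) :
    c.bar.pull hf hm = (c.pull hf hm).bar := by
  obtain ⟨a⟩ := c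
  rfl

/-! ### gluing -/

theorem kk_iso {w : M → Matrix l κ ℂ} {p : M → Matrix κ κ ℂ} (h : w x * p x = w x) :
    kk w x * kk p x = kk w x := by rw [← kk_mul, kk, kk, h]

/-- **gluing of two data** -/
theorem Sc.exists_glue [T2Space M] [SigmaCompactSpace M] [I.Boundaryless] {U V : Set M} (hU : IsOpen U)
    (hV : IsOpen V) (hc : U ∪ V = univ) (h : d.On U) (h' : d'.On V) (i : Iw d d' u (U ∩ V)) :
    ∃ (g : Sc I M (ι ⊕ ι') (κ ⊕ l)) (a : M → Matrix (κ ⊕ l) κ ℂ) (b : M → Matrix (κ ⊕ l) l ℂ),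
      g.On univ ∧ Iw d g a U ∧ Iw d' g b V ∧
        ∀ x ∈ U ∩ V, kk a x * d.det x = kk b x * kk u x * d.det x := by
  obtain ⟨ρ, hρ⟩ := SmoothPartitionOfUnity.exists_isSubordinate I isClosed_univ
    (fun z : Bool => cond z U V) (by rintro (_ | _); exacts [hV, hU]) fun x _ => by
      rcases (hc ▸ mem_univ x : x ∈ U ∪ V) with e | e
      exacts [mem_iUnion.2 ⟨true, e⟩, mem_iUnion.2 ⟨false, e⟩]
  let w : ι ⊕ ι' → VF I M := Sum.elim (fun c x => ρ true x • d.e c x) fun c x => ρ false x • d'.e c x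
  have hw : ∀ x, FAt w x := fun x => by
    refine ⟨?_, ?_⟩
    · rintro (c | c)
      exacts [VAt.cutoff ((ρ true).contMDiff x) (hρ true) fun k => (h.fr x k).sm c,
        VAt.cutoff ((ρ false).contMDiff x) (hρ false) fun k => (h'.fr x k).sm c]
    · obtain ⟨_ | _, e⟩ := ρ.exists_pos_of_mem (mem_univ x)
      · exact (h'.fr x (hρ false (subset_tsupport _ e.ne'))).sp.of_range fun c =>
          ⟨(ρ false x)⁻¹, .inr c, (inv_smul_smul₀ e.ne' _).symm⟩
      · exact (h.fr x (hρ true (subset_tsupport _ e.ne'))).sp.of_range fun c =>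
          ⟨(ρ true x)⁻¹, .inl c, (inv_smul_smul₀ e.ne' _).symm⟩
  have k1 := h'.mono (inter_subset_right (s := U))
  obtain ⟨u₁, j, e⟩ := Iw.trans (hU.inter hV) (h.mono inter_subset_left) k1 (k1.chg fun x _ => hw x) i
    (k1.tp fun x _ => hw x).refl
  obtain ⟨g, a, b, g1, g2, g3, g4⟩ := C8.exists_glue hU hV hc (h.tp fun x _ => hw x) (h'.tp fun x _ => hw x) j
  refine ⟨⟨w, g⟩, a, b, ⟨fun x _ => hw x, g1⟩, g2, g3, fun x hx => ?_⟩
  rw [show kk a x = kk b x * kk u₁ x by rw [← kk_mul, kk, kk, g4 x hx], Matrix.mul_assoc, e x hx,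
    ← Matrix.mul_assoc, ← Matrix.mul_assoc, kk_iso (g3.un x hx.2).iso.idem]

/-! ### existence in charts -/

/-- the standard generators over the Gaussian integers -/
def gaZ : Fin 4 → Matrix (Fin 4) (Fin 4) GaussianInt :=
  ![!![0, 0, -1, 0; 0, 0, 0, -1; 1, 0, 0, 0; 0, 1, 0, 0],
    !![0, 0, 0, ⟨0, 1⟩; 0, 0, ⟨0, 1⟩, 0; 0, ⟨0, 1⟩, 0, 0; ⟨0, 1⟩, 0, 0, 0],
    !![0, 0, 0, 1; 0, 0, -1, 0; 0, 1, 0, 0; -1, 0, 0, 0],
    !![0, 0, ⟨0, 1⟩, 0; 0, 0, 0, ⟨0, -1⟩; ⟨0, 1⟩, 0, 0, 0; 0, ⟨0, -1⟩, 0, 0]]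

theorem gaZ_rel : ∀ a b, gaZ a * gaZ b + gaZ b * gaZ a = if a = b then -(1 + 1) else 0 := by decide

theorem gaZ_sk : ∀ a i j, star (gaZ a j i) = -gaZ a i j := by decide

/-- the standard generators -/
def gam (a : Fin 4) : Matrix (Fin 4) (Fin 4) ℂ := GaussianInt.toComplex.mapMatrix (gaZ a)

theorem pc_gam : PC (1 : Matrix (Fin 4) (Fin 4) ℝ) 1 gam := by
  refine ⟨Prj.one, by simp, ⟨fun a b => ?_, fun a => Matrix.one_mul _, fun a => Matrix.mul_one _,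
    fun a => by simp [one_apply]⟩, fun a => ?_⟩
  · rw [gam, gam, ← map_mul, ← map_mul, ← map_add, gaZ_rel, one_apply]
    split_ifs
    · rw [map_neg, map_add, map_one, mul_one, neg_smul, two_smul]
    · simp
  · ext i j
    exact (GaussianInt.toComplex_star _).symm.trans ((congrArg _ (gaZ_sk a i j)).trans (map_neg _ _))

variable (I) in
/-- the flat datum of a chart -/
def Sc.chart (h4 : finrank ℝ E = 4) (p : M) : Sc I M (Fin 4) (Fin 4) :=
  ⟨fun c => cf I p (finBasis ℝ E (Fin.cast h4.symm c)), fun _ => 1, fun c _ => gam c⟩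

theorem on_chart (h4 : finrank ℝ E = 4) (p : M) : (Sc.chart I h4 p).On (chartAt H p).source := by
  have hs : ∀ x ∈ (chartAt H p).source, Sp (atx (Sc.chart I h4 p).e x) := fun x hx =>
    (sp_cf hx).of_range fun c => ⟨1, Fin.cast h4 c, (one_smul _ _).symm⟩
  refine ⟨fun x hx => ⟨fun c => vAt_cf hx _, hs x hx⟩, fun x hx => p4_fP h4 (hs x hx),
    fun _ _ => MSm.const _, fun _ _ _ => MSm.const _, fun x hx => ?_⟩
  rw [(prj_fP (hs x hx)).eq_of_trace Prj.one (Matrix.one_mul _) ((p4_fP h4 (hs x hx)).rk.trans (by simp))]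
  exact pc_gam

/-- the flat datum of a vector space -/
def flat (h4 : finrank ℝ E = 4) : Sc 𝓘(ℝ, E) E (Fin 4) (Fin 4) := Sc.chart 𝓘(ℝ, E) h4 0

theorem on_flat (h4 : finrank ℝ E = 4) : (flat h4).On univ := on_chart h4 0

/-- the datum of the cylinder over the sphere -/
def sphD : Sc ((𝓡 3).prod 𝓘(ℝ, ℝ)) (sphere (0 : EuclideanSpace ℝ (Fin 4)) 1 × ℝ) (Fin 4) (Fin 4) :=
  (flat (by simp)).pull _ Cyl58.pol

theorem on_sphD : sphD.On univ :=
  haveI : Fact (finrank ℝ (EuclideanSpace ℝ (Fin 4)) = 3 + 1) := ⟨by simp⟩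
  (on_flat _).pull (fun y _ => Cyl58.isOE_pol.loc y) (mapsTo_univ _ _)

/-! ### twisting -/

/-- `A ⊗ s` for a column `s` -/
def tk (A : Matrix l κ ℂ) (s : Matrix n Unit ℂ) : Matrix (l × n) κ ℂ := of fun i j => A i.1 j * s i.2 ()

theorem tk_mul (A : Matrix l k ℂ) (B : Matrix k κ ℂ) (s : Matrix n Unit ℂ) : tk A s * B = tk (A * B) s := by
  ext i j; simp [tk, mul_apply, Finset.sum_mul, mul_right_comm]

theorem kron_tk {n' : Type} (X : Matrix k l ℂ) (Y : Matrix n' n ℂ) (A : Matrix l κ ℂ) (s : Matrix n Unit ℂ) :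
    (X ⊗ₖ Y) * tk A s = tk (X * A) (Y * s) := by
  ext i j
  simp only [tk, mul_apply, Fintype.sum_prod_type, kroneckerMap_apply, of_apply, Finset.sum_mul_sum]
  exact Finset.sum_congr rfl fun _ _ => Finset.sum_congr rfl fun _ _ => by ring

theorem tk_smul (A : Matrix l κ ℂ) (c : ℂ) (s : Matrix n Unit ℂ) : tk A (c • s) = c • tk A s := by
  ext i j; simp [tk, mul_left_comm]

theorem tk_ct_mul (A : Matrix l κ ℂ) (B : Matrix l k ℂ) (s t : Matrix n Unit ℂ) :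
    (tk A s)ᴴ * tk B t = (sᴴ * t) () () • (Aᴴ * B) := by
  ext i j
  simp only [tk, mul_apply, Fintype.sum_prod_type, conjTranspose_apply, of_apply, Matrix.smul_apply,
    smul_eq_mul, Finset.sum_mul_sum, star_mul']
  rw [Finset.sum_comm]
  exact Finset.sum_congr rfl fun _ _ => Finset.sum_congr rfl fun _ _ => by ring

theorem tk_mul_ct (A : Matrix l κ ℂ) (s : Matrix n Unit ℂ) : tk A s * (tk A s)ᴴ = (A * Aᴴ) ⊗ₖ (s * sᴴ) := by
  ext i j
  simp only [tk, mul_apply, conjTranspose_apply, of_apply, kroneckerMap_apply, Finset.sum_mul, star_mul',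
    Fintype.sum_unique]
  exact Finset.sum_congr rfl fun _ _ => by ring

theorem Un.tk {p : Matrix κ κ ℂ} {ρ : ι → Matrix κ κ ℂ} {p' : Matrix l l ℂ} {ρ' : ι → Matrix l l ℂ}
    {A : Matrix l κ ℂ} (i : Un p ρ p' ρ' A) {q : Matrix n n ℂ} {s : Matrix n Unit ℂ} (hs : PIso s 1 q) :
    Un p ρ (p' ⊗ₖ q) (fun a => ρ' a ⊗ₖ q) (tk A s) :=
  ⟨⟨by rw [tk_ct_mul, hs.src, i.iso.src]; simp, by rw [tk_mul_ct, hs.tgt, i.iso.tgt],
    by rw [tk_mul, i.iso.idem]⟩, fun a => by rw [tk_mul, kron_tk, hs.left, i.ρ]⟩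

theorem msm_tk {s : M → Matrix n Unit ℂ} (h : MSm I u x) (hs : MSm I s x) :
    MSm I (fun y => tk (u y) (s y)) x := fun i j => (h i.1 j).mul' (hs i.2 ())

/-- a unit section of `q` trivialises the twist -/
theorem Iw.tk (i : Iw d d' u O) {q : M → Matrix n n ℂ} {s : M → Matrix n Unit ℂ}
    (hs : Uni I (fun _ => 1) q s O) : Iw d (d'.tw q) (fun x => tk (u x) (s x)) O :=
  ⟨fun x hx => msm_tk (i.sm x hx) (hs.sm x hx), fun x hx => (i.un x hx).tk (hs.iso x hx)⟩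

theorem Eqv.tw_triv (h : d.On O) {q : M → Matrix n n ℂ} {s : M → Matrix n Unit ℂ}
    (hs : Uni I (fun _ => 1) q s O) : Eqv d (d.tw q) O := ⟨_, (Iw.refl h).tk hs⟩

/-- the contraction `κ × (l × κ) → l` -/
def ctr (l κ : Type) [DecidableEq l] [DecidableEq κ] : Matrix l (κ × (l × κ)) ℂ :=
  of fun i j => if j.2 = (i, j.1) then 2 else 0

theorem ctr_tk (p : Matrix κ κ ℂ) (A : Matrix l κ ℂ) : ctr l κ * tk p (vec ((1 / 2 : ℂ) • A)) = A * p := by
  ext i j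
  simp only [ctr, tk, vec, mul_apply, Fintype.sum_prod_type (α₁ := κ), of_apply, ite_mul, zero_mul,
    Finset.sum_ite_eq', Finset.mem_univ, if_true, Matrix.smul_apply, smul_eq_mul]
  exact Finset.sum_congr rfl fun _ _ => by ring

/-- **every datum is a twist of a given one** -/
theorem iw_ev (h : d.On O) (h' : d'.On O) :
    Iw (d.tw (d.hl d')) d' (fun x => ctr l κ * (d.m.p x ⊗ₖ d.hl d' x)) O := by
  rw [Iw, tp_tw]
  refine ⟨fun x hx => (MSm.const _).mul ((h.m.sp x hx).kron ((h.hl h').sm x hx)), fun x hx => ?_⟩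
  have k := (h.tp h'.fr).pc x hx
  obtain ⟨A, hA⟩ := exists_un (h'.m.p4 x hx) k (h'.m.pc x hx)
  have c := hA.col (h'.m.p4 x hx) k (h'.m.pc x hx)
  have j := k.refl.tk c
  have := (j.symm k (k.tw c.prj_tgt ((h.hl h').tr x hx))).trans hA
  rwa [← congrArg (· * _) ((ctr_tk _ A).trans hA.iso.idem), Matrix.mul_assoc, j.iso.tgt] at this

theorem eqv_ev (h : d.On O) (h' : d'.On O) : Eqv (d.tw (d.hl d')) d' O := ⟨_, iw_ev h h'⟩

/-! ### cylinders -/

section cyl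

variable {S : Set M} {J J' : Set ℝ}

theorem dfm_cyl {X : Type*} [TopologicalSpace X] (S : Set X) (hJ : OrdConnected J) {s : ℝ} (hs : s ∈ J)
    (hs' : s ∈ J') : Dfm (S ×ˢ J) (S ×ˢ J') :=
  ⟨fun z => (z.2.1, (1 - z.1) * s + z.1 * z.2.2), by fun_prop,
    fun t ht x hx => ⟨hx.1, hJ.convex hs hx.2 (sub_nonneg.2 ht.2) ht.1 (sub_add_cancel _ _)⟩,
    fun x hx => ⟨hx.1, by simpa using hs'⟩, fun x _ => by simp⟩

theorem exists_shrink (hJ : IsOpen J) {s : ℝ} (hs : s ∈ J) :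
    ∃ φ : ℝ → ℝ, Up φ univ ∧ (∀ t, φ t ∈ J) ∧ ∃ ε > 0, ∀ t ∈ Ioo (s - ε) (s + ε), φ t = t := by
  obtain ⟨ε, h0, h⟩ := Metric.isOpen_iff.1 hJ s hs
  obtain ⟨l, l1, l2, l3⟩ := Cyl58.exists_up_Iio (show s + ε / 2 < s + ε by linarith)
  obtain ⟨r, r1, r2, r3⟩ := Cyl58.exists_up_Iio (show -s + ε / 2 < -s + ε by linarith)
  refine ⟨fun t => -r (-l t), (r1.neg.mono (subset_univ _)).comp l1 (mapsTo_univ _ _), fun t => h ?_, ε / 2,
    by linarith, fun t ht => by beta_reduce; rw [l2 t ht.2.le, r2 _ (by linarith [ht.1]), neg_neg]⟩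
  have a : l t < s + ε := l3.subset ⟨t, rfl⟩
  have b : r (-l t) < -s + ε := r3.subset ⟨_, rfl⟩
  rw [Real.ball_eq_Ioo]
  refine ⟨by linarith, show -r (-l t) < _ from ?_⟩
  rcases le_total (-l t) (-s + ε / 2) with c | c
  · rw [r2 _ c]; linarith
  · have := r1.strictMono.monotone c
    rw [r2 _ le_rfl] at this
    linarith

variable [T2Space M] [SigmaCompactSpace M] [I.Boundaryless]

local notation "IC" => ModelWithCorners.prod I 𝓘(ℝ, ℝ)

theorem Eqv.cyl {d : Sc IC (M × ℝ) ι κ} {d' : Sc IC (M × ℝ) ι' l} (hS : IsOpen S) (hJ : IsOpen J)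
    (hc : OrdConnected J) (h0 : J' ⊆ J) (hn : J'.Nonempty) (h : d.On (S ×ˢ J)) (h' : d'.On (S ×ˢ J))
    (i : Eqv d d' (S ×ˢ J')) : Eqv d d' (S ×ˢ J) :=
  (dfm_cyl S hc (h0 hn.some_mem) hn.some_mem).eqv (hS.prod hJ) (prod_mono_right h0) h h' i

theorem exists_ext_cyl {d : Sc IC (M × ℝ) ι κ} (hS : IsOpen S) (hJ : IsOpen J) (hc : OrdConnected J)
    (hn : J.Nonempty) (h : d.On (S ×ˢ J)) :
    ∃ a : Sc IC (M × ℝ) ι κ, a.On (S ×ˢ univ) ∧ Eqv d a (S ×ˢ J) := by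
  obtain ⟨s, hs⟩ := hn
  obtain ⟨φ, h1, h2, ε, h3, h4⟩ := exists_shrink hJ hs
  have k := h.pull (I' := IC) (f := Prod.map id φ) (W := S ×ˢ univ)
    (fun y _ => (Cyl58.IsOE.id.prodMap h1.isOE).loc y) fun y hy => ⟨hy.1, h2 _⟩
  have h5 : Ioo (s - ε) (s + ε) ⊆ J := fun t ht => h4 t ht ▸ h2 t
  refine ⟨_, k, Eqv.cyl hS hJ hc h5 ⟨s, by simp [h3]⟩ h (k.mono (prod_mono_right (subset_univ _)))
    (((pull_id d _).trans (pull_congr d fun y hy => ?_)).eqv (h.mono (prod_mono_right h5)))⟩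
  filter_upwards [(isOpen_Ioo.preimage continuous_snd).mem_nhds hy.2] with z hz
  exact Prod.ext rfl (h4 _ hz)

/-- **classes on a cylinder are determined by their restriction to a shorter cylinder** -/
theorem Cls.res_bijective (hS : IsOpen S) (hJ : IsOpen J) (hc : OrdConnected J) (hJ' : IsOpen J')
    (hc' : OrdConnected J') (h0 : J' ⊆ J) (hn : J'.Nonempty) :
    Bijective (Cls.res (I := IC) (prod_mono_right h0 : S ×ˢ J' ⊆ S ×ˢ J)) := by
  refine ⟨?_, ?_⟩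
  · rintro ⟨a⟩ ⟨b⟩ e
    exact Quot.sound (Eqv.cyl hS hJ hc h0 hn a.ok b.ok ((mk_eq_iff (hS.prod hJ')).1 e))
  · rintro ⟨a⟩
    obtain ⟨b, h1, h2⟩ := exists_ext_cyl hS hJ' hc' hn a.ok
    exact ⟨Quot.mk _ ⟨_, _, b, h1.mono (prod_mono_right (subset_univ _))⟩, (Quot.sound h2).symm⟩

end cyl

end Crest.Agent.X212.Lab56
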