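import Crest.Agent.X212.Lab56.Cw

/-!
# X212 / Lab56, part Cf (helper56): classes of fillings and of words with one or two vertices

* `Lb.cl`, `cl_surj`, `cl_eq`, `finite`, `CL.fl`;
* `c1_surj`, `exists_c1`, `C1.eq_iff`, `C1.left`, `C1.right`, `C1.map`;
* `c2_surj`, `exists_c2`, `C2.left`, `C2.right`, `C2.map_left`, `C2.map_right`, `C2.map_off`.
-/

set_option autoImplicit false
set_option linter.unusedSectionVars false

open Set Filter Topology Function Matrix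
open scoped ContDiff Manifold
open Crest.Agent.X212.Pj41 Crest.Agent.X212.Met55 Crest.Agent.X212.Line51
open Crest.Agent.X212.Rod53 hiding Uni X cj
open Crest.Agent.X212.Cyl58 (Up)

noncomputable section

namespace Crest.Agent.X212.Lab56

variable {ι κ l : Type} [Fintype ι] [Fintype κ] [Fintype l] [DecidableEq ι] [DecidableEq κ] [DecidableEq l]
  {EN HN : Type} [NormedAddCommGroup EN] [NormedSpace ℝ EN] [FiniteDimensional ℝ EN]
  [TopologicalSpace HN] {IN : ModelWithCorners ℝ EN HN} [IN.Boundaryless]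
  {N : Type} [TopologicalSpace N] [ChartedSpace HN N] [IsManifold IN ∞ N] [T2Space N]
  {EY HY : Type} [NormedAddCommGroup EY] [NormedSpace ℝ EY] [FiniteDimensional ℝ EY]
  [TopologicalSpace HY] {IY : ModelWithCorners ℝ EY HY} [IY.Boundaryless]
  {Y : Type} [TopologicalSpace Y] [ChartedSpace HY Y] [IsManifold IY ∞ Y]
  {T : Tb IN N} {v v' : ℝ → Z2} {a b e a' b' η η' δ : Z2} {θ : N → Circle} {m m' : ℝ → ℤ} {J : Set ℝ}
  {t x y : ℝ} {j j' : ℤ} {f : Rod53.X T v' → Rod53.X T v} {φ : ℝ → ℝ} {W : Set (Rod53.X T v')}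
  {O : Set (Rod53.X T v)}

namespace Lb

variable {L : Lb T θ δ} [CompactSpace N] [SecondCountableTopology N]
  {c c₁ : Cls (𝓡 4) (univ : Set (Rod53.X T v))} {c' : Cls (𝓡 4) (univ : Set (Rod53.X T v'))} {ma mb me na nb : ℤ}

/-! ### fillings -/

section fill

variable {F : Fl T a b IY Y} {hu : Rod53.Uni a b} {s s' : Cls (IY.prod 𝓘(ℝ, ℝ)) (univ : Set (Y × ℝ))}

variable (L F hu) in
theorem exists_fl (s : Cls (IY.prod 𝓘(ℝ, ℝ)) (univ : Set (Y × ℝ))) : ∃ k, L.FL F hu s k :=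
  let ⟨c, e⟩ := (Cls.dif_bijective (cyD F hu)).2 s
  let ⟨_, h⟩ := L.exists_cl (Fl.loc_const hu) c
  ⟨_, c, h.const hu, e⟩

theorem FL.par (h : L.FL F hu s j) : Even (j + L.ε a) :=
  let ⟨_, h, _⟩ := h
  dual_left hu j 0 ▸ h.par hu (Fl.Jr_const a 0) (.of_forall fun _ => dual_left hu j 0)

variable (F hu) in
theorem exists_fl' (h : Even (j + L.ε a)) : ∃ s, L.FL F hu s j := by
  obtain ⟨c, k⟩ := L.ε_spec hu
  obtain ⟨r, h⟩ := h
  obtain ⟨c₁, k₁⟩ := exists_cl_of (m' := fun _ => j) (Fl.loc_const hu) k (C := Unit) (fun _ => isOpen_univ)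
    (fun _ => ⟨(), trivial⟩) (e := fun _ => dual a b (r - L.ε a) 0) fun _ _ _ => by rw [dual_left hu]; omega
  exact ⟨_, c₁, k₁, rfl⟩

theorem FL.eq_iff (h : L.FL F hu s j) (h' : L.FL F hu s' j') : s = s' ↔ 2 * dot δ a ∣ j - j' := by
  obtain ⟨c, h, rfl⟩ := h
  obtain ⟨c', h', rfl⟩ := h'
  refine (Cls.dif_bijective (cyD F hu)).1.eq_iff.trans ((h.eq_iff (Fl.loc_const hu) h').trans
    ⟨fun ⟨k, e⟩ => ⟨-k, by rw [e 0]; ring⟩, fun ⟨k, e⟩ => ⟨-k, fun _ => by linear_combination -e⟩⟩)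

variable (L F hu) in
/-- the class of the filling with order `k` -/
def cl (k : ℤ) : Cls (IY.prod 𝓘(ℝ, ℝ)) (univ : Set (Y × ℝ)) :=
  @Classical.epsilon _ ((exists_fl' (L := L) F hu (Even.add_self _)).nonempty) fun s => L.FL F hu s k

theorem cl_spec (h : Even (j + L.ε a)) : L.FL F hu (L.cl F hu j) j := Classical.epsilon_spec (exists_fl' F hu h)

theorem FL.cl (h : L.FL F hu s j) : L.cl F hu j = s := ((cl_spec h.par).eq_iff h).2 (by simp)

variable (L F hu) in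
theorem cl_surj (s : Cls (IY.prod 𝓘(ℝ, ℝ)) (univ : Set (Y × ℝ))) : ∃ k, Even (k + L.ε a) ∧ L.cl F hu k = s :=
  let ⟨k, h⟩ := L.exists_fl F hu s; ⟨k, h.par, h.cl⟩

variable (F hu) in
theorem cl_eq (h : Even (j + L.ε a)) (h' : Even (j' + L.ε a)) :
    L.cl F hu j = L.cl F hu j' ↔ 2 * dot δ a ∣ j - j' := (cl_spec h).eq_iff (cl_spec h')

theorem finite (L : Lb T θ δ) (F : Fl T a b IY Y) (hu : Rod53.Uni a b) (h : dot δ a ≠ 0) :
    Finite (Cls (IY.prod 𝓘(ℝ, ℝ)) (univ : Set (Y × ℝ))) := by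
  have h0 : 2 * dot δ a ≠ 0 := by omega
  refine Finite.of_surjective (fun k : Ico 0 |2 * dot δ a| => L.cl F hu k) fun s => ?_
  obtain ⟨k, h1, rfl⟩ := L.cl_surj F hu s
  have e := Int.mul_ediv_add_emod k (2 * dot δ a)
  exact ⟨⟨k % (2 * dot δ a), Int.emod_nonneg _ h0, Int.emod_lt_abs _ h0⟩, (cl_eq F hu
    (let ⟨r, h⟩ := h1; ⟨r - dot δ a * (k / (2 * dot δ a)), by linear_combination h + e⟩) h1).2
    ⟨-(k / (2 * dot δ a)), by linear_combination e⟩⟩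

/-- **the class on a product region** -/
theorem CL.fl (h : L.CL c m) (hJ : IsOpen J) (hr : J ⊆ Jr v a) (e : ∀ t ∈ J, m t = dot η (v t))
    (hs : L.FL F hu s (dot η a)) :
    c.pull (W := univ ×ˢ J) (fun z hz => F.ld_cyf hu z.1 (hr hz.2)) (mapsTo_univ _ _) = s.res (subset_univ _) := by
  obtain ⟨c', h', rfl⟩ := hs
  have k := xm_cy F hu hJ hr
  have m : MapsTo (cyD F hu) (univ ×ˢ J) (T.time _ ⁻¹' J) := fun z hz =>
    (congrArg (· ∈ J) (F.time_cyf hu z.1 (Fl.Jr_const a z.2))).mpr hz.2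
  have := congrArg (Cls.pull (fun z _ => (cyD F hu).isLocalDiffeomorph z) m)
    (h.map (Fl.loc_const hu) h' k fun y hy _ => ⟨η, rep_of_eq hJ e hy, rep_dot η _⟩)
  rw [Cls.pull_pull, Cls.pull_res] at this
  exact (c.pull_congr _ _ _ _ fun _ _ => .of_forall fun z =>
    congrArg (F.cyf v hu) ((cyD F hu).symm_apply_apply z)).trans (this.trans (c'.res_pull _ _ _).symm)

end fill

/-! ### one vertex -/

theorem CL.v1 (hu : Rod53.Uni a b) (hV : ∀ t, t ∈ Jv v a b x) (h : L.CL c m) :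
    ∃ η, m = fun t => dot η (v t) := by
  have r := h.rep (loc_V1 hu hV)
  obtain ⟨η, k⟩ := r x
  refine ⟨η, funext fun t => Eq.symm (EventuallyEq.eq_of_nhds (show Rep v m η t from ?_))⟩
  rcases lt_trichotomy t x with o | rfl | o
  exacts [rep_left r (fun t => Jv.left (hV t)) k o, k, rep_right r (fun t => Jv.right (hV t)) k o]

variable (L) in
theorem c1_surj (hu : Rod53.Uni a b) (hV : ∀ t, t ∈ Jv v a b x) (c : Cls (𝓡 4) (univ : Set (Rod53.X T v))) :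
    ∃ ma mb, L.C1 c a b ma mb :=
  let ⟨_, h⟩ := L.exists_cl (loc_V1 hu hV) c
  let ⟨η, e⟩ := h.v1 hu hV
  ⟨_, _, η, rfl, rfl, e ▸ h⟩

theorem C1.par (hu : Rod53.Uni a b) (hV : ∀ t, t ∈ Jv v a b x) (h : L.C1 c a b ma mb) :
    Even (ma + L.ε a) ∧ Even (mb + L.ε b) := by
  obtain ⟨η, rfl, rfl, h⟩ := h
  exact ⟨h.par hu (Jv.left (hV _) (sub_one_lt x)) (rep_dot _ _),
    h.par hu.symm (Jv.right (hV _) (lt_add_one x)) (rep_dot _ _)⟩

theorem exists_half (hu : Rod53.Uni a b) (h1 : Even (ma + L.ε a)) (h2 : Even (mb + L.ε b))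
    (h3 : Even (dot η a + L.ε a)) (h4 : Even (dot η b + L.ε b)) :
    ∃ ζ, dot (η + (2 : ℤ) • ζ) a = ma ∧ dot (η + (2 : ℤ) • ζ) b = mb :=
  let ⟨r, _⟩ := h1; let ⟨s, _⟩ := h2; let ⟨r', _⟩ := h3; let ⟨s', _⟩ := h4
  ⟨dual a b (r - r') (s - s'), by rw [dot_add, dot_smul, dual_left hu]; omega,
    by rw [dot_add, dot_smul, dual_right hu]; omega⟩

theorem exists_c1 (hu : Rod53.Uni a b) (hV : ∀ t, t ∈ Jv v a b x) (ha : Even (ma + L.ε a))
    (hb : Even (mb + L.ε b)) : ∃ c : Cls (𝓡 4) (univ : Set (Rod53.X T v)), L.C1 c a b ma mb := by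
  obtain ⟨c⟩ := L.nonempty (loc_V1 hu hV) (tor_V1 hu hV)
  obtain ⟨_, _, h⟩ := L.c1_surj hu hV c
  have p := h.par hu hV
  obtain ⟨η, rfl, rfl, h⟩ := h
  obtain ⟨ζ, h1, h2⟩ := exists_half hu ha hb p.1 p.2
  obtain ⟨c₁, k⟩ := exists_cl_of (m' := fun t => dot (η + (2 : ℤ) • ζ) (v t)) (loc_V1 hu hV) h (C := Unit)
    (fun _ => isOpen_univ) (fun _ => ⟨(), trivial⟩) (e := fun _ => ζ) fun _ _ _ => by rw [dot_add, dot_smul]
  exact ⟨c₁, _, h1, h2, k⟩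

theorem C1.eq_iff (hu : Rod53.Uni a b) (hV : ∀ t, t ∈ Jv v a b x) (h : L.C1 c a b ma mb)
    (h' : L.C1 c₁ a b na nb) : c = c₁ ↔ ∃ k, ma - na = 2 * k * dot δ a ∧ mb - nb = 2 * k * dot δ b := by
  obtain ⟨η, rfl, rfl, h⟩ := h
  obtain ⟨η', rfl, rfl, h'⟩ := h'
  refine eq_comm.trans ((h'.eq_iff (loc_V1 hu hV) h).trans (exists_congr fun k => ?_))
  have e : ∀ z, dot η z - dot η' z = 2 * k * dot δ z ↔ dot (η - (η' + (2 * k) • δ)) z = 0 := fun z => by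
    rw [dot_sub, dot_add, dot_smul]; omega
  simp only [← sub_eq_iff_eq_add', e]
  exact ⟨fun o => ⟨(dot_pm (Jr.pm (Jv.left (hV _) (sub_one_lt x)))).1 (o _),
    (dot_pm (Jr.pm (Jv.right (hV _) (lt_add_one x)))).1 (o _)⟩, fun o t => by
      rw [eq_zero_of_dot hu o.1 o.2, zero_dot]⟩

theorem C1.left {F : Fl T a a' IY Y} {hu : Rod53.Uni a a'} {s : Cls (IY.prod 𝓘(ℝ, ℝ)) (univ : Set (Y × ℝ))}
    (hV : ∀ t, t ∈ Jv v a b x) (h : L.C1 c a b ma mb) (hs : L.FL F hu s ma) :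
    c.pull (W := univ ×ˢ Iio x) (fun z hz => F.ld_cyf hu z.1 (Jv.left (hV _) hz.2)) (mapsTo_univ _ _) =
      s.res (subset_univ _) :=
  let ⟨_, e, _, h⟩ := h
  h.fl isOpen_Iio (fun t => Jv.left (hV t)) (fun _ _ => rfl) (e ▸ hs)

theorem C1.right {F : Fl T b b' IY Y} {hu : Rod53.Uni b b'} {s : Cls (IY.prod 𝓘(ℝ, ℝ)) (univ : Set (Y × ℝ))}
    (hV : ∀ t, t ∈ Jv v a b x) (h : L.C1 c a b ma mb) (hs : L.FL F hu s mb) :
    c.pull (W := univ ×ˢ Ioi x) (fun z hz => F.ld_cyf hu z.1 (Jv.right (hV _) hz.2)) (mapsTo_univ _ _) =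
      s.res (subset_univ _) :=
  let ⟨_, _, e, h⟩ := h
  h.fl isOpen_Ioi (fun t => Jv.right (hV t)) (fun _ _ => rfl) (e ▸ hs)

theorem C1.pull (hv' : Loc v') (h : L.C1 c a b ma mb) (k : XM T v' v f φ univ) :
    L.C1 (c.pull k.ld (mapsTo_univ _ _)) a b ma mb :=
  let ⟨η, h1, h2, h⟩ := h
  ⟨η, h1, h2, h.pull hv' k fun _ => ⟨η, rep_dot _ _, rep_dot _ _⟩⟩

theorem C1.map (hv' : Loc v') (hu : Rod53.Uni a b) (h : L.C1 c a b ma mb) (h' : L.C1 c' a b ma mb)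
    (k : XM T v' v f φ W) : c.pull k.ld (mapsTo_univ _ _) = c'.res (subset_univ W) := by
  obtain ⟨η, rfl, rfl, h⟩ := h
  obtain ⟨η', h1, h2, h'⟩ := h'
  obtain rfl := eq_of_dot hu h1 h2
  exact h.map hv' h' k fun _ _ _ => ⟨η', rep_dot _ _, rep_dot _ _⟩

/-! ### two vertices -/

section two

variable (hu : Rod53.Uni a b) (hu' : Rod53.Uni b e) (hx : x < y) (h1 : ∀ t < y, t ∈ Jv v a b x)
  (h2 : ∀ t, x < t → t ∈ Jv v b e y)
include hu hu' hx h1 h2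

variable (L) in
theorem c2_surj (c : Cls (𝓡 4) (univ : Set (Rod53.X T v))) : ∃ ma mb me, L.C2 c a b e x y ma mb me := by
  have hv := loc_V2 hu hu' hx h1 h2
  obtain ⟨m, h⟩ := L.exists_cl hv c
  have r := h.rep hv
  obtain ⟨η, k⟩ := r x
  obtain ⟨η', k'⟩ := r y
  have o : ∀ t ∈ Ioo x y, t ∈ Jr v b := fun t ht => Jv.right (h1 t ht.2) ht.1
  obtain ⟨s, hs⟩ := nonempty_Ioo.2 hx
  refine ⟨_, _, _, η, η', m, rfl, rfl, Rep.dot_eq (o s hs) (rep_Ioo r o k hs) (rep_Ioo' r o k' hs), rfl, h,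
    fun t ht => Eq.symm (EventuallyEq.eq_of_nhds (show Rep v m η t from ?_)),
    fun t ht => Eq.symm (EventuallyEq.eq_of_nhds (show Rep v m η' t from ?_))⟩
  · rcases lt_trichotomy t x with q | rfl | q
    exacts [rep_left r (fun t q => Jv.left (h1 t (q.trans hx)) q) k q, k, rep_Ioo r o k ⟨q, ht⟩]
  · rcases lt_trichotomy t y with q | rfl | q
    exacts [rep_Ioo' r o k' ⟨ht, q⟩, k', rep_right r (fun t q => Jv.right (h2 t (hx.trans q)) q) k' q]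

theorem C2.par (h : L.C2 c a b e x y ma mb me) : Even (ma + L.ε a) ∧ Even (mb + L.ε b) ∧ Even (me + L.ε e) := by
  obtain ⟨η, η', m, rfl, rfl, -, rfl, h, k, k'⟩ := h
  obtain ⟨s, hs⟩ := nonempty_Ioo.2 hx
  exact ⟨h.par hu (Jv.left (h1 _ ((sub_one_lt x).trans hx)) (sub_one_lt x))
      (rep_of_eq isOpen_Iio k ((sub_one_lt x).trans hx)),
    h.par hu' (Jv.right (h1 _ hs.2) hs.1) (rep_of_eq isOpen_Iio k hs.2),
    h.par hu'.symm (Jv.right (h2 _ (hx.trans (lt_add_one y))) (lt_add_one y))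
      (rep_of_eq isOpen_Ioi k' (hx.trans (lt_add_one y)))⟩

theorem exists_c2 (ha : Even (ma + L.ε a)) (hb : Even (mb + L.ε b)) (he : Even (me + L.ε e)) :
    ∃ c : Cls (𝓡 4) (univ : Set (Rod53.X T v)), L.C2 c a b e x y ma mb me := by
  have hv := loc_V2 hu hu' hx h1 h2
  obtain ⟨c⟩ := L.nonempty hv (tor_V2 hv hu hu' hx h1 h2)
  obtain ⟨_, _, _, h⟩ := L.c2_surj hu hu' hx h1 h2 c
  have p := h.par hu hu' hx h1 h2
  obtain ⟨η, η', m, rfl, rfl, q, rfl, h, k, k'⟩ := h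
  obtain ⟨ζ, a1, a2⟩ := exists_half hu ha hb p.1 p.2.1
  obtain ⟨ζ', b1, b2⟩ := exists_half hu' hb he (q ▸ p.2.1) p.2.2
  have o : ∀ t, x < t → (if t < y then dot (η + (2 : ℤ) • ζ) (v t) else dot (η' + (2 : ℤ) • ζ') (v t)) =
      dot (η' + (2 : ℤ) • ζ') (v t) := fun t ht => by
    split_ifs with g
    exacts [dot_Jv (h2 t ht) (a2.trans b1.symm) fun g' => absurd g g'.not_gt, rfl]
  obtain ⟨c₁, g⟩ := exists_cl_of (m' := fun t => if t < y then dot (η + (2 : ℤ) • ζ) (v t) else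
    dot (η' + (2 : ℤ) • ζ') (v t)) hv h (C := Bool) (A := fun i => cond i (Iio y) (Ioi x))
    (by rintro (_ | _); exacts [isOpen_Ioi, isOpen_Iio])
    (fun t => (lt_or_ge t y).elim (fun g => ⟨true, g⟩) fun g => ⟨false, hx.trans_le g⟩)
    (e := fun i => cond i ζ ζ') (by
      rintro (_ | _) t ht
      · rw [o t ht, dot_add, dot_smul, k' t ht]; rfl
      · rw [if_pos (show t < y from ht), dot_add, dot_smul, k t ht]; rfl)
  exact ⟨c₁, _, _, _, a1, a2, b1, b2, g, fun t ht => if_pos ht, o⟩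

end two

theorem C2.left {F : Fl T a a' IY Y} {hu : Rod53.Uni a a'} {s : Cls (IY.prod 𝓘(ℝ, ℝ)) (univ : Set (Y × ℝ))}
    (hx : x < y) (h1 : ∀ t < y, t ∈ Jv v a b x) (h : L.C2 c a b e x y ma mb me) (hs : L.FL F hu s ma) :
    c.pull (W := univ ×ˢ Iio x) (fun z hz => F.ld_cyf hu z.1 (Jv.left (h1 _ (hz.2.trans hx)) hz.2))
      (mapsTo_univ _ _) = s.res (subset_univ _) :=
  let ⟨_, _, _, q, _, _, _, h, k, _⟩ := h
  h.fl isOpen_Iio (fun t o => Jv.left (h1 t (o.trans hx)) o) (fun t o => k t (o.trans hx)) (q ▸ hs)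

theorem C2.right {F : Fl T e a' IY Y} {hu : Rod53.Uni e a'} {s : Cls (IY.prod 𝓘(ℝ, ℝ)) (univ : Set (Y × ℝ))}
    (hx : x < y) (h2 : ∀ t, x < t → t ∈ Jv v b e y) (h : L.C2 c a b e x y ma mb me) (hs : L.FL F hu s me) :
    c.pull (W := univ ×ˢ Ioi y) (fun z hz => F.ld_cyf hu z.1 (Jv.right (h2 _ (hx.trans hz.2)) hz.2))
      (mapsTo_univ _ _) = s.res (subset_univ _) :=
  let ⟨_, _, _, _, _, _, q, h, _, k⟩ := h
  h.fl isOpen_Ioi (fun t o => Jv.right (h2 t (hx.trans o)) o) (fun t o => k t (hx.trans o)) (q ▸ hs)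

/-- restriction to the first handle -/
theorem C2.map_left (hv' : Loc v') (hu : Rod53.Uni a b) (h : L.C2 c a b e x y ma mb me) (h' : L.C1 c' a b ma mb)
    (k : XM T v' v f φ W) (hW : ∀ p ∈ W, φ (T.time v' p) < y) :
    c.pull k.ld (mapsTo_univ _ _) = c'.res (subset_univ W) := by
  obtain ⟨η, _, m, rfl, rfl, -, -, h, q, -⟩ := h
  obtain ⟨η', h1, h2, h'⟩ := h'
  obtain rfl := eq_of_dot hu h1 h2
  exact h.map hv' h' k fun p hp _ => ⟨η', rep_of_eq isOpen_Iio q (hW p hp), rep_dot _ _⟩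

/-- restriction to the second handle -/
theorem C2.map_right (hv' : Loc v') (hu : Rod53.Uni b e) (h : L.C2 c a b e x y ma mb me)
    (h' : L.C1 c' b e mb me) (k : XM T v' v f φ W) (hW : ∀ p ∈ W, x < φ (T.time v' p)) :
    c.pull k.ld (mapsTo_univ _ _) = c'.res (subset_univ W) := by
  obtain ⟨_, η, m, -, -, rfl, rfl, h, -, q⟩ := h
  obtain ⟨η', h1, h2, h'⟩ := h'
  obtain rfl := eq_of_dot hu h1 h2
  exact h.map hv' h' k fun p hp _ => ⟨η', rep_of_eq isOpen_Ioi q (hW p hp), rep_dot _ _⟩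

/-- restriction to the complement of the middle sphere -/
theorem C2.map_off {z : ℝ} (hv' : Loc v') (hu : Rod53.Uni a b) (hu' : Rod53.Uni b e) (hx : x < y)
    (h1 : ∀ t < y, t ∈ Jv v a b x) (h2 : ∀ t, x < t → t ∈ Jv v b e y) (h3 : ∀ t, t ∈ Jv v' a e z)
    (h : L.C2 c a b e x y ma mb me) (h' : L.C1 c' a e ma me) :
    c.pull (xm_fn (T := T) (v' := v') (v := v)).ld (mapsTo_univ _ _) = c'.res (subset_univ _) := by
  obtain ⟨η₁, η₂, m, rfl, -, -, rfl, h, q, q'⟩ := h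
  obtain ⟨η, k1, k2, h'⟩ := h'
  refine h.map hv' h' xm_fn fun p hp o => ⟨η, ?_, rep_dot _ _⟩
  have g := mem_interior_iff_mem_nhds.1 (hp.resolve_left o)
  show Rep v m η (T.time v' p)
  generalize T.time v' p = t at g
  by_cases g1 : t < x
  · exact Rep.of_Jr (Jv.left (h1 t (g1.trans hx)) g1) (rep_of_eq isOpen_Iio q (g1.trans hx)) k1
  by_cases g2 : y < t
  · exact Rep.of_Jr (Jv.right (h2 t (hx.trans g2)) g2) (rep_of_eq isOpen_Ioi q' (hx.trans g2)) k2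
  obtain ⟨u, g3, g4⟩ := mem_closure_iff_nhds.1 ((closure_Ioo hx.ne).ge ⟨not_lt.1 g1, not_lt.1 g2⟩) _ g
  have g5 : PM (v' u) b := (show v' u = v u from g3) ▸ Jr.pm (Jv.right (h1 u g4.2) g4.1)
  rcases lt_trichotomy u z with g6 | rfl | g6
  · exact absurd ((Jr.pm (Jv.left (h3 u) g6)).symm.trans g5) hu.not_pm
  · rw [Jv.zero (h3 u)] at g5
    exact absurd rfl (g5.ne_zero hu')
  · exact absurd (g5.symm.trans (Jr.pm (Jv.right (h3 u) g6))) hu'.not_pm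

end Lb

end Crest.Agent.X212.Lab56
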