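import Crest.Agent.X212.Lab56.Exi

/-!
# X212 / Lab56, part Cw (helper56): the labels of the classes

* `XM` : maps of rod manifolds that respect the exterior chart;
* `Lb` : a labelling;  `Lb.CL` : the orders of a class;  `CL.eq`, `CL.amb`, `CL.map`, `CL.pull`, `CL.par`;
* the definitions `Lb.FL`, `Lb.ε` (fillings), `Lb.C1`, `Lb.C2` (one or two vertices).
-/

set_option autoImplicit false
set_option linter.unusedSectionVars false

open Set Filter Topology Function Matrix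
open scoped ContDiff Manifold
open Crest.Agent.X212.Pj41 Crest.Agent.X212.Met55 Crest.Agent.X212.Line51
open Crest.Agent.X212.Rod53 hiding Uni X cj
open Crest.Agent.X212.Cyl58 (Up)

noncomputable section

namespace Crest.Agent.X212.Lab56

variable {ι κ l : Type} [Fintype ι] [Fintype κ] [Fintype l] [DecidableEq ι] [DecidableEq κ] [DecidableEq l]
  {EN HN : Type} [NormedAddCommGroup EN] [NormedSpace ℝ EN] [FiniteDimensional ℝ EN]
  [TopologicalSpace HN] {IN : ModelWithCorners ℝ EN HN} [IN.Boundaryless]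
  {N : Type} [TopologicalSpace N] [ChartedSpace HN N] [IsManifold IN ∞ N] [T2Space N]
  {EY HY : Type} [NormedAddCommGroup EY] [NormedSpace ℝ EY] [FiniteDimensional ℝ EY]
  [TopologicalSpace HY] {IY : ModelWithCorners ℝ EY HY} [IY.Boundaryless]
  {Y : Type} [TopologicalSpace Y] [ChartedSpace HY Y] [IsManifold IY ∞ Y]
  {T : Tb IN N} {v v' : ℝ → Z2} {a b e a' b' η η' δ : Z2} {θ : N → Circle} {m m' : ℝ → ℤ} {J : Set ℝ}
  {t x y : ℝ} {j j' : ℤ} {f : Rod53.X T v' → Rod53.X T v} {φ : ℝ → ℝ} {W : Set (Rod53.X T v')}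
  {O : Set (Rod53.X T v)}

/-! ### orders along an interval -/

theorem Rep.of_Jr (ht : t ∈ Jr v a) (h : Rep v m η t) (e : dot η' a = dot η a) : Rep v m η' t := by
  filter_upwards [h, mem_Jr.1 ht] with s h1 h2
  rw [← h1, ← sub_eq_zero, ← dot_sub, dot_pm h2, dot_sub, e, sub_self]

theorem Rep.dot_eq (ht : t ∈ Jr v a) (h : Rep v m η t) (h' : Rep v m η' t) : dot η' a = dot η a := by
  rw [← sub_eq_zero, ← dot_sub, ← dot_pm (Jr.pm ht)]
  exact (h'.sub_zero h).self_of_nhds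

theorem rep_conn (hJ : IsPreconnected J) (h : J ⊆ Jr v a) (hm : ∀ t, ∃ η, Rep v m η t) (hx : x ∈ J)
    (k : Rep v m η x) (ht : t ∈ J) : Rep v m η t := by
  refine hJ.subset_of_closure_inter_subset (u := {t | Rep v m η t})
    (isOpen_iff_mem_nhds.2 fun _ h => Rep.ev h) ⟨x, hx, k⟩ (fun s hs => ?_) ht
  obtain ⟨η', k'⟩ := hm s
  obtain ⟨u, ⟨h1, h2⟩, h3⟩ := mem_closure_iff_nhds.1 hs.1 _
    (inter_mem k'.ev (isOpen_interior.mem_nhds (h hs.2)))
  exact Rep.of_Jr (h hs.2) k' (Rep.dot_eq h2 h1 h3)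

theorem rep_left (hm : ∀ t, ∃ η, Rep v m η t) (h : ∀ t < x, t ∈ Jr v a) (k : Rep v m η x) (ht : t < x) :
    Rep v m η t :=
  let ⟨_, h1, h2⟩ := ((show ∀ᶠ u in 𝓝[<] x, _ from nhdsWithin_le_nhds k.ev).and self_mem_nhdsWithin).exists
  rep_conn isPreconnected_Iio h hm h2 h1 ht

theorem rep_right (hm : ∀ t, ∃ η, Rep v m η t) (h : ∀ t, x < t → t ∈ Jr v a) (k : Rep v m η x) (ht : x < t) :
    Rep v m η t :=
  let ⟨_, h1, h2⟩ := ((show ∀ᶠ u in 𝓝[>] x, _ from nhdsWithin_le_nhds k.ev).and self_mem_nhdsWithin).exists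
  rep_conn isPreconnected_Ioi h hm h2 h1 ht

theorem rep_Ioo (hm : ∀ t, ∃ η, Rep v m η t) (h : ∀ t ∈ Ioo x y, t ∈ Jr v a) (k : Rep v m η x)
    (ht : t ∈ Ioo x y) : Rep v m η t :=
  let ⟨_, h1, h2⟩ := ((show ∀ᶠ u in 𝓝[>] x, _ from nhdsWithin_le_nhds k.ev).and
    (Ioo_mem_nhdsGT (ht.1.trans ht.2))).exists
  rep_conn isPreconnected_Ioo h hm h2 h1 ht

theorem rep_Ioo' (hm : ∀ t, ∃ η, Rep v m η t) (h : ∀ t ∈ Ioo x y, t ∈ Jr v a) (k : Rep v m η y)
    (ht : t ∈ Ioo x y) : Rep v m η t :=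
  let ⟨_, h1, h2⟩ := ((show ∀ᶠ u in 𝓝[<] y, _ from nhdsWithin_le_nhds k.ev).and
    (Ioo_mem_nhdsLT (ht.1.trans ht.2))).exists
  rep_conn isPreconnected_Ioo h hm h2 h1 ht

theorem rep_of_eq (hJ : IsOpen J) (h : ∀ t ∈ J, m t = dot η (v t)) (ht : t ∈ J) : Rep v m η t :=
  eventually_of_mem (hJ.mem_nhds ht) fun s hs => (h s hs).symm

theorem loc_V1 (hu : Rod53.Uni a b) (h : ∀ t, t ∈ Jv v a b x) : Loc v := fun t => ⟨a, b, x, hu, h t⟩

theorem loc_V2 (hu : Rod53.Uni a b) (hu' : Rod53.Uni b e) (hx : x < y) (h : ∀ t < y, t ∈ Jv v a b x)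
    (h' : ∀ t, x < t → t ∈ Jv v b e y) : Loc v := fun t =>
  (lt_or_ge t y).elim (fun k => ⟨a, b, x, hu, h t k⟩) fun k => ⟨b, e, y, hu', h' t (hx.trans_le k)⟩

theorem eq_of_dot (hu : Rod53.Uni a b) (h : dot η a = dot η' a) (h' : dot η b = dot η' b) : η = η' :=
  sub_eq_zero.1 (eq_zero_of_dot hu (by rw [dot_sub, h, sub_self]) (by rw [dot_sub, h', sub_self]))

theorem dot_smul (k : ℤ) (η a : Z2) : dot (k • η) a = k * dot η a := by simp [dot]; ring

theorem dot_Jv (h : t ∈ Jv v a b x) (e : dot η a = dot η' a) (e' : x < t → dot η b = dot η' b) :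
    dot η (v t) = dot η' (v t) := by
  rw [← sub_eq_zero, ← dot_sub]
  rcases lt_trichotomy t x with k | rfl | k
  · rw [dot_pm (Jr.pm (Jv.left h k)), dot_sub, e, sub_self]
  · rw [Jv.zero h, dot_zero]
  · rw [dot_pm (Jr.pm (Jv.right h k)), dot_sub, e' k, sub_self]

section dif

variable {E : Type} [NormedAddCommGroup E] [NormedSpace ℝ E] [FiniteDimensional ℝ E]
  {H : Type} [TopologicalSpace H] {I : ModelWithCorners ℝ E H}
  {M : Type} [TopologicalSpace M] [ChartedSpace H M] [IsManifold I ∞ M]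
  {E' : Type} [NormedAddCommGroup E'] [NormedSpace ℝ E'] [FiniteDimensional ℝ E']
  {H' : Type} [TopologicalSpace H'] {I' : ModelWithCorners ℝ E' H'}
  {M' : Type} [TopologicalSpace M'] [ChartedSpace H' M'] [IsManifold I' ∞ M']

/-- pull-back along a diffeomorphism -/
abbrev Cls.dif (c : Cls I (univ : Set M)) (ψ : M' ≃ₘ^∞⟮I', I⟯ M) : Cls I' (univ : Set M') :=
  c.pull (fun z _ => ψ.isLocalDiffeomorph z) (mapsTo_univ _ _)

theorem Cls.res_self {O : Set M} (c : Cls I O) (h : O ⊆ O) : c.res h = c := by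
  obtain ⟨a⟩ := c
  rfl

theorem Cls.dif_symm (c : Cls I (univ : Set M)) (ψ : M' ≃ₘ^∞⟮I', I⟯ M) : (c.dif ψ).dif ψ.symm = c :=
  (c.pull_pull _ _ _ _).trans ((c.pull_congr _ _ (fun x _ => Cyl58.ld_id x) (mapsTo_univ _ _) fun _ _ =>
    .of_forall fun x => (ψ.apply_symm_apply x).symm).trans ((c.res_eq_pull subset_rfl).symm.trans (c.res_self _)))

theorem Cls.dif_bijective (ψ : M' ≃ₘ^∞⟮I', I⟯ M) : Bijective fun c : Cls I (univ : Set M) => c.dif ψ :=
  ⟨LeftInverse.injective (g := fun c => c.dif ψ.symm) fun c => c.dif_symm ψ, fun c => ⟨_, c.dif_symm ψ.symm⟩⟩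

theorem Cls.pull_res {O O' : Set M} {W : Set M'} {g : M' → M} (c : Cls I O) (h : O' ⊆ O)
    (hg : ∀ y ∈ W, IsLocalDiffeomorphAt I' I ∞ g y) (hm : MapsTo g W O') :
    (c.res h).pull hg hm = c.pull hg (hm.mono_right h) := by
  obtain ⟨a⟩ := c
  rfl

theorem Cls.res_pull {O : Set M} {W W' : Set M'} {g : M' → M} (c : Cls I O) (h : W' ⊆ W)
    (hg : ∀ y ∈ W, IsLocalDiffeomorphAt I' I ∞ g y) (hm : MapsTo g W O) :
    (c.pull hg hm).res h = c.pull (fun y hy => hg y (h hy)) (hm.mono_left h) := by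
  obtain ⟨a⟩ := c
  rfl

end dif

/-! ### maps that respect the exterior chart -/

/-- a local diffeomorphism that is `(q, t) ↦ (q, φ t)` in the exterior charts -/
structure XM (T : Tb IN N) (v' v : ℝ → Z2) (f : Rod53.X T v' → Rod53.X T v) (φ : ℝ → ℝ)
    (W : Set (Rod53.X T v')) : Prop where
  op : IsOpen W
  up : Up φ univ
  ld : ∀ y ∈ W, IsLocalDiffeomorphAt (𝓡 4) (𝓡 4) ∞ f y
  eq : ∀ q : N × ℝ, q.1 ∈ T.Ex → T.ext v' q ∈ W → f (T.ext v' q) = T.ext v (q.1, φ q.2)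

namespace XM

variable (k : XM T v' v f φ W) {y : Rod53.X T v'}
include k

theorem mono {W' : Set (Rod53.X T v')} (hW : IsOpen W') (h : W' ⊆ W) : XM T v' v f φ W' :=
  ⟨hW, k.up, fun y hy => k.ld y (h hy), fun q a b => k.eq q a (h b)⟩

theorem ext {Z : Type} [TopologicalSpace Z] [T2Space Z] {g : Rod53.X T v → Z} {g' : Rod53.X T v' → Z}
    (hg : Continuous g) (hg' : Continuous g')
    (e : ∀ q : N × ℝ, q.1 ∈ T.Ex → g (T.ext v (q.1, φ q.2)) = g' (T.ext v' q)) (hy : y ∈ W) : g (f y) = g' y :=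
  eq_of_dense dense_off (f := fun y => g (f y)) (hg.continuousAt.comp (k.ld y hy).contMDiffAt.continuousAt)
    hg'.continuousAt (eventually_of_mem (k.op.mem_nhds hy) fun z hz o => by
      obtain ⟨q, a, rfl⟩ := exists_ext_of_off o
      rw [k.eq q a hz, e q a])

theorem off (hy : y ∈ W) : f y ∈ off T v ↔ y ∈ off T v' :=
  iff_of_eq (congrArg (· < 1) (k.ext T.continuous_eta T.continuous_eta
    (fun q a => (T.hf_ext _ _ (p := (q.1, φ q.2)) a).trans (T.hf_ext _ _ a).symm) hy))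

theorem time (hy : y ∈ W) : T.time v (f y) = φ (T.time v' y) :=
  k.ext (g' := fun y => φ (T.time v' y)) T.continuous_time
    ((continuous_iff_continuousAt.2 fun t => (k.up t trivial).1.continuousAt).comp T.continuous_time)
    (fun q a => by rw [T.time_ext (p := (q.1, φ q.2)) a, T.time_ext a]) hy

theorem tl {p : Rod53.X T v → Matrix l l ℂ} {s : Rod53.X T v → Matrix l Unit ℂ} (hO : IsOpen O)
    (h : TL T v m p s O) (hm : MapsTo f W O)
    (e : ∀ y ∈ W, y ∉ Line51.off T v' → ∃ η, Rep v m η (φ (T.time v' y)) ∧ Rep v' m' η (T.time v' y)) :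
    TL T v' m' (fun y => p (f y)) (fun y => s (f y)) W := by
  refine ⟨h.fr.comp ⟨fun y hy => (k.ld y hy.1).contMDiffAt, fun y hy => ⟨hm hy.1, (k.off hy.1).2 hy.2⟩⟩,
    fun y hy o => ?_⟩
  obtain ⟨η, a, b⟩ := e y hy o
  obtain ⟨S, c⟩ := h.ord hO (hm hy) (Or.inl (tor_of_not_off (mt (k.off hy).1 o))) fun _ => k.time hy ▸ a
  refine ⟨η, b, fun z => S (f z), ?_⟩
  filter_upwards [(k.ld y hy).contMDiffAt.continuousAt.eventually c, k.op.mem_nhds hy] with z c g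
  refine ⟨c.1.comp (k.ld z g).contMDiffAt, c.2.1, fun o => (c.2.2 ((k.off g).2 o)).trans ?_⟩
  obtain ⟨q, a, rfl⟩ := exists_ext_of_off o
  rw [mul_sc, mul_sc, k.eq q a g, chi_ext' (q := (q.1, φ q.2)) a, chi_ext' a]

theorem lab [SigmaCompactSpace N] [SigmaCompactSpace (Rod53.X T v')] {ι₀ κ₀ : Type} [Fintype ι₀] [Fintype κ₀]
    [DecidableEq ι₀] [DecidableEq κ₀] {R : Ref T ι₀ κ₀} {d : Sc (𝓡 4) (Rod53.X T v) ι κ} (hO : IsOpen O)
    (hd : d.On O) (h : R.Lab d m O) (hm : MapsTo f W O)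
    (e : ∀ y ∈ W, y ∉ Line51.off T v' → ∃ η, Rep v m η (φ (T.time v' y)) ∧ Rep v' m' η (T.time v' y)) :
    R.Lab (d.pull (𝓡 4) f) m' W :=
  h.time k.up k.op hd k.ld hm k.eq fun _ b => k.tl hO b hm e

end XM

theorem up_id : Up id univ := fun _ _ => ⟨contDiffAt_id, by simp⟩

theorem xm_fn : XM T v' v (fn T T id v' v) id (T.ag v' v) :=
  ⟨T.isOpen_ag, up_id, fun _ => (TE.refl T).ld_fn, fun _ a _ => (TE.refl T).fn_ext a⟩

/-- the rod manifold of a constant slope is the cylinder on the filling -/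
def cyD (F : Fl T a b IY Y) (hu : Rod53.Uni a b) :
    (Y × ℝ) ≃ₘ^∞⟮IY.prod 𝓘(ℝ, ℝ), 𝓡 4⟯ Rod53.X T fun _ => a :=
  (F.oe_cyf hu).diffeo fun p => let ⟨y, e⟩ := F.exists_cyf hu (Fl.Jr_const a _); ⟨(y, T.time _ p), e⟩

theorem cyD_symm (F : Fl T a b IY Y) (hu : Rod53.Uni a b) {q : N × ℝ} (h : q.1 ∈ T.Ex) :
    (cyD F hu).symm (T.ext _ q) = (F.e q.1, q.2) :=
  (cyD F hu).toEquiv.symm_apply_eq.2 (F.cyf_e _ hu h q.2).symm

theorem cyD_time (F : Fl T a b IY Y) (hu : Rod53.Uni a b) (p : Rod53.X T fun _ => a) :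
    ((cyD F hu).symm p).2 = T.time _ p :=
  (F.time_cyf hu _ (Fl.Jr_const a _)).symm.trans (congrArg _ ((cyD F hu).apply_symm_apply p))

theorem xm_cy (F : Fl T a b IY Y) (hu : Rod53.Uni a b) (hJ : IsOpen J) (h : J ⊆ Jr v a) :
    XM T (fun _ => a) v (F.cyf v hu ∘ (cyD F hu).symm) id (T.time _ ⁻¹' J) :=
  ⟨isOpen_time hJ, up_id, fun y hy => ((cyD F hu).symm.isLocalDiffeomorph y).comp _ _
    (F.ld_cyf hu _ (h ((cyD_time F hu y).symm ▸ hy))), fun q a _ => by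
      rw [Function.comp_apply, cyD_symm F hu a, F.cyf_e _ _ a]; rfl⟩

/-! ### labellings -/

/-- a labelling of the classes of the rod manifolds of `T` -/
structure Lb (T : Tb IN N) (θ : N → Circle) (δ : Z2) where
  n : ℕ
  k : ℕ
  R : Ref T (Fin n) (Fin k)
  ok : R.d.On univ
  ang : Ang T θ δ
  h1 : H1 θ T.Ex
  pic : ∀ v, Loc v → Pic0 (𝓡 4) univ (off T v)

namespace Lb

variable (L : Lb T θ δ)

/-- the class `c` has orders `m` -/
def CL (c : Cls (𝓡 4) (univ : Set (Rod53.X T v))) (m : ℝ → ℤ) : Prop :=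
  ∃ D : Dat (𝓡 4) (univ : Set (Rod53.X T v)), Quot.mk _ D = c ∧ L.R.Lab D.d m univ

/-- orders `ma`, `mb` on a word with one vertex -/
def C1 (c : Cls (𝓡 4) (univ : Set (Rod53.X T v))) (a b : Z2) (ma mb : ℤ) : Prop :=
  ∃ η, dot η a = ma ∧ dot η b = mb ∧ L.CL c fun t => dot η (v t)

/-- orders `ma`, `mb`, `me` on a word with two vertices -/
def C2 (c : Cls (𝓡 4) (univ : Set (Rod53.X T v))) (a b e : Z2) (x y : ℝ) (ma mb me : ℤ) : Prop :=
  ∃ η η' m, dot η a = ma ∧ dot η b = mb ∧ dot η' b = mb ∧ dot η' e = me ∧ L.CL c m ∧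
    (∀ t < y, m t = dot η (v t)) ∧ ∀ t, x < t → m t = dot η' (v t)

/-- the class `s` of the filling has order `k` -/
def FL (F : Fl T a b IY Y) (hu : Rod53.Uni a b) (s : Cls (IY.prod 𝓘(ℝ, ℝ)) (univ : Set (Y × ℝ))) (k : ℤ) :
    Prop :=
  ∃ c : Cls (𝓡 4) (univ : Set (Rod53.X T fun _ => a)), (L.CL c fun _ => k) ∧ c.dif (cyD F hu) = s

/-- the parity of the orders -/
def ε (a : Z2) : ℤ :=
  Classical.epsilon fun k => ∃ c : Cls (𝓡 4) (univ : Set (Rod53.X T fun _ => a)), L.CL c fun _ => k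

variable [CompactSpace N] [SecondCountableTopology N] {L} {c c₁ : Cls (𝓡 4) (univ : Set (Rod53.X T v))}
  {c' : Cls (𝓡 4) (univ : Set (Rod53.X T v'))} {ma mb me na nb : ℤ}

theorem cl_cls (hv : Loc v) {d : Sc (𝓡 4) (Rod53.X T v) ι κ} (hd : d.On univ) :
    L.CL hd.cls m ↔ L.R.Lab d m univ :=
  have := sigX (T := T) hv
  ⟨fun ⟨D, e, h⟩ => h.of_eqv isOpen_univ (L.R.rfx _) D.ok hd
    (((cls_eq_mk isOpen_univ hd).1 e.symm).symm hd D.ok), fun h => by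
      obtain ⟨⟨D⟩, e⟩ : ∃ c, hd.cls = c := ⟨_, rfl⟩
      exact ⟨D, e.symm, h.of_eqv isOpen_univ (L.R.rfx _) hd D.ok ((cls_eq_mk isOpen_univ hd).1 e)⟩⟩

theorem CL.lab (hv : Loc v) {D : Dat (𝓡 4) (univ : Set (Rod53.X T v))} (h : L.CL (Quot.mk _ D) m) :
    L.R.Lab D.d m univ :=
  have := sigX (T := T) hv
  let ⟨D', e, k⟩ := h
  k.of_eqv isOpen_univ (L.R.rfx _) D'.ok D.ok ((mk_eq_iff isOpen_univ).1 e)

variable (L) in
theorem exists_cl (hv : Loc v) (c : Cls (𝓡 4) (univ : Set (Rod53.X T v))) : ∃ m, L.CL c m := by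
  have := sigX (T := T) hv
  obtain ⟨D⟩ := c
  obtain ⟨m, h⟩ := exists_lab isOpen_univ Cls19.sat_univ (L.R.rfx _) D.ok
    ((eqv_off L.ok hv (L.pic v hv) D.ok).mono inter_subset_right)
  exact ⟨m, D, rfl, h⟩

theorem nonempty (L : Lb T θ δ) (hv : Loc v) (h : Nonempty (Cls (𝓡 4) (T.tor v))) :
    Nonempty (Cls (𝓡 4) (univ : Set (Rod53.X T v))) :=
  let ⟨D, _⟩ := exists_dat L.ok hv h; ⟨Quot.mk _ D⟩

theorem CL.rep (hv : Loc v) (h : L.CL c m) (t : ℝ) : ∃ η, Rep v m η t := by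
  obtain ⟨_, -, _, -, k⟩ := h
  obtain ⟨x, o, rfl⟩ := Cls19.exists_axis (T := T) hv t
  exact (k.ax x trivial o).imp fun _ => And.left

/-- **the orders determine the class** -/
theorem CL.eq (hv : Loc v) (h : L.CL c m) (h' : L.CL c₁ m) : c = c₁ := by
  have := sigX (T := T) hv
  obtain ⟨D, rfl, h⟩ := h
  obtain ⟨D', rfl, h'⟩ := h'
  exact Quot.sound (h.eqv isOpen_univ (L.R.rfx _) D.ok D'.ok h')

/-- **the ambiguity of the orders** -/
theorem CL.amb (hv : Loc v) (h : L.CL c m) (h' : L.CL c m') :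
    ∃ k : ℤ, ∀ t, m' t = m t + 2 * k * dot δ (v t) := by
  obtain ⟨D, rfl, h⟩ := h
  obtain ⟨k, e⟩ := h.amb isOpen_univ (L.R.rfx _).ok D.ok (h'.lab hv) L.ang
    (H1.time L.ang L.h1 ordConnected_univ)
  refine ⟨k, fun t => ?_⟩
  obtain ⟨x, o, rfl⟩ := Cls19.exists_axis (T := T) hv t
  exact (e x trivial o).self_of_nhds

theorem CL.ang (h : L.CL c m) (k : ℤ) : L.CL c fun t => m t + 2 * k * dot δ (v t) :=
  let ⟨D, e, h⟩ := h; ⟨D, e, h.ang L.ang k⟩

theorem CL.eq_iff (hv : Loc v) (h : L.CL c m) (h' : L.CL c₁ m') :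
    c = c₁ ↔ ∃ k : ℤ, ∀ t, m' t = m t + 2 * k * dot δ (v t) :=
  ⟨fun e => h.amb hv (e ▸ h'), fun ⟨k, e⟩ => (h.ang k).eq hv (funext e ▸ h')⟩

theorem CL.tw (hv : Loc v) (h : L.CL c m) {q : Rod53.X T v → Matrix l l ℂ} {s : Rod53.X T v → Matrix l Unit ℂ}
    (hq : TL T v m' q s univ) : ∃ c₁ : Cls (𝓡 4) (univ : Set (Rod53.X T v)), L.CL c₁ (m + (m' + m')) :=
  let ⟨D, _, h⟩ := h
  have k := hq.on isOpen_univ
  ⟨_, (cl_cls hv (D.ok.tw ⟨k.sm, k.prj, k.tr⟩)).2 (h.tw isOpen_univ D.ok hq)⟩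

/-- **transport of the orders** -/
theorem CL.pull (hv' : Loc v') (h : L.CL c m) (k : XM T v' v f φ univ)
    (e : ∀ t, ∃ η, Rep v m η (φ t) ∧ Rep v' m' η t) : L.CL (c.pull k.ld (mapsTo_univ _ _)) m' :=
  have := sigX (T := T) hv'
  let ⟨D, e', h⟩ := h
  ⟨⟨_, _, _, D.ok.pull k.ld (mapsTo_univ _ _)⟩, congrArg (Cls.pull k.ld (mapsTo_univ _ _)) e',
    k.lab isOpen_univ D.ok h (mapsTo_univ _ _) fun _ _ _ => e _⟩

/-- **classes with the same orders correspond** -/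
theorem CL.map (hv' : Loc v') (h : L.CL c m) (h' : L.CL c' m') (k : XM T v' v f φ W)
    (e : ∀ y ∈ W, y ∉ off T v' → ∃ η, Rep v m η (φ (T.time v' y)) ∧ Rep v' m' η (T.time v' y)) :
    c.pull k.ld (mapsTo_univ _ _) = c'.res (subset_univ W) := by
  have := sigX (T := T) hv'
  obtain ⟨D, rfl, h⟩ := h
  obtain ⟨D', rfl, h'⟩ := h'
  exact Quot.sound ((k.lab isOpen_univ D.ok h (mapsTo_univ _ _) e).eqv k.op (L.R.rfx _)
    (D.ok.pull k.ld (mapsTo_univ _ _)) (D'.ok.mono (subset_univ _)) (h'.mono (subset_univ _)))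

theorem CL.const {c : Cls (𝓡 4) (univ : Set (Rod53.X T fun _ => a))} (hu : Rod53.Uni a b) (h : L.CL c m) :
    L.CL c fun _ => m 0 := by
  obtain ⟨η, k⟩ := h.rep (Fl.loc_const hu) 0
  have e := fun t => (rep_conn isPreconnected_univ (fun t _ => Fl.Jr_const a t) (h.rep (Fl.loc_const hu))
    trivial k (mem_univ t)).self_of_nhds
  rwa [show (fun _ => m 0) = m from funext fun t => (e 0).symm.trans (e t)]

variable (L) in
theorem ε_spec (hu : Rod53.Uni a b) :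
    ∃ c : Cls (𝓡 4) (univ : Set (Rod53.X T fun _ => a)), L.CL c fun _ => L.ε a :=
  let ⟨c⟩ := L.nonempty (Fl.loc_const hu) (tor_const hu)
  let ⟨_, h⟩ := L.exists_cl (Fl.loc_const hu) c
  Classical.epsilon_spec (p := fun k => ∃ c : Cls (𝓡 4) (univ : Set (Rod53.X T fun _ => a)), L.CL c fun _ => k)
    ⟨_, c, h.const hu⟩

/-- **the parity of the orders** -/
theorem CL.par (h : L.CL c m) (hu : Rod53.Uni a b) (ht : t ∈ Jr v a) (hη : Rep v m η t) :
    Even (dot η a + L.ε a) := by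
  have := sigX (T := T) (Fl.loc_const hu)
  obtain ⟨D, -, h⟩ := h
  obtain ⟨_, D', -, h'⟩ := L.ε_spec hu
  have o : IsOpen (Jr v a ∩ {t | Rep v m η t}) :=
    isOpen_interior.inter (isOpen_iff_mem_nhds.2 fun _ h => Rep.ev h)
  have k := xm_cy (T.fl hu) hu o inter_subset_left
  obtain ⟨x, o', rfl⟩ := Cls19.exists_axis (T := T) (Fl.loc_const hu) t
  obtain ⟨η', e⟩ := (k.lab (m' := fun _ => dot η a) isOpen_univ D.ok h (mapsTo_univ _ _) fun y hy _ =>
    ⟨η, hy.2, rep_dot η _⟩).par k.op (L.R.rfx _) (D.ok.pull k.ld (mapsTo_univ _ _))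
    (D'.ok.mono (subset_univ _)) (h'.mono (subset_univ _)) ⟨ht, hη⟩ o'
  exact ⟨dot η a + dot η' a, by have := e.self_of_nhds; simp only at this; omega⟩

/-- existence of classes with given orders, for a finite cover of the axis -/
theorem exists_cl_of (hv : Loc v) (h : L.CL c m) {C : Type} [Fintype C] {A : C → Set ℝ}
    (hA : ∀ i, IsOpen (A i)) (hc : ∀ t, ∃ i, t ∈ A i) {e : C → Z2}
    (he : ∀ i, ∀ t ∈ A i, m' t = m t + 2 * dot (e i) (v t)) :
    ∃ c₁ : Cls (𝓡 4) (univ : Set (Rod53.X T v)), L.CL c₁ m' := by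
  classical
  have := sigX (T := T) hv
  obtain ⟨q, s, hq⟩ := exists_TL (T := T) (v := v) (m := fun t => (m' t - m t) / 2) (e := e) id hA hc
    (fun _ _ _ e _ _ => e) fun i t ht => by rw [he i t ht]; omega
  obtain ⟨c₁, k⟩ := h.tw hv hq
  refine ⟨c₁, (funext fun t => ?_ : m + _ = m') ▸ k⟩
  obtain ⟨i, hi⟩ := hc t
  simp only [Pi.add_apply, he i t hi]
  omega

end Lb

end Crest.Agent.X212.Lab56
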