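import Crest.Agent.X212.Lab56.Defs
import Crest.Agent.X212.Line51.Lit
import Crest.Agent.X212.Glue52.More

/-!
# X212 / Lab56, part Hom (helper56): lines on cylinders over arbitrary open sets

* `frame_htpy`, `frame_cyl` : frames along a homotopy over a metrizable space;
* `exists_fr_of_frame` : smoothing on an open set; `exists_arg` : smooth arguments;
* `exists_fr_cyl`, `exists_uni_cyl`, `exists_arg_cyl` : extension from `{0} × O` to `ℝ × O`.
-/

set_option autoImplicit false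
set_option linter.unusedSectionVars false

open Set Filter Topology Function Matrix Module TopologicalSpace
open scoped ContDiff Manifold Kronecker ComplexOrder
open Crest.Agent.X212.Pj41
open Crest.Agent.X212.Pic56 (IsLine IsFrame HasLog clm Rk1)
open Crest.Agent.X212.Line51 (Uni)

noncomputable section

namespace Crest.Agent.X212.Lab56

section top

variable {V : Type*} [NormedAddCommGroup V] [NormedSpace ℂ V] {X : Type*} [TopologicalSpace X]

theorem exists_step {W : Type*} [NormedAddCommGroup W] {Q : ℝ × X → W} (cQ : Continuous Q) (x : X) :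
    ∃ d, ∀ᶠ y in 𝓝 x, 0 < d ∧ ∀ t ∈ Icc (0 : ℝ) 1, ∀ t' ∈ Icc (0 : ℝ) 1, |t' - t| ≤ d →
      ‖Q (t', y) - Q (t, y)‖ < 1 := by
  have hK : IsCompact ((Icc (0 : ℝ) 1 ×ˢ Icc (0 : ℝ) 1) ∩ {z : ℝ × ℝ | z.1 = z.2}) :=
    (isCompact_Icc.prod isCompact_Icc).inter_right (isClosed_eq continuous_fst continuous_snd)
  have hn : IsOpen {z : (ℝ × ℝ) × X | ‖Q (z.1.2, z.2) - Q (z.1.1, z.2)‖ < 1} :=
    isOpen_lt (by fun_prop) continuous_const
  obtain ⟨u, v, u1, v1, u2, v2, k⟩ := generalized_tube_lemma hK (isCompact_singleton (x := x)) hn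
    fun z hz => by
      have e : z.1.1 = z.1.2 := hz.1.2
      simp only [mem_ofPred_eq, e, sub_self, norm_zero, one_pos]
  obtain ⟨d, d1, d2⟩ := hK.exists_cthickening_subset_open u1 u2
  refine ⟨d, eventually_of_mem (v1.mem_nhds (v2 rfl)) fun y hy => ⟨d1, fun t ht t' ht' e => ?_⟩⟩
  have : (t, t') ∈ u := d2 (Metric.mem_cthickening_of_dist_le _ (t, t) _ _ ⟨⟨ht, ht⟩, rfl⟩ (by
    rw [Prod.dist_eq, dist_self, Real.dist_eq]
    exact max_le d1.le e))
  exact k (mk_mem_prod this hy)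

/-- frames along a homotopy -/
theorem frame_htpy [NormalSpace X] [ParacompactSpace X] {Q : ℝ × X → V →L[ℂ] V} (hQ : IsLine Q univ)
    {s : X → V} (hs : IsFrame (fun x => Q (0, x)) s univ) :
    ∃ a, IsFrame (fun x => Q (1, x)) a univ ∧ ∀ x, (∀ t, Q (t, x) = Q (0, x)) → a x = s x := by
  have cQ : Continuous Q := continuousOn_univ.1 hQ.cont
  obtain ⟨δ, hδ⟩ := exists_continuous_forall_mem_convex_of_local_const (E := ℝ)
    (t := fun x => {d | 0 < d ∧ ∀ t ∈ Icc (0 : ℝ) 1, ∀ t' ∈ Icc (0 : ℝ) 1, |t' - t| ≤ d →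
      ‖Q (t', x) - Q (t, x)‖ < 1})
    (fun x => OrdConnected.convex ⟨fun a ha b hb c hc =>
      ⟨ha.1.trans_le hc.1, fun t ht t' ht' k => hb.2 t ht t' ht' (k.trans hc.2)⟩⟩) (exists_step cQ)
  let τ : ℕ → X → ℝ := fun k x => min 1 (k * δ x)
  have hτ : ∀ k x, τ k x ∈ Icc (0 : ℝ) 1 := fun k x =>
    ⟨le_min zero_le_one (mul_nonneg k.cast_nonneg (hδ x).1.le), min_le_left _ _⟩
  let a : ℕ → X → V := fun k => k.rec s fun k b x => Q (τ (k + 1) x, x) (b x)
  have ha : ∀ k, IsFrame (fun x => Q (τ k x, x)) (a k) univ := fun k => by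
    induction k with
    | zero => exact hs.congr (fun x _ => by simp [τ]) fun _ _ => rfl
    | succ k ih =>
      refine ⟨((cQ.comp (by fun_prop)).clm_apply (continuousOn_univ.1 ih.cont)).continuousOn,
        fun x _ => hQ.idem _ trivial _, fun x _ => Pic56.apply_ne_zero_of_close
          ((hδ x).2 _ (hτ k x) _ (hτ (k + 1) x) ?_) (ih.sec x trivial) (ih.ne x trivial)⟩
      refine (abs_min_sub_min_le_max _ _ _ _).trans (max_le (by simpa using (hδ x).1.le) ?_)
      push_cast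
      rw [add_mul, one_mul, add_sub_cancel_left, abs_of_pos (hδ x).1]
  have h1 : ∀ (k : ℕ) x, (δ x)⁻¹ ≤ k → τ k x = 1 := fun k x h =>
    min_eq_left ((inv_le_iff_one_le_mul₀ (hδ x).1).1 h)
  have st : ∀ x (k : ℕ), ⌈(δ x)⁻¹⌉₊ ≤ k → a k x = a ⌈(δ x)⁻¹⌉₊ x := fun x k h => by
    induction k, h using Nat.le_induction with
    | base => rfl
    | succ k h ih =>
      have e := (ha k).sec x trivial
      rw [h1 k x (Nat.ceil_le.1 h)] at e
      show Q (τ (k + 1) x, x) (a k x) = _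
      rw [h1 _ x (Nat.ceil_le.1 (h.trans k.le_succ)), e, ih]
  refine ⟨fun x => a ⌈(δ x)⁻¹⌉₊ x, ⟨fun x _ => ContinuousAt.continuousWithinAt ?_, fun x _ => ?_,
    fun x _ => (ha _).ne x trivial⟩, fun x h => ?_⟩
  · obtain ⟨k, hk⟩ := exists_nat_gt (δ x)⁻¹
    refine (continuousOn_univ.1 (ha k).cont).continuousAt.congr ?_
    filter_upwards [(δ.continuous.continuousAt.inv₀ (hδ x).1.ne').eventually_lt continuousAt_const hk]
      with y hy using st y k (Nat.ceil_le.2 hy.le)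
  · have e := (ha ⌈(δ x)⁻¹⌉₊).sec x trivial
    rwa [h1 _ x (Nat.le_ceil _)] at e
  · suffices ∀ k, a k x = s x from this _
    intro k
    induction k with
    | zero => rfl
    | succ k ih =>
      show Q (τ (k + 1) x, x) (a k x) = _
      rw [ih, h, hs.sec x trivial]

/-- a frame on the cross-section extends to the cylinder -/
theorem frame_cyl [MetrizableSpace X] {Q : ℝ × X → V →L[ℂ] V} (hQ : IsLine Q univ)
    {s : X → V} (hs : IsFrame (fun x => Q (0, x)) s univ) :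
    ∃ a, IsFrame Q a univ ∧ ∀ x, a (0, x) = s x := by
  let _ := metrizableSpaceMetric X
  obtain ⟨a, h1, h2⟩ := frame_htpy (X := ℝ × X) (Q := fun z => Q (z.1 * z.2.1, z.2.2))
    (hQ.comp (by fun_prop) (mapsTo_univ _ _)) (s := fun z => s z.2)
    ((hs.comp (g := Prod.snd) (by fun_prop) (mapsTo_univ _ _)).congr (fun z _ => by simp) fun _ _ => rfl)
  exact ⟨a, h1.congr (fun z _ => by simp) fun _ _ => rfl, fun x => h2 (0, x) fun t => by simp⟩

theorem hasLog_cyl {O : Set X} {φ : ℝ × X → ℂ} (hc : ContinuousOn φ (univ ×ˢ O))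
    (h0 : ∀ z ∈ univ ×ˢ O, φ z ≠ 0) (hl : HasLog (fun x => φ (0, x)) O) : HasLog φ (univ ×ˢ O) :=
  HasLog.of_deform hc h0 (S₀ := {0} ×ˢ O) (h := fun z => (z.1 * z.2.1, z.2.2)) (by fun_prop)
    (fun _ _ _ hx => ⟨trivial, hx.2⟩) (fun _ hx => ⟨zero_mul _, hx.2⟩) (fun _ _ => by simp)
    ((hl.comp (g := Prod.snd) (T := {0} ×ˢ O) (by fun_prop) fun _ hx => hx.2).congr fun z hz => by
      rw [← show z.1 = 0 from hz.1])

end top

/-! ### lines at a point -/

section pt

variable {κ l : Type*} [Fintype κ] [Fintype l] [DecidableEq κ] [DecidableEq l] {p : Matrix κ κ ℂ} 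
  {q : Matrix l l ℂ} {u w : Matrix l κ ℂ}

theorem unit_eq (c : Matrix Unit Unit ℂ) : c = c () () • (1 : Matrix Unit Unit ℂ) := by
  ext; simp

/-- two isometries of lines differ by a unit scalar -/
theorem piso_ratio (ht : p.trace = 1) (h : PIso u p q) (h' : PIso w p q) :
    w = (uᴴ * w).trace • u ∧ ‖(uᴴ * w).trace‖ = 1 := by
  obtain ⟨a, ha⟩ := Line51.exists_unit h.prj_src ht
  have k := h'.trans h.symm
  have e : uᴴ * w = (uᴴ * w).trace • p := by
    have e1 : uᴴ * w = a * (aᴴ * (uᴴ * w) * a) * aᴴ := by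
      rw [← Matrix.mul_assoc a, ← Matrix.mul_assoc a, ha.tgt, k.left, Matrix.mul_assoc _ a, ha.tgt, k.idem]
    rw [e1, unit_eq (aᴴ * (uᴴ * w) * a), Matrix.mul_smul, Matrix.smul_mul, Matrix.mul_one, ha.tgt,
      trace_smul, ht, smul_eq_mul, mul_one]
  refine ⟨?_, ?_⟩
  · conv_lhs => rw [← h'.left, ← h.tgt, Matrix.mul_assoc, e, Matrix.mul_smul, h.idem]
  · have e2 := congrArg trace k.src
    generalize (uᴴ * w).trace = c at e
    rw [e, conjTranspose_smul, Matrix.smul_mul, Matrix.mul_smul, h.prj_src.herm, h.prj_src.idem,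
      trace_smul, trace_smul, ht, smul_eq_mul, smul_eq_mul, mul_one, Complex.star_def,
      Complex.conj_mul'] at e2
    have : ‖c‖ ^ 2 = 1 := by exact_mod_cast e2
    exact (pow_eq_one_iff_of_nonneg (norm_nonneg _) two_ne_zero).1 this

theorem piso_smul (h : PIso u p q) {c : ℂ} (hc : ‖c‖ = 1) : PIso (c • u) p q := by
  have e : star c * c = 1 := by rw [Complex.star_def, Complex.conj_mul', hc]; simp
  refine ⟨?_, ?_, by rw [Matrix.smul_mul, h.idem]⟩
  · rw [conjTranspose_smul, Matrix.smul_mul, Matrix.mul_smul, h.src, smul_smul, e, one_smul]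
  · rw [conjTranspose_smul, Matrix.smul_mul, Matrix.mul_smul, h.tgt, smul_smul, mul_comm, e, one_smul]

theorem smul_cancel (ht : p.trace = 1) (h : PIso u p q) {c c' : ℂ} (e : c • u = c' • u) : c = c' := by
  have := congrArg (fun w => (uᴴ * w).trace) e
  simpa only [Matrix.mul_smul, trace_smul, h.src, ht, smul_eq_mul, mul_one] using this

theorem kron_vec' (X : Matrix l l ℂ) (Y : Matrix κ κ ℂ) (A : Matrix l κ ℂ) :
    (X ⊗ₖ Yᵀ) * vec A = vec (X * A * Y) := kron_vec X Y A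

theorem piso_of_unit {s : Matrix κ Unit ℂ} (hp : Prj p) (ht : p.trace = 1) (h : p * s = s)
    (e : sᴴ * s = 1) : PIso s 1 p := by
  have k : PIso s 1 (s * sᴴ) := ⟨e, rfl, Matrix.mul_one _⟩
  have := k.prj_tgt.eq_of_trace hp (by rw [← Matrix.mul_assoc, h]) (by rw [← k.trace_eq, ht]; simp)
  exact this ▸ k

theorem piso_vec (ht : p.trace = 1) (h : PIso u p q) : PIso (vec u) 1 (q ⊗ₖ pᵀ) :=
  piso_of_unit (h.prj_tgt.kron h.prj_src.transpose)
    (by rw [trace_kronecker, trace_transpose, ← h.trace_eq, ht, mul_one])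
    (by rw [kron_vec', h.left, h.idem]) (by rw [vec_ct_mul, h.src, ht]; ext; simp)

theorem piso_mat (hp : Prj p) (hq : Prj q) (ht : p.trace = 1) (ht' : q.trace = 1)
    {s : Matrix (l × κ) Unit ℂ} (h : PIso s 1 (q ⊗ₖ pᵀ)) : PIso (mat s) p q := by
  obtain ⟨a, ha⟩ := Line51.exists_unit hp ht
  obtain ⟨b, hb⟩ := Line51.exists_unit hq ht'
  obtain ⟨e, e'⟩ := piso_ratio (by simp) (piso_vec ht (ha.symm.trans hb)) h
  rw [e]
  exact piso_smul (ha.symm.trans hb) e'

end pt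

/-! ### smoothing -/

variable {E : Type} [NormedAddCommGroup E] [NormedSpace ℝ E] [FiniteDimensional ℝ E]
  {H : Type} [TopologicalSpace H] {I : ModelWithCorners ℝ E H}
  {M : Type} [TopologicalSpace M] [ChartedSpace H M] [IsManifold I ∞ M]
  {κ l n : Type} [Fintype κ] [Fintype l] [Fintype n] [DecidableEq κ] [DecidableEq l] [DecidableEq n]
  {O : Set M} {p : M → Matrix κ κ ℂ} {q : M → Matrix l l ℂ} {u w : M → Matrix l κ ℂ} {x : M}

theorem LOn.rk1 (h : LOn I p O) (hx : x ∈ O) : Rk1 (p x) :=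
  Rk1.of_trace (h.prj x hx).herm (h.prj x hx).idem (h.tr x hx)

theorem LOn.isLine (h : LOn I p O) : IsLine (fun x => clm (p x)) O :=
  Pic56.isLine_clm (fun x hx => (h.sm x hx).continuousAt.continuousWithinAt) fun _ => h.rk1

theorem lOn_one : LOn I (fun _ => (1 : Matrix Unit Unit ℂ)) O :=
  ⟨fun _ _ => MSm.const _, fun _ _ => Prj.one, fun _ _ => by simp⟩

theorem LOn.kron (h : LOn I p O) (h' : LOn I q O) : LOn I (fun x => p x ⊗ₖ q x) O :=
  ⟨fun x hx => (h.sm x hx).kron (h'.sm x hx), fun x hx => (h.prj x hx).kron (h'.prj x hx),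
    fun x hx => by rw [trace_kronecker, h.tr x hx, h'.tr x hx, mul_one]⟩

theorem LOn.dual (h : LOn I p O) : LOn I (fun x => (p x)ᵀ) O :=
  ⟨fun x hx => (h.sm x hx).transpose, fun x hx => (h.prj x hx).transpose,
    fun x hx => by rw [trace_transpose, h.tr x hx]⟩

theorem LOn.refl (h : LOn I p O) : Uni I p p p O := ⟨h.sm, fun x hx => (h.prj x hx).refl⟩

theorem LOn.on [I.Boundaryless] (h : LOn I p O) : (⟨p, 0⟩ : Line51.Ln E M κ).On I O :=
  ⟨h.sm, h.prj, h.tr, fun _ _ => Dr59.cAt_zero, fun _ _ => R208.FI.IsDeg.zero⟩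

theorem frame_of_uni {s : M → Matrix κ Unit ℂ} (h : Uni I (fun _ => 1) p s O) :
    IsFrame (fun x => clm (p x)) (fun x i => s x i ()) O :=
  ⟨fun x hx => (continuousAt_pi.2 fun i => (h.sm x hx i ()).continuousAt).continuousWithinAt,
    fun x hx => funext fun i => congrFun (congrFun (h.iso x hx).left i) (), fun x hx e => by
      have := (h.iso x hx).src
      rw [show s x = 0 from Matrix.ext fun i _ => congrFun e i, Matrix.mul_zero] at this
      exact zero_ne_one this⟩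

theorem uni_smul (h : Uni I p q u O) {c : M → ℂ} (sc : ∀ x ∈ O, FSm I c x)
    (hc : ∀ x ∈ O, ‖c x‖ = 1) : Uni I p q (fun x => c x • u x) O :=
  ⟨fun x hx => MSm.smul (sc x hx) (h.sm x hx), fun x hx => piso_smul (h.iso x hx) (hc x hx)⟩

theorem uni_congr (hO : IsOpen O) (h : Uni I p q u O) (e : EqOn w u O) : Uni I p q w O :=
  ⟨fun x hx => (h.sm x hx).congr (eventually_of_mem (hO.mem_nhds hx) e),
    fun x hx => (e hx).symm ▸ h.iso x hx⟩

theorem uni_of_eq {p' : M → Matrix κ κ ℂ} {q' : M → Matrix l l ℂ} (h : Uni I p q u O)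
    (e : ∀ x ∈ O, p' x = p x) (e' : ∀ x ∈ O, q' x = q x) : Uni I p' q' u O :=
  ⟨h.sm, fun x hx => by rw [e x hx, e' x hx]; exact h.iso x hx⟩

theorem uni_vec (hp : LOn I p O) (h : Uni I p q u O) :
    Uni I (fun _ => 1) (fun x => q x ⊗ₖ (p x)ᵀ) (fun x => vec (u x)) O :=
  ⟨fun x hx a _ => h.sm x hx a.1 a.2, fun x hx => piso_vec (hp.tr x hx) (h.iso x hx)⟩

theorem uni_mat (hp : LOn I p O) (hq : LOn I q O) {s : M → Matrix (l × κ) Unit ℂ}
    (h : Uni I (fun _ => 1) (fun x => q x ⊗ₖ (p x)ᵀ) s O) : Uni I p q (fun x => mat (s x)) O :=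
  ⟨fun x hx a b => h.sm x hx (a, b) (),
    fun x hx => piso_mat (hp.prj x hx) (hq.prj x hx) (hp.tr x hx) (hq.tr x hx) (h.iso x hx)⟩

/-- a continuous logarithm of a smooth function is smooth -/
theorem fsm_log {φ ψ : M → ℂ} (hφ : FSm I φ x) (hψ : ContinuousAt ψ x)
    (e : ∀ᶠ y in 𝓝 x, φ y = Complex.exp (ψ y)) : FSm I ψ x := by
  have h1 : FSm I (fun y => φ y * Complex.exp (-ψ x)) x := hφ.mul' contMDiffAt_const
  have h2 : φ x * Complex.exp (-ψ x) ∈ Complex.slitPlane := by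
    rw [e.self_of_nhds, ← Complex.exp_add, add_neg_cancel, Complex.exp_zero]
    exact Complex.one_mem_slitPlane
  refine ((((Complex.contDiffAt_log h2).restrict_scalars ℝ).comp_contMDiffAt
    (f := fun y => φ y * Complex.exp (-ψ x)) h1).add
    (contMDiffAt_const (c := ψ x))).congr_of_eventuallyEq ?_
  have c : ContinuousAt (fun y => (ψ y - ψ x).im) x :=
    Complex.continuous_im.continuousAt.comp (hψ.sub continuousAt_const)
  filter_upwards [e, c.eventually (Ioo_mem_nhds (a := -Real.pi) (b := Real.pi)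
    (by simp [Real.pi_pos]) (by simp [Real.pi_pos]))] with y a b
  show ψ y = Complex.log (φ y * Complex.exp (-ψ x)) + ψ x
  rw [a, ← Complex.exp_add, ← sub_eq_add_neg, Complex.log_exp b.1 b.2.le, sub_add_cancel]

theorem fsm_exp {r : M → ℝ} (h : FSm I r x) : FSm I (fun y => (Circle.exp (r y) : ℂ)) x :=
  (Line51.contMDiff_coe _).comp x ((contMDiff_circleExp _).comp x h)

/-- smooth arguments -/
theorem exists_arg (hO : IsOpen O) {φ : M → ℂ} (hφ : ∀ x ∈ O, FSm I φ x) (h1 : ∀ x ∈ O, ‖φ x‖ = 1)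
    (hl : HasLog φ O) : ∃ r : M → ℝ, ∀ x ∈ O, FSm I r x ∧ φ x = Circle.exp (r x) := by
  obtain ⟨ψ, a, b⟩ := hl
  refine ⟨fun x => (ψ x).im, fun x hx => ⟨Complex.imCLM.contDiff.contDiffAt.comp_contMDiffAt
    (fsm_log (hφ x hx) (a.continuousAt (hO.mem_nhds hx)) (eventually_of_mem (hO.mem_nhds hx) b)), ?_⟩⟩
  have := h1 x hx
  rw [b x hx, Complex.norm_exp, Real.exp_eq_one_iff] at this
  rw [b x hx, Circle.coe_exp]
  congr 1
  exact Complex.ext (by simp [this]) (by simp)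

variable [T2Space M] [SigmaCompactSpace M]

include I in
theorem sigma_opens (U : Opens M) : SigmaCompactSpace U := by
  have := I.locallyCompactSpace
  have := ChartedSpace.locallyCompactSpace H M
  have := I.secondCountableTopology
  have := ChartedSpace.secondCountable_of_sigmaCompact H M
  have := U.isOpen.locallyCompactSpace
  infer_instance

variable [I.Boundaryless]

/-- a continuously framed line has a smooth unit section -/
theorem exists_fr_of_frame (hO : IsOpen O) (h : LOn I p O) {s : O → κ → ℂ}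
    (hs : IsFrame (fun x : O => clm (p x)) s univ) :
    ∃ S : M → Matrix κ Unit ℂ, Uni I (fun _ => 1) p S O := by
  let U : Opens M := ⟨O, hO⟩
  have := sigma_opens (I := I) U
  obtain ⟨e, h1, h2⟩ := Pic56.exists_unit_frame (I := I) (M := U) (p := fun x => p x)
    (fun y => (h.sm y y.2).comp (contMDiff_subtype_val y)) (fun y => h.rk1 y.2) hs
  refine ⟨extend Subtype.val (fun (y : U) => of fun i _ => e y i) 0, fun x hx =>
    MSm.extend Subtype.val_injective (Glue52.ld_val U ⟨x, hx⟩) (fun i _ => h1 _ i) _, fun x hx => ?_⟩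
  rw [Subtype.val_injective.extend_apply _ _ (⟨x, hx⟩ : U)]
  refine PIso.of_prj (by simp) ?_ ?_
  · ext; simpa [Matrix.mul_apply, dotProduct] using (h2 ⟨x, hx⟩).1
  · rw [show p x = _ from (h2 ⟨x, hx⟩).2]
    ext; simp [Matrix.mul_apply, vecMulVec_apply]

/-! ### cylinders -/

local notation "IC" => ModelWithCorners.prod 𝓘(ℝ, ℝ) I

theorem sm_in (t : ℝ) : ContMDiffAt I IC ∞ (fun y => (t, y)) x := contMDiffAt_const.prodMk contMDiffAt_id

theorem uni_in {p : ℝ × M → Matrix κ κ ℂ} {q : ℝ × M → Matrix l l ℂ} {u : ℝ × M → Matrix l κ ℂ}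
    (h : Uni IC p q u (univ ×ˢ O)) (t : ℝ) :
    Uni I (fun x => p (t, x)) (fun x => q (t, x)) (fun x => u (t, x)) O :=
  h.comp ⟨fun _ _ => sm_in t, fun _ hx => ⟨trivial, hx⟩⟩

theorem uni_snd (h : Uni I p q u O) :
    Uni IC (fun z : ℝ × M => p z.2) (fun z => q z.2) (fun z => u z.2) (univ ×ˢ O) :=
  h.comp ⟨fun _ _ => contMDiffAt_snd, fun _ hx => hx.2⟩

/-- **a unit section on the cross-section extends to the cylinder** -/
theorem exists_fr_cyl (hO : IsOpen O) {p : ℝ × M → Matrix κ κ ℂ} (h : LOn IC p (univ ×ˢ O))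
    {s : M → Matrix κ Unit ℂ} (hs : Uni I (fun _ => 1) (fun x => p (0, x)) s O) :
    ∃ S, Uni IC (fun _ => 1) p S (univ ×ˢ O) ∧ ∀ x ∈ O, S (0, x) = s x := by
  have := Manifold.metrizableSpace I M
  obtain ⟨a, ha, -⟩ := frame_cyl (X := O) (Q := fun z => clm (p (z.1, z.2)))
    (h.isLine.comp (g := fun z : ℝ × O => (z.1, (z.2 : M))) (by fun_prop) fun z _ => ⟨trivial, z.2.2⟩)
    ((frame_of_uni hs).comp (g := Subtype.val) (by fun_prop) fun z _ => z.2)
  obtain ⟨S, hS⟩ := exists_fr_of_frame (isOpen_univ.prod hO) h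
    (ha.comp (g := fun z : ↥((univ : Set ℝ) ×ˢ O) => (z.1.1, ⟨z.1.2, z.2.2⟩)) (by fun_prop)
      (mapsTo_univ _ _))
  have k := fun x hx => piso_ratio (by simp) ((uni_in hS 0).iso x hx) (hs.iso x hx)
  refine ⟨_, uni_smul hS (c := fun z => ((S (0, z.2))ᴴ * s z.2).trace) (fun z hz => ?_)
    fun z hz => (k _ hz.2).2, fun x hx => (k x hx).1.symm⟩
  exact ((((uni_in hS 0).sm _ hz.2).ct.mul (hs.sm _ hz.2)).comp contMDiffAt_snd).trace

/-- an isometry of lines on the cross-section extends to the cylinder -/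
theorem exists_uni_cyl (hO : IsOpen O) {p : ℝ × M → Matrix κ κ ℂ} {q : ℝ × M → Matrix l l ℂ}
    (h : LOn IC p (univ ×ˢ O)) (h' : LOn IC q (univ ×ˢ O))
    (hu : Uni I (fun x => p (0, x)) (fun x => q (0, x)) u O) :
    ∃ U, Uni IC p q U (univ ×ˢ O) ∧ ∀ x ∈ O, U (0, x) = u x := by
  obtain ⟨S, a, b⟩ := exists_fr_cyl hO (h'.kron h.dual)
    (uni_vec (h.comp (fun _ _ => sm_in 0) fun _ hx => ⟨trivial, hx⟩) hu)
  exact ⟨_, uni_mat h h' a, fun x hx => by rw [b x hx, mat_vec]⟩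

theorem exists_arg_cyl (hO : IsOpen O) {φ : ℝ × M → ℂ} (hφ : ∀ z ∈ univ ×ˢ O, FSm IC φ z)
    (h1 : ∀ z ∈ univ ×ˢ O, ‖φ z‖ = 1) (h0 : ∀ x ∈ O, φ (0, x) = 1) :
    ∃ r : ℝ × M → ℝ, (∀ z ∈ univ ×ˢ O, FSm IC r z ∧ φ z = Circle.exp (r z)) ∧ ∀ x ∈ O, r (0, x) = 0 := by
  obtain ⟨r, hr⟩ := exists_arg (isOpen_univ.prod hO) hφ h1
    (hasLog_cyl (fun z hz => (hφ z hz).continuousAt.continuousWithinAt)
      (fun z hz e => by simpa [e] using h1 z hz) ((HasLog.const one_ne_zero O).congr h0))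
  refine ⟨fun z => r z - r (0, z.2), fun z hz => ⟨(hr z hz).1.sub
    ((hr (0, z.2) ⟨trivial, hz.2⟩).1.comp z (contMDiffAt_const.prodMk contMDiffAt_snd)), ?_⟩,
    fun _ _ => sub_self _⟩
  rw [Circle.exp_sub, Circle.coe_div, ← (hr z hz).2, ← (hr (0, z.2) ⟨trivial, hz.2⟩).2, h0 _ hz.2, div_one]

end Crest.Agent.X212.Lab56
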