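import Crest.Agent.X212.Lab56.Ref
import Crest.Agent.X212.Cls19.Main

/-!
# X212 / Lab56, part Lab (helper56): labels of spin^c data on rod manifolds

* `Lab r j d m O` : `d` is isomorphic to `r` off the axis and `j` becomes a section of `det d` of orders `m`;
* `Lab.eqv` (the orders determine the class), `Lab.of_eqv`, `exists_lab`, `Lab.amb`, `Lab.ang`, `Lab.par`,
  `Lab.tw`, `Lab.bar`, `Lab.ref`, `Lab.pull`, `Lab.fn`;
* `Ref T` : a reference on the exterior, `Ref.dx`, `Ref.jx`, `Ref.Lab`, `Ref.Lab.map`, `Ref.Lab.chg`.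
-/

set_option autoImplicit false
set_option linter.unusedSectionVars false

open Set Filter Topology Function Matrix
open scoped ContDiff Manifold Kronecker
open Crest.Agent.X212.Pj41 Crest.Agent.X212.Met55 Crest.Agent.X212.Line51
open Crest.Agent.X212.Rod53 hiding Uni X cj
open Crest.Agent.X212.Pic56 (HasLog)
open Crest.Agent.X212.Cls19 (Sat ex)
open Crest.Agent.X212.Cyl58 (Up)

noncomputable section

namespace Crest.Agent.X212.Lab56

variable {EN HN : Type} [NormedAddCommGroup EN] [NormedSpace ℝ EN] [FiniteDimensional ℝ EN]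
  [TopologicalSpace HN] {IN : ModelWithCorners ℝ EN HN} [IN.Boundaryless]
  {N : Type} [TopologicalSpace N] [ChartedSpace HN N] [IsManifold IN ∞ N] [T2Space N]
  {EN' HN' : Type} [NormedAddCommGroup EN'] [NormedSpace ℝ EN'] [FiniteDimensional ℝ EN']
  [TopologicalSpace HN'] {IN' : ModelWithCorners ℝ EN' HN'} [IN'.Boundaryless]
  {N' : Type} [TopologicalSpace N'] [ChartedSpace HN' N'] [IsManifold IN' ∞ N'] [T2Space N']
  {T : Tb IN N} {v : ℝ → Z2} {T' : Tb IN' N'} {v' : ℝ → Z2}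
  {ι ι' ι'' κ l n : Type} [Fintype ι] [Fintype ι'] [Fintype ι''] [Fintype κ] [Fintype l] [Fintype n]
  [DecidableEq ι] [DecidableEq ι'] [DecidableEq ι''] [DecidableEq κ] [DecidableEq l] [DecidableEq n]
  {r : Sc (𝓡 4) (Rod53.X T v) ι κ} {j j' : Rod53.X T v → Matrix (κ × κ) Unit ℂ}
  {d : Sc (𝓡 4) (Rod53.X T v) ι' l} {d' : Sc (𝓡 4) (Rod53.X T v) ι'' n} {m m' : ℝ → ℤ}
  {O O' : Set (Rod53.X T v)} {x : Rod53.X T v} {W : Set (Rod53.X T' v')} {f : Rod53.X T' v' → Rod53.X T v}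

theorem tl_congr_p {p p' : Rod53.X T v → Matrix l l ℂ} {s : Rod53.X T v → Matrix l Unit ℂ} (hO : IsOpen O)
    (h : TL T v m p s O) (e : ∀ x ∈ O, p' x = p x) : TL T v m p' s O := by
  refine ⟨uni_of_eq h.fr (fun _ _ => rfl) fun x hx => e x hx.1, fun x hx k => ?_⟩
  obtain ⟨η, a, S, b⟩ := h.ax x hx k
  refine ⟨η, a, S, ?_⟩
  filter_upwards [b, hO.mem_nhds hx] with y c d using ⟨c.1, e y d ▸ c.2.1, c.2.2⟩

theorem tl_tk2 (hO : IsOpen O) (hd : d.On O) {a : Rod53.X T v → Matrix (l × l) Unit ℂ}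
    (h : TL T v m d.det a O) {q : Rod53.X T v → Matrix n n ℂ} {s : Rod53.X T v → Matrix n Unit ℂ}
    (h' : TL T v m' q s O) : TL T v (m + (m' + m')) (d.tw q).det (fun x => tk2 (a x) (s x)) O := by
  refine ⟨⟨fun x hx => msm_tk2 (h.fr.sm x hx) (h'.fr.sm x hx),
    fun x hx => piso_tk2 hd hx.1 (h.fr.iso x hx) (h'.fr.iso x hx)⟩, fun x hx k => ?_⟩
  obtain ⟨η, a, S, b⟩ := h.ax x hx k
  obtain ⟨η', a', S', b'⟩ := h'.ax x hx k
  refine ⟨η + (η' + η'), a.add (a'.add a'), fun y => tk2 (S y) (S' y), ?_⟩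
  filter_upwards [b, b', hO.mem_nhds hx] with y c e g
  refine ⟨msm_tk2 c.1 e.1, piso_tk2 hd g c.2.1 e.2.1, fun o => ?_⟩
  rw [c.2.2 o, e.2.2 o, mul_sc, mul_sc, mul_sc, tk2_smul, chi_add o, chi_add o, Circle.coe_mul, Circle.coe_mul]

/-- transport of toric lines along maps that respect the characters near the axis -/
theorem tl_map {p : Rod53.X T v → Matrix l l ℂ} {s : Rod53.X T v → Matrix l Unit ℂ} (hW : IsOpen W)
    (h : TL T v m p s O) (hf : ∀ y ∈ W, ContMDiffAt (𝓡 4) (𝓡 4) ∞ f y) (hm : MapsTo f W O)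
    (ho : ∀ y ∈ W, f y ∈ off T v ↔ y ∈ off T' v')
    (e : ∀ y ∈ W, y ∉ off T' v' → ∀ η, Rep v m η (T.time v (f y)) → ∃ η', Rep v' m' η' (T'.time v' y) ∧
      ∀ᶠ z in 𝓝 y, z ∈ off T' v' → chi T v η (f z) = chi T' v' η' z) :
    TL T' v' m' (fun y => p (f y)) (fun y => s (f y)) W := by
  refine ⟨h.fr.comp ⟨fun y hy => hf y hy.1, fun y hy => ⟨hm hy.1, (ho y hy.1).2 hy.2⟩⟩, fun y hy k => ?_⟩
  obtain ⟨η, a, S, b⟩ := h.ax _ (hm hy) (mt (ho y hy).1 k)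
  obtain ⟨η', a', b'⟩ := e y hy k η a
  refine ⟨η', a', fun z => S (f z), ?_⟩
  filter_upwards [(hf y hy).continuousAt.eventually b, hW.mem_nhds hy, b'] with z c g g'
  exact ⟨c.1.comp (hf z g), c.2.1, fun o => (c.2.2 ((ho z g).2 o)).trans (by rw [mul_sc, mul_sc, g' o])⟩

/-- **labels** -/
def Lab (r : Sc (𝓡 4) (Rod53.X T v) ι κ) (j : Rod53.X T v → Matrix (κ × κ) Unit ℂ)
    (d : Sc (𝓡 4) (Rod53.X T v) ι' l) (m : ℝ → ℤ) (O : Set (Rod53.X T v)) : Prop :=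
  ∃ σ, Iw r d σ (O ∩ off T v) ∧ TL T v m d.det (fun x => kk σ x * j x) O

theorem Lab.ri (h : Lab r j d m O) : ∃ s, RI r j d s (O ∩ off T v) ∧ TL T v m d.det s O :=
  let ⟨σ, a, b⟩ := h; ⟨_, ⟨σ, a, fun _ _ => rfl⟩, b⟩

theorem lab_of_ri (hO : IsOpen O) {s : Rod53.X T v → Matrix (l × l) Unit ℂ} (i : RI r j d s (O ∩ off T v))
    (h : TL T v m d.det s O) : Lab r j d m O :=
  let ⟨σ, a, b⟩ := i; ⟨σ, a, h.congr_s hO b⟩

theorem Lab.mono (h : Lab r j d m O) (hO : O' ⊆ O) : Lab r j d m O' :=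
  let ⟨σ, a, b⟩ := h; ⟨σ, a.mono (inter_subset_inter_left _ hO), b.mono hO⟩

theorem Lab.congr_m (h : Lab r j d m O) (e : ∀ x ∈ O, x ∉ off T v → m' =ᶠ[𝓝 (T.time v x)] m) :
    Lab r j d m' O := let ⟨σ, a, b⟩ := h; ⟨σ, a, b.congr_m e⟩

theorem Lab.eqv_off (h : Lab r j d m O) : Eqv r d (O ∩ off T v) := let ⟨σ, a, _⟩ := h; ⟨σ, a⟩

theorem Lab.of_eq (hO : IsOpen O) (h : Lab r j d m O) {r' : Sc (𝓡 4) (Rod53.X T v) ι κ}
    {a : Sc (𝓡 4) (Rod53.X T v) ι' l} (e : r.Eq r' (O ∩ off T v)) (e₁ : EqOn j' j (O ∩ off T v))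
    (e' : d.Eq a O) : Lab r' j' a m O :=
  let ⟨_, i, b⟩ := h.ri
  lab_of_ri hO (i.of_eq e e₁ (e'.mono inter_subset_left) fun _ _ => rfl) (tl_congr_p hO b fun _ => e'.det)

/-- a section of order zero -/
theorem Rf.lab {s : Rod53.X T v → Matrix (l × l) Unit ℂ} (hO : IsOpen O) (h : Rf d s O)
    (i : RI r j d s (O ∩ off T v)) : Lab r j d 0 O := lab_of_ri hO i (tl_of_fr hO h.sec)

/-- change of the reference section -/
theorem Lab.sec (h : Lab r j d m O) {g : Rod53.X T v → Circle} (hg : TL T v m' (fun _ => 1) (sc g) O) :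
    Lab r (fun x => j x * sc g x) d (m + m') O :=
  let ⟨σ, a, b⟩ := h; ⟨σ, a, by simpa only [Matrix.mul_assoc] using b.mul hg⟩

/-- change of the isomorphism -/
theorem Lab.sq (h : Lab r j d m O) {g : Rod53.X T v → Circle} (hg : TL T v m' (fun _ => 1) (sc g) O) :
    Lab r j d (m + m' + m') O :=
  let ⟨σ, a, b⟩ := h
  ⟨fun x => (g x : ℂ) • σ x, CI.smul a fun x hx => hg.fr.sm x hx () (), by
    simpa only [kk_smul, mul_sc, Matrix.smul_mul, smul_smul, pow_two] using (b.mul hg).mul hg⟩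

theorem Lab.ang (h : Lab r j d m O) {θ : N → Circle} {δ : Z2} (hθ : Ang T θ δ) (k : ℤ) :
    Lab r j d (fun t => m t + 2 * k * dot δ (v t)) O := by
  convert h.sq (hθ.tl (m := fun t => dot (k • δ) (v t)) k fun _ _ _ => rep_dot _ _) using 2
  simp [dot]; ring

theorem Lab.ang' (h : Lab r j d m O) {θ : N → Circle} {δ : Z2} (hθ : Ang T θ δ) (k : ℤ) :
    Lab r (fun x => j x * sc (thx T v θ δ ^ k) x) d (fun t => m t + k * dot δ (v t)) O := by
  convert h.sec (hθ.tl (m := fun t => dot (k • δ) (v t)) k fun _ _ _ => rep_dot _ _) using 2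
  simp [dot]; ring

/-- **conjugation** -/
theorem Lab.bar (hO : IsOpen O) (hd : d.On O) (h : Lab r j d m O) :
    Lab r.bar (fun x => cj (j x)) d.bar (-m) O :=
  let ⟨_, a, b⟩ := h.ri
  lab_of_ri hO a.bar (tl_congr_p hO b.dual fun x hx => by rw [det_bar, cj, (hd.det.prj x hx).herm])

/-- **twisting** -/
theorem Lab.tw (hO : IsOpen O) (hd : d.On O) (h : Lab r j d m O) {q : Rod53.X T v → Matrix n n ℂ}
    {s : Rod53.X T v → Matrix n Unit ℂ} (hq : TL T v m' q s O) : Lab r j (d.tw q) (m + (m' + m')) O :=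
  let ⟨_, a, b⟩ := h
  ⟨_, a.tk hq.fr, by simpa only [kk_tk] using tl_tk2 hO hd b hq⟩

theorem Lab.pull (hr : r.On (O ∩ off T v)) (hd : d.On O) (h : Lab r j d m O)
    (hf : ∀ y ∈ W, IsLocalDiffeomorphAt (𝓡 4) (𝓡 4) ∞ f y) (hm : MapsTo f W O)
    (ho : ∀ y ∈ W, y ∈ off T' v' → f y ∈ off T v)
    (ht : ∀ s, TL T v m d.det s O → TL T' v' m' (fun y => d.det (f y)) (fun y => s (f y)) W) :
    Lab (r.pull (𝓡 4) f) (fun y => j (f y)) (d.pull (𝓡 4) f) m' W :=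
  let ⟨_, a, b⟩ := h
  ⟨_, a.pull hr (hd.mono inter_subset_left) (fun y hy => hf y hy.1) fun y hy => ⟨hm hy.1, ho y hy.1 hy.2⟩,
    ht _ b⟩

theorem Lab.fn {g : N' → N} (k : TE T' T g) (hr : r.On (O ∩ off T v)) (hd : d.On O) (h : Lab r j d m O) :
    Lab (r.pull (𝓡 4) (fn T' T g v' v)) (fun y => j (fn T' T g v' v y)) (d.pull (𝓡 4) (fn T' T g v' v)) m
      (T'.ag v' v ∩ fn T' T g v' v ⁻¹' O) :=
  h.pull hr hd (fun _ hy => k.ld_fn hy.1) (fun _ hy => hy.2) (fun _ hy => (fn_mem_off k hy.1).2)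
    fun _ b => b.fn k

/-- two labels of the same datum -/
theorem Lab.ratio (hr : r.On (O ∩ off T v)) (hd : d.On O) (h : Lab r j d m O) (h' : Lab r j d m' O) :
    ∃ (s s' : Rod53.X T v → Matrix (l × l) Unit ℂ) (c : Rod53.X T v → ℂ), TL T v m d.det s O ∧
      TL T v m' d.det s' O ∧ ∀ x ∈ O ∩ off T v, FSm (𝓡 4) c x ∧ ‖c x‖ = 1 ∧ s' x = c x ^ 2 • s x := by
  obtain ⟨σ, a, b⟩ := h
  obtain ⟨σ', a', b'⟩ := h'
  obtain ⟨c, hc⟩ := Iw.ratio hr (hd.mono inter_subset_left) a a'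
  exact ⟨_, _, c, b, b', fun x hx => ⟨(hc x hx).1, (hc x hx).2.1, by
    rw [← Matrix.smul_mul, ← kk_smul, kk, kk, (hc x hx).2.2]⟩⟩

theorem sq_eq {c L : ℂ} {g : Circle} (hc : ‖c‖ = 1) (e : c * (g : ℂ)⁻¹ = Complex.exp L) :
    c ^ 2 = (Circle.exp (2 * L.im) : ℂ) * (g * g : Circle) := by
  have := Cls19.exp_im (L := L) (by rw [← e, norm_mul, hc, norm_inv, Circle.norm_coe]; simp)
  rw [two_mul, Circle.exp_add, Circle.coe_mul, Circle.coe_exp, this, ← e, Circle.coe_mul]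
  field_simp

/-- **ambiguity of the orders** -/
theorem Lab.amb (hO : IsOpen O) (hr : r.On (O ∩ off T v)) (hd : d.On O) (h : Lab r j d m O)
    (h' : Lab r j d m' O) {θ : N → Circle} {δ : Z2} (hθ : Ang T θ δ) (h1 : H1 (thx T v θ δ) (O ∩ off T v)) :
    ∃ k : ℤ, ∀ x ∈ O, x ∉ off T v → m' =ᶠ[𝓝 (T.time v x)] fun t => m t + 2 * k * dot δ (v t) := by
  obtain ⟨s, s', c, a, b, e⟩ := h.ratio hr hd h'
  obtain ⟨k, L, l1, l2⟩ := h1 c (fun x hx => (e x hx).1.continuousAt.continuousWithinAt)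
    fun x hx => norm_ne_zero_iff.1 (by rw [(e x hx).2.1]; exact one_ne_zero)
  refine ⟨k, fun x hx o => Cls19.tl_chg_ang (ψ := fun y => 2 * (L y).im) hθ (2 * k) a b hx o
    (eventually_of_mem (hO.mem_nhds hx) fun y hy o' => ⟨(Complex.continuous_im.continuousAt.comp
      (l1.continuousAt ((hO.inter isOpen_off).mem_nhds ⟨hy, o'⟩))).const_mul _, ?_⟩)⟩
  rw [(e y ⟨hy, o'⟩).2.2, mul_sc, mul_sc, smul_smul,
    sq_eq (g := thx T v θ δ y ^ k) (e y ⟨hy, o'⟩).2.1 (by rw [Circle.coe_zpow]; exact l2 y ⟨hy, o'⟩),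
    two_mul k, Pi.pow_apply, _root_.zpow_add]
  rfl

theorem Lab.loc (hO : IsOpen O) (hr : r.On (O ∩ off T v)) (hd : d.On O) (h : Lab r j d m O)
    (h' : Lab r j d m' O) (hx : x ∈ O) (o : x ∉ off T v) :
    ∃ η, m' =ᶠ[𝓝 (T.time v x)] fun t => m t + 2 * dot η (v t) := by
  obtain ⟨s, s', c, a, b, e⟩ := h.ratio hr hd h'
  obtain ⟨η, L, l⟩ := Cls19.exists_lg o (φ := c) (eventually_of_mem (hO.mem_nhds hx) fun y hy o' =>
    ⟨(e y ⟨hy, o'⟩).1.continuousAt, norm_ne_zero_iff.1 (by rw [(e y ⟨hy, o'⟩).2.1]; exact one_ne_zero)⟩)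
  refine ⟨η, (Cls19.tl_chg (ψ := fun y => 2 * (L y).im) (η := η + η) a b hx o ?_).trans
    (.of_forall fun t => by simp only [dot_add, two_mul])⟩
  filter_upwards [l, hO.mem_nhds hx] with y l hy o'
  refine ⟨(Complex.continuous_im.continuousAt.comp (l o').1).const_mul _, ?_⟩
  rw [(e y ⟨hy, o'⟩).2.2, mul_sc, mul_sc, smul_smul, sq_eq (e y ⟨hy, o'⟩).2.1 (l o').2, chi_add o']
  rfl

section sig

variable [SigmaCompactSpace (Rod53.X T v)]

/-- **invariance** -/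
theorem Lab.of_eqv (hO : IsOpen O) (hr : Rf r j (O ∩ off T v)) (hd : d.On O) (hd' : d'.On O)
    (h : Lab r j d m O) (i : Eqv d d' O) : Lab r j d' m O := by
  obtain ⟨s, a, b⟩ := h.ri
  obtain ⟨u, i⟩ := i
  refine lab_of_ri hO (a.trans (hO.inter isOpen_off) hr (hd.mono inter_subset_left)
    (hd'.mono inter_subset_left) ⟨u, i.mono inter_subset_left, fun x hx => ?_⟩) (b.trans hO (i.dm hd hd'))
  rw [dm, Matrix.mul_assoc, (b.fr.iso x hx).left]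

/-- change of the reference -/
theorem Lab.ref {r' : Sc (𝓡 4) (Rod53.X T v) ι'' n} {j' : Rod53.X T v → Matrix (n × n) Unit ℂ}
    (hO : IsOpen O) (hr' : Rf r' j' (O ∩ off T v)) (hr : r.On (O ∩ off T v)) (hd : d.On O)
    (h : Lab r j d m O) (i : RI r' j' r j (O ∩ off T v)) : Lab r' j' d m O :=
  let ⟨_, a, b⟩ := h.ri
  lab_of_ri hO (i.trans (hO.inter isOpen_off) hr' hr (hd.mono inter_subset_left) a) b

/-- **the orders determine the class** -/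
theorem Lab.eqv (hO : IsOpen O) (hr : Rf r j (O ∩ off T v)) (hd : d.On O) (hd' : d'.On O)
    (h : Lab r j d m O) (h' : Lab r j d' m O) : Eqv d d' O := by
  obtain ⟨s, a, b⟩ := h.ri
  obtain ⟨s', a', b'⟩ := h'.ri
  have k := hd.mono (inter_subset_left (t := off T v))
  obtain ⟨w, c, e⟩ := (a.symm hr k).trans (hO.inter isOpen_off) ⟨k, b.fr⟩ hr.ok (hd'.mono inter_subset_left) a'
  obtain ⟨U, u1, u2⟩ := b.uni hO b'
  obtain ⟨w', c', -⟩ := c.ext dense_off hO (fun _ _ => Cls19.nsep_off) hd hd' u1 fun x hx o => by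
    rw [← (u1.iso x hx).idem, dm, ← (b.fr.iso x ⟨hx, o⟩).tgt, ← Matrix.mul_assoc, ← Matrix.mul_assoc,
      u2 x hx o, e x ⟨hx, o⟩]
  exact ⟨w', c'⟩

/-- **the orders exist** -/
theorem exists_lab (hO : IsOpen O) (hS : Sat T v O) (hr : Rf r j (O ∩ off T v)) (hd : d.On O)
    (i : Eqv r d (O ∩ off T v)) : ∃ m, Lab r j d m O := by
  have := ChartedSpace.secondCountable_of_sigmaCompact E4 (Rod53.X T v)
  obtain ⟨σ, i⟩ := i
  obtain ⟨m, ψ, a, b⟩ := Cls19.exists_tl hO hS (fun x hx => ⟨hd.det.sm x hx, hd.det.prj x hx, hd.det.tr x hx⟩)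
    (hr.iw (hd.mono inter_subset_left) i).sec
  exact ⟨m, lab_of_ri hO (ri_of_log (hO.inter isOpen_off) i (φ := fun x => ex ψ x)
    (fun x hx => fsm_exp (a x hx.1 hx.2)) (fun _ _ => Circle.norm_coe _)
    ⟨fun x => ψ x * Complex.I, fun x hx => ((Complex.continuous_ofReal.continuousAt.comp
      (a x hx.1 hx.2).continuousAt).mul_const _).continuousWithinAt, fun x _ => Cls19.coe_ex ψ x⟩
    fun _ _ => mul_sc _ _ _) b⟩

theorem exists_eqv_near (hO : IsOpen O) (hd : d.On O) (hd' : d'.On O) (hx : x ∈ O) :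
    ∃ V, IsOpen V ∧ x ∈ V ∧ V ⊆ O ∧ Eqv d d' V :=
  let ⟨V, _, h1, h2, h3, h4⟩ := (hd.hl hd').on.exists_fr hO hx
  ⟨V, h1, h2, h3, (eqv_iff (hd.mono h3) (hd'.mono h3)).2 ⟨_, h4.toUni⟩⟩

/-- **the parity of the orders depends on the reference only** -/
theorem Lab.par (hO : IsOpen O) (hr : Rf r j (O ∩ off T v)) (hd : d.On O) (hd' : d'.On O)
    (h : Lab r j d m O) (h' : Lab r j d' m' O) (hx : x ∈ O) (o : x ∉ off T v) :
    ∃ η, m' =ᶠ[𝓝 (T.time v x)] fun t => m t + 2 * dot η (v t) := by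
  obtain ⟨V, h1, h2, h3, i⟩ := exists_eqv_near hO hd hd' hx
  have k := hr.mono (inter_subset_inter_left _ h3)
  exact Lab.loc h1 k.ok (hd'.mono h3) ((h.mono h3).of_eqv h1 k (hd.mono h3) (hd'.mono h3) i) (h'.mono h3) h2 o

/-- the orders of the difference line -/
theorem Lab.diff (hO : IsOpen O) (hr : Rf r j (O ∩ off T v)) (hd : d.On O) (hd' : d'.On O)
    (h : Lab r j d m O) {s : Rod53.X T v → Matrix (n × l) Unit ℂ} (hs : TL T v m' (d.hl d') s O) :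
    Lab r j d' (m + (m' + m')) O :=
  (h.tw hO hd hs).of_eqv hO hr (hd.tw (hd.hl hd')) hd' (eqv_ev hd hd')

end sig

/-! ### words -/

section wd

variable {w : ℤ → Z2} {r : Sc (𝓡 4) (Rod53.X T (wd w)) ι κ} {j : Rod53.X T (wd w) → Matrix (κ × κ) Unit ℂ}
  {d : Sc (𝓡 4) (Rod53.X T (wd w)) ι' l} {d' : Sc (𝓡 4) (Rod53.X T (wd w)) ι'' n} {a a' : ℤ → ℤ}
  {J : Set ℝ} {i : ℤ} {t : ℝ}

theorem isOpen_time (hJ : IsOpen J) : IsOpen (T.time v ⁻¹' J) := hJ.preimage T.continuous_time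

theorem Lab.to_wd (hw : IsWd w) (hJ : IsOpen J) (hc : OrdConnected J) (h : Lab r j d m (T.time (wd w) ⁻¹' J)) :
    ∃ a, Lab r j d (wm w a) (T.time (wd w) ⁻¹' J) :=
  let ⟨σ, i, b⟩ := h
  let ⟨a, c⟩ := Cls19.tl_wd (isOpen_time hJ) b fun _ => by
    rw [Cls19.img_time hw.loc]; exact (hc.inter ordConnected_Ioo).isPreconnected
  ⟨a, σ, i, c⟩

theorem wd_eval (hw : IsWd w) (ht : t ∈ J) (hi : t ∈ Ioo (i : ℝ) (i + 1)) {F : ℤ → Z2 → ℤ}
    (e : ∀ x ∈ T.time (wd w) ⁻¹' J, x ∉ off T (wd w) →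
      wm w a' =ᶠ[𝓝 (T.time (wd w) x)] fun t => F (wm w a t) (wd w t)) : a' i = F (a i) (w i) := by
  obtain ⟨x, o, rfl⟩ := Cls19.exists_axis (T := T) hw.loc t
  simpa only [wm_of_mem hi, wd_of_mem hi] using (e x ht o).self_of_nhds

theorem Lab.amb_wd (hw : IsWd w) (hJ : IsOpen J) (hr : r.On (T.time (wd w) ⁻¹' J ∩ off T (wd w)))
    (hd : d.On (T.time (wd w) ⁻¹' J)) (h : Lab r j d (wm w a) (T.time (wd w) ⁻¹' J))
    (h' : Lab r j d (wm w a') (T.time (wd w) ⁻¹' J)) {θ : N → Circle} {δ : Z2} (hθ : Ang T θ δ)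
    (h1 : H1 (thx T (wd w) θ δ) (T.time (wd w) ⁻¹' J ∩ off T (wd w))) :
    ∃ k : ℤ, ∀ i : ℤ, (J ∩ Ioo (i : ℝ) (i + 1)).Nonempty → a' i = a i + 2 * k * dot δ (w i) :=
  let ⟨k, e⟩ := h.amb (isOpen_time hJ) hr hd h' hθ h1
  ⟨k, fun _ ⟨_, b, c⟩ => wd_eval hw b c (F := fun x y => x + 2 * k * dot δ y) e⟩

theorem Lab.ang_wd {O : Set (Rod53.X T (wd w))} (h : Lab r j d (wm w a) O) {θ : N → Circle} {δ : Z2}
    (hθ : Ang T θ δ) (k : ℤ) : Lab r j d (wm w fun i => a i + 2 * k * dot δ (w i)) O := by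
  convert h.ang hθ k using 2 with t
  simp only [wm, Rod53.wd]
  split_ifs <;> simp

theorem Lab.congr_wd (hJ : IsOpen J) (h : Lab r j d (wm w a) (T.time (wd w) ⁻¹' J))
    (e : ∀ i : ℤ, (J ∩ Ioo (i : ℝ) (i + 1)).Nonempty → a' i = a i) :
    Lab r j d (wm w a') (T.time (wd w) ⁻¹' J) :=
  h.congr_m fun x hx _ => eventually_of_mem (hJ.mem_nhds hx) fun t ht => by
    obtain ⟨u, h1, h2⟩ := ((show ∀ᶠ u in 𝓝[>] t, u ∈ J from nhdsWithin_le_nhds (hJ.mem_nhds ht)).and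
      (Ioo_mem_nhdsGT (Int.lt_floor_add_one t))).exists
    rw [wm, wm, e _ ⟨u, h1, (Int.floor_le t).trans_lt h2.1, h2.2⟩]

theorem Lab.par_wd [SigmaCompactSpace (Rod53.X T (wd w))] (hw : IsWd w) (hJ : IsOpen J)
    (hr : Rf r j (T.time (wd w) ⁻¹' J ∩ off T (wd w))) (hd : d.On (T.time (wd w) ⁻¹' J))
    (hd' : d'.On (T.time (wd w) ⁻¹' J)) (h : Lab r j d (wm w a) (T.time (wd w) ⁻¹' J))
    (h' : Lab r j d' (wm w a') (T.time (wd w) ⁻¹' J)) (hi : (J ∩ Ioo (i : ℝ) (i + 1)).Nonempty) :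
    Even (a' i - a i) := by
  obtain ⟨t, b, c⟩ := hi
  obtain ⟨x, o, rfl⟩ := Cls19.exists_axis (T := T) hw.loc t
  obtain ⟨η, e⟩ := h.par (isOpen_time hJ) hr hd hd' h' b o
  have := e.self_of_nhds
  simp only [wm_of_mem c] at this
  exact ⟨dot η (wd w (T.time (wd w) x)), by omega⟩

end wd

/-! ### references on the exterior -/

theorem ext_target : (T.ext v).target = off T v :=
  Subset.antisymm (fun _ hx => (T.ext v).right_inv hx ▸ ext_mem_off ((T.ext v).map_target hx).1)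
    fun _ hx => let ⟨_, a, e⟩ := exists_ext_of_off hx; e ▸ (T.ext v).map_source ⟨a, trivial⟩

theorem ld_ext_symm (hx : x ∈ off T v) :
    IsLocalDiffeomorphAt (𝓡 4) (IN.prod 𝓘(ℝ, ℝ)) ∞ (T.ext v).symm x := 
  ld_pd (T.ext v).symm ((ext_target (T := T) (v := v)).ge hx)

theorem maps_ext_symm : MapsTo (T.ext v).symm (off T v) (T.Ex ×ˢ univ) := fun _ hx =>
  (T.ext v).map_target ((ext_target (T := T) (v := v)).ge hx)

theorem ext_symm_ext {q : N × ℝ} (h : q.1 ∈ T.Ex) : (T.ext v).symm (T.ext v q) = q :=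
  (T.ext v).left_inv ⟨h, trivial⟩

theorem ext_ext_symm (hx : x ∈ off T v) : T.ext v ((T.ext v).symm x) = x :=
  (T.ext v).right_inv ((ext_target (T := T) (v := v)).ge hx)

theorem time_eq (hx : x ∈ off T v) : ((T.ext v).symm x).2 = T.time v x := by
  rw [← T.time_ext (v := v) (maps_ext_symm hx).1, ext_ext_symm hx]

variable (T) in
/-- a reference on the exterior -/
structure Ref (ι κ : Type) [Fintype ι] [Fintype κ] [DecidableEq ι] [DecidableEq κ] where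
  d : Sc (IN.prod 𝓘(ℝ, ℝ)) (N × ℝ) ι κ
  j : N × ℝ → Matrix (κ × κ) Unit ℂ
  rf : Rf d j (T.Ex ×ˢ univ)

namespace Ref

variable (R : Ref T ι κ) {ι₀ κ₀ : Type} [Fintype ι₀] [Fintype κ₀] [DecidableEq ι₀] [DecidableEq κ₀]
  {R' : Ref T' ι₀ κ₀}

/-- the reference datum on the rod manifold -/
def dx (v : ℝ → Z2) : Sc (𝓡 4) (Rod53.X T v) ι κ := R.d.pull (𝓡 4) (T.ext v).symm

/-- the reference section on the rod manifold -/
def jx (v : ℝ → Z2) (x : Rod53.X T v) : Matrix (κ × κ) Unit ℂ := R.j ((T.ext v).symm x)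

theorem rfx (O : Set (Rod53.X T v)) : Rf (R.dx v) (R.jx v) (O ∩ off T v) :=
  R.rf.pull (fun _ hx => ld_ext_symm hx.2) fun _ hx => maps_ext_symm hx.2

/-- labels with respect to `R` -/
abbrev Lab (d : Sc (𝓡 4) (Rod53.X T v) ι' l) (m : ℝ → ℤ) (O : Set (Rod53.X T v)) : Prop :=
  Lab56.Lab (R.dx v) (R.jx v) d m O

variable {R}

/-- the references correspond under `f` if they do so in the exterior charts -/
theorem ri_map {g : N' × ℝ → N × ℝ} (hW : IsOpen W) (hf : ∀ y ∈ W, IsLocalDiffeomorphAt (𝓡 4) (𝓡 4) ∞ f y)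
    (hg : ∀ q ∈ T'.Ex ×ˢ univ, IsLocalDiffeomorphAt (IN'.prod 𝓘(ℝ, ℝ)) (IN.prod 𝓘(ℝ, ℝ)) ∞ g q)
    (mg : MapsTo g (T'.Ex ×ˢ univ) (T.Ex ×ˢ univ))
    (e : ∀ q : N' × ℝ, q.1 ∈ T'.Ex → T'.ext v' q ∈ W → f (T'.ext v' q) = T.ext v (g q))
    (i : RI R'.d R'.j (R.d.pull (IN'.prod 𝓘(ℝ, ℝ)) g) (fun q => R.j (g q)) (T'.Ex ×ˢ univ)) :
    RI (R'.dx v') (R'.jx v') ((R.dx v).pull (𝓡 4) f) (fun y => R.jx v (f y)) (W ∩ off T' v') := by
  have e1 : ∀ y ∈ W ∩ off T' v', f y = T.ext v (g ((T'.ext v').symm y)) := fun y hy => by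
    rw [← e _ (maps_ext_symm hy.2).1 (by rw [ext_ext_symm hy.2]; exact hy.1), ext_ext_symm hy.2]
  have e2 : ∀ y ∈ W ∩ off T' v', (T.ext v).symm (f y) = g ((T'.ext v').symm y) := fun y hy => by
    rw [e1 y hy, ext_symm_ext (mg (maps_ext_symm hy.2)).1]
  refine (i.pull R'.rf.ok (R.rf.ok.pull hg mg) (fun _ hy => ld_ext_symm hy.2)
    fun _ hy => maps_ext_symm hy.2).of_eq (.refl _ _) (fun _ _ => rfl) ?_ fun y hy => congrArg R.j (e2 y hy)
  exact ((pull_pull R.d (fun _ hy => ld_ext_symm hy.2) fun _ hy => hg _ (maps_ext_symm hy.2)).trans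
    (pull_congr R.d fun y hy => eventually_of_mem ((hW.inter isOpen_off).mem_nhds hy) e2)).trans
    (pull_pull R.d (fun y hy => hf y hy.1) fun y hy => ld_ext_symm
      (e1 y hy ▸ ext_mem_off (mg (maps_ext_symm hy.2)).1)).symm

/-- **naturality of the labels** -/
theorem Lab.map [SigmaCompactSpace (Rod53.X T' v')] {g : N' × ℝ → N × ℝ} (hW : IsOpen W) (hd : d.On O)
    (h : R.Lab d m O) (hf : ∀ y ∈ W, IsLocalDiffeomorphAt (𝓡 4) (𝓡 4) ∞ f y) (hm : MapsTo f W O)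
    (hg : ∀ q ∈ T'.Ex ×ˢ univ, IsLocalDiffeomorphAt (IN'.prod 𝓘(ℝ, ℝ)) (IN.prod 𝓘(ℝ, ℝ)) ∞ g q)
    (mg : MapsTo g (T'.Ex ×ˢ univ) (T.Ex ×ˢ univ))
    (e : ∀ q : N' × ℝ, q.1 ∈ T'.Ex → T'.ext v' q ∈ W → f (T'.ext v' q) = T.ext v (g q))
    (i : RI R'.d R'.j (R.d.pull (IN'.prod 𝓘(ℝ, ℝ)) g) (fun q => R.j (g q)) (T'.Ex ×ˢ univ))
    (ht : ∀ s, TL T v m d.det s O → TL T' v' m' (fun y => d.det (f y)) (fun y => s (f y)) W) :
    R'.Lab (d.pull (𝓡 4) f) m' W := by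
  have ho : ∀ y ∈ W, y ∈ off T' v' → f y ∈ off T v := fun y hy o => by
    obtain ⟨q, a, rfl⟩ := exists_ext_of_off o
    rw [e q a hy]
    exact ext_mem_off (mg ⟨a, trivial⟩).1
  exact (h.pull (R.rfx O).ok hd hf hm ho ht).ref hW (R'.rfx W) ((R.rfx O).ok.pull (fun y hy => hf y hy.1)
    fun y hy => ⟨hm hy.1, ho y hy.1 hy.2⟩) (hd.pull hf hm) (ri_map hW hf hg mg e i)

theorem isOpen_fn {g : N' → N} (k : TE T' T g) (hO : IsOpen O) : IsOpen (T'.ag v' v ∩ fn T' T g v' v ⁻¹' O) :=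
  ContinuousOn.isOpen_inter_preimage (fun _ hy => (k.ld_fn hy).contMDiffAt.continuousAt.continuousWithinAt)
    T'.isOpen_ag hO

/-- change of the rod structure -/
theorem Lab.chg [SigmaCompactSpace (Rod53.X T v')] (hO : IsOpen O) (hd : d.On O) (h : R.Lab d m O) :
    R.Lab (d.pull (𝓡 4) (fn T T id v' v)) m (T.ag v' v ∩ fn T T id v' v ⁻¹' O) :=
  h.map (g := id) (isOpen_fn (.refl T) hO) hd (fun _ hy => (TE.refl T).ld_fn hy.1) (fun _ hy => hy.2)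
    (fun q _ => Cyl58.ld_id q) (mapsTo_id _) (fun _ hq _ => (TE.refl T).fn_ext hq)
    (R.rf.ri_of_eq (pull_id _ _) fun _ _ => rfl) fun _ b => b.fn (.refl T)

/-- reparametrisation of the time -/
theorem Lab.time [SigmaCompactSpace N] [SigmaCompactSpace (Rod53.X T v')] {W : Set (Rod53.X T v')}
    {f : Rod53.X T v' → Rod53.X T v} {φ : ℝ → ℝ} (hφ : Up φ univ) (hW : IsOpen W) (hd : d.On O)
    (h : R.Lab d m O) (hf : ∀ y ∈ W, IsLocalDiffeomorphAt (𝓡 4) (𝓡 4) ∞ f y) (hm : MapsTo f W O)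
    (e : ∀ q : N × ℝ, q.1 ∈ T.Ex → T.ext v' q ∈ W → f (T.ext v' q) = T.ext v (q.1, φ q.2))
    (ht : ∀ s, TL T v m d.det s O → TL T v' m' (fun y => d.det (f y)) (fun y => s (f y)) W) :
    R.Lab (d.pull (𝓡 4) f) m' W :=
  h.map (g := Prod.map id φ) hW hd hf hm (fun q _ => ld_up hφ q) (fun _ hq => ⟨hq.1, trivial⟩) e
    (ri_time T.isOpen_Ex R.rf hφ) ht

end Ref

/-- units on the exterior -/
theorem H1.time [SigmaCompactSpace N] {θ : N → Circle} {δ : Z2} (hθ : Ang T θ δ) (h : H1 θ T.Ex) {J : Set ℝ}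
    (hc : OrdConnected J) : H1 (thx T v θ δ) (T.time v ⁻¹' J ∩ off T v) := by
  rcases J.eq_empty_or_nonempty with rfl | ⟨t, ht⟩
  · exact fun _ _ _ => ⟨0, 0, continuousOn_const, fun _ h => h.1.elim⟩
  have h1 : H1 (fun q : N × ℝ => θ q.1) (T.Ex ×ˢ J) :=
    (h.comp (T := T.Ex ×ˢ {t}) (q := fun q => (q, t)) continuousOn_fst (fun _ hq => hq.1) (by fun_prop)
      (fun _ hq => ⟨hq, rfl⟩) fun q hq => Prod.ext rfl hq.2.symm).dfm (dfm_cyl _ hc ht rfl)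
      (prod_mono_right (singleton_subset_iff.2 ht))
      fun q hq => ((hθ.sm _ hq.1).continuousAt.comp continuousAt_fst).continuousWithinAt
  exact (h1.comp (q := T.ext v) (T := T.time v ⁻¹' J ∩ off T v) (fun _ hy => (ld_ext_symm hy.2).contMDiffAt.continuousAt.continuousWithinAt)
    (fun _ hy => ⟨(maps_ext_symm hy.2).1, by rw [time_eq hy.2]; exact hy.1⟩)
    (fun q hq => (ld_pd (T.ext v) (mk_mem_prod hq.1 trivial)).contMDiffAt.continuousAt.continuousWithinAt)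
    (fun q hq => ⟨by rw [mem_preimage, T.time_ext hq.1]; exact hq.2, ext_mem_off hq.1⟩)
    fun _ hy => ext_ext_symm hy.2).congr fun y hy => by
      beta_reduce
      rw [← thx_ext (v := v) (δ := δ) (θ := θ) (maps_ext_symm hy.2).1, ext_ext_symm hy.2]

end Crest.Agent.X212.Lab56
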