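import Crest.Agent.X212.Lab56.Cf

/-!
# X212 / Lab56, part Lk (helper56): labellings exist; the meridian

* `pic_fill`, `Good.lb`, `Good.finite`, `nonempty_fill`, `nonempty_S3`;
* `exists_tl_mer`, `link` : the toric line of order `1` of the meridian tube has order `- a.1`.
-/

set_option autoImplicit false
set_option linter.unusedSectionVars false

open Set Filter Topology Function Matrix
open scoped ContDiff Manifold
open Crest.Agent.X212.Pj41 Crest.Agent.X212.Met55 Crest.Agent.X212.Line51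
open Crest.Agent.X212.Rod53 hiding Uni X cj
open Crest.GeometryTopology.DehnSurgery (S3)

noncomputable section

namespace Crest.Agent.X212.Lab56

variable {ι κ ι' κ' l : Type} [Fintype ι] [Fintype κ] [Fintype ι'] [Fintype κ'] [Fintype l]
  [DecidableEq ι] [DecidableEq κ] [DecidableEq ι'] [DecidableEq κ'] [DecidableEq l]
  {EN HN : Type} [NormedAddCommGroup EN] [NormedSpace ℝ EN] [FiniteDimensional ℝ EN]
  [TopologicalSpace HN] {IN : ModelWithCorners ℝ EN HN} [IN.Boundaryless]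
  {N : Type} [TopologicalSpace N] [ChartedSpace HN N] [IsManifold IN ∞ N] [T2Space N]
  {EN' HN' : Type} [NormedAddCommGroup EN'] [NormedSpace ℝ EN'] [FiniteDimensional ℝ EN']
  [TopologicalSpace HN'] {IN' : ModelWithCorners ℝ EN' HN'} [IN'.Boundaryless]
  {N' : Type} [TopologicalSpace N'] [ChartedSpace HN' N'] [IsManifold IN' ∞ N'] [T2Space N']
  {EY HY : Type} [NormedAddCommGroup EY] [NormedSpace ℝ EY] [FiniteDimensional ℝ EY]
  [TopologicalSpace HY] {IY : ModelWithCorners ℝ EY HY} [IY.Boundaryless]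
  {Y : Type} [TopologicalSpace Y] [ChartedSpace HY Y] [IsManifold IY ∞ Y] [T2Space Y]
  {T : Tb IN N} {T' : Tb IN' N'} {a b a' b' δ : Z2} {θ : N → Circle}

theorem pic_range [SigmaCompactSpace Y] (S : Tb IY Y) : Pic0 IY univ (range S.τ) :=
  (pic_tube isOpen_univ ordConnected_univ).comp (f := fun y => (S.oe.pd.symm y, 0)) (g := fun z => S.τ z.1)
    (fun _ h => (ld_pd S.oe.pd.symm h).contMDiffAt.prodMk contMDiffAt_const) (fun _ _ => ⟨trivial, trivial⟩)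
    (fun x _ => (S.oe.contMDiff _).comp x contMDiffAt_fst) (mapsTo_univ _ _) fun _ h => S.oe.pd.right_inv h

variable [CompactSpace N]

/-- lines on a filling are trivial on the exterior -/
theorem pic_fill (F : Fl T a b IY Y) (hu : Rod53.Uni a b) (h : Pic0 IN univ T.Ex) : Pic0 IY univ F.tb.Ex :=
  fun n _ _ q hq => by
  have := F.compact hu
  obtain ⟨S, hS⟩ := pic_range F.tb n q hq
  have c : T.Ex ∪ range T.τ = univ := eq_univ_of_forall fun p => (T.Ex_or p).imp_right fun ⟨_, e⟩ => ⟨_, e⟩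
  have he := fun p hp => (F.ld_e (p := p) hp).contMDiffAt
  obtain ⟨P, α, β, h1, h2, h3, -⟩ := exists_glue_two (I := IN) T.isOpen_Ex T.oe.isOpen_range c
    (p := fun x => q (F.e x)) (q := fun _ => (1 : Matrix Unit Unit ℂ)) (u := fun x => (S (F.e x))ᴴ)
    (fun x hx => ⟨(hq.sm _ trivial).comp (he x hx), hq.prj _ trivial⟩) (fun _ _ => ⟨.const _, .one⟩) (by
      rintro _ hx ⟨w, rfl⟩
      have : F.e (T.τ w) ∈ range F.tb.τ := ⟨_, (F.e_τ' hu (T.τ_mem.1 hx)).symm⟩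
      exact ⟨((hS.sm _ this).comp (he _ hx)).ct, (hS.iso _ this).symm⟩)
  obtain ⟨s, hs⟩ := h _ P ⟨fun x _ => (h1 x).1, fun x _ => (h1 x).2, fun x _ =>
    (c.ge (mem_univ x)).elim (fun k => (h2 x k).2.trace_eq ▸ hq.tr _ trivial)
      fun k => (h3 x k).2.trace_eq ▸ by simp⟩
  exact ⟨_, uni_of_eq ((hs.trans (Uni.symm ⟨fun x k => (h2 x k).1, fun x k => (h2 x k).2⟩)).comp
    ⟨fun y k => ((F.tg' hu).ld y k).contMDiffAt, (F.tg' hu).bij.mapsTo⟩) (fun _ _ => rfl)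
    fun y k => congrArg q (F.pe.right_inv (F.tb_Ex.subset k)).symm⟩

variable [SecondCountableTopology N]

/-- **a good tube has a labelling** -/
theorem Good.lb (h : Good T θ δ) (hc : Nonempty (Cls (IN.prod 𝓘(ℝ, ℝ)) (univ : Set (N × ℝ)))) :
    Nonempty (Lb T θ δ) := by
  obtain ⟨⟨D⟩⟩ := hc
  have k : Pic0 (IN.prod 𝓘(ℝ, ℝ)) univ (T.Ex ×ˢ ({0} : Set ℝ)) :=
    h.pic.comp (f := Prod.fst) (g := fun y => (y, 0)) (fun _ _ => contMDiffAt_fst) (fun _ hy => hy.1)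
      (fun _ _ => contMDiffAt_id.prodMk contMDiffAt_const) (mapsTo_univ _ _) fun _ hy => Prod.ext rfl hy.2.symm
  obtain ⟨j, hj⟩ := k.dfm (dfm_cyl T.Ex ordConnected_univ trivial rfl) (T.isOpen_Ex.prod isOpen_univ)
    (subset_univ _) _ _ D.ok.det
  exact ⟨⟨_, _, ⟨D.d, j, D.ok.mono (subset_univ _), hj⟩, D.ok, h.ang, h.h1, fun _ hv =>
    pic_off hv fun hu => pic_fill _ hu h.pic⟩⟩

theorem Good.finite (h : Good T θ δ) (hc : Nonempty (Cls (IN.prod 𝓘(ℝ, ℝ)) (univ : Set (N × ℝ))))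
    (F : Fl T a b IY Y) (hu : Rod53.Uni a b) (h0 : dot δ a ≠ 0) :
    Finite (Cls (IY.prod 𝓘(ℝ, ℝ)) (univ : Set (Y × ℝ))) := let ⟨L⟩ := h.lb hc; L.finite F hu h0

theorem nonempty_rod (hc : Nonempty (Cls (IN.prod 𝓘(ℝ, ℝ)) (univ : Set (N × ℝ)))) {v : ℝ → Z2} (hv : Loc v)
    (h : Nonempty (Cls (𝓡 4) (T.tor v))) : Nonempty (Cls (𝓡 4) (univ : Set (Rod53.X T v))) := by
  obtain ⟨⟨D⟩⟩ := hc
  obtain ⟨D', -⟩ := exists_dat D.ok hv h
  exact ⟨Quot.mk _ D'⟩

theorem nonempty_fill (hc : Nonempty (Cls (IN.prod 𝓘(ℝ, ℝ)) (univ : Set (N × ℝ)))) (F : Fl T a b IY Y)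
    (hu : Rod53.Uni a b) : Nonempty (Cls (IY.prod 𝓘(ℝ, ℝ)) (univ : Set (Y × ℝ))) :=
  (nonempty_rod hc (Fl.loc_const hu) (tor_const hu)).map fun c => c.dif (cyD F hu)

theorem nonempty_S3 : Nonempty (Cls ((𝓡 3).prod 𝓘(ℝ, ℝ)) (univ : Set (S3 × ℝ))) := ⟨on_sphD.cls⟩

/-! ### the meridian -/

omit [CompactSpace N] [SecondCountableTopology N] in
theorem cyD_off (F : Fl T a b IY Y) (hu : Rod53.Uni a b) {z : Y × ℝ} :
    cyD F hu z ∈ off T (fun _ => a) ↔ z.1 ∈ F.tb.Ex := by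
  obtain ⟨y, t⟩ := z
  rcases F.surj' y with ⟨p, hp, rfl⟩ | ⟨u, rfl⟩
  · exact iff_of_true ((F.cyf_e _ hu hp t).symm ▸ ext_mem_off (q := (p, t)) hp :
      F.cyf _ hu (F.e p, t) ∈ off T _) (F.bijOn_e.mapsTo hp)
  · exact iff_of_false (fun h => (rod_mem_off hu (w := ((u, 0), t)) (Or.inr (Fl.Jr_const a t))).1
      ((congrArg (· ∈ off T _) (F.cyf_it _ hu (u, 0) t)).mp h) rfl) fun h => h u rfl

section mer

variable [CompactSpace N'] [SecondCountableTopology N'] (F : Fl T a b IY Y) (hu : Rod53.Uni a b)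
  (F' : Fl T' a' b' IY Y) (hu' : Rod53.Uni a' b') (hm : ∀ w, F'.it w = F.mer.τ w)

/-- two rod structures on the same cylinder -/
abbrev cy2 : (Rod53.X T fun _ => a) ≃ₘ^∞⟮𝓡 4, 𝓡 4⟯ Rod53.X T' fun _ => a' := (cyD F hu).symm.trans (cyD F' hu')

include hm in
theorem exists_tl_mer {q : (Rod53.X T' fun _ => a') → Matrix l l ℂ}
    {σ : (Rod53.X T' fun _ => a') → Matrix l Unit ℂ} (h : TL T' (fun _ => a') (fun _ => 1) q σ univ) :
    ∃ s, TL T (fun _ => a) (fun _ => -a.1) (fun x => q (cy2 F hu F' hu' x)) s univ := by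
  set Φ := cy2 F hu F' hu'
  let g : (Rod53.X T fun _ => a) → Circle := fun x => T.ang ((T.ext _).symm x).1
  have h0 : ∀ x, Φ x ∈ off T' (fun _ => a') ↔ ((cyD F hu).symm x).1 ∈ F.mer.Ex := fun x =>
    (cyD_off F' hu').trans (forall_congr' fun u => by rw [Fl.tb_τ, hm]; rfl)
  have h1 : ∀ x, Φ x ∈ off T' (fun _ => a') → ∀ᶠ y in 𝓝 x, Φ y ∈ off T' (fun _ => a') := fun x k =>
    Φ.continuous.continuousAt.eventually (isOpen_off.mem_nhds k)
  have h2 : ∀ x, Φ x ∈ off T' (fun _ => a') → MSm (𝓡 4) (fun y => σ (Φ y)) x ∧ PIso (σ (Φ x)) 1 (q (Φ x)) :=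
    fun x k => ⟨(h.fr.sm _ ⟨trivial, k⟩).comp (Φ.contMDiff x), h.fr.iso _ ⟨trivial, k⟩⟩
  obtain ⟨s, s1, s2⟩ := exists_ext_uni (I := 𝓡 4) (D := Φ ⁻¹' off T' fun _ => a')
    (dense_off.preimage Φ.toHomeomorph.isOpenMap) (isOpen_off (T := T) (v := fun _ => a)) (p := fun _ => 1)
    (q := fun x => q (Φ x)) (u := fun x => σ (Φ x) * sc g⁻¹ x) fun x hx => by
      by_cases k : Φ x ∈ off T' fun _ => a'
      · refine ⟨_, ⟨(h2 x k).1.mul (msm_sc (ContMDiffAt.inv ?_)), piso_mul_sc (h2 x k).2 _ _⟩,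
          .of_forall fun _ _ => rfl⟩
        refine (T.cm_ang ?_).comp x (contMDiffAt_fst.comp x (ld_ext_symm hx).contMDiffAt)
        obtain ⟨p, hp, rfl⟩ := exists_ext_of_off hx
        rw [h0, cyD_symm F hu hp, F.e_mem_mer hp] at k
        rwa [ext_symm_ext hp]
      · obtain ⟨S, hS⟩ := h.ord (η := dual a' b' 1 0) isOpen_univ (mem_univ _) (Or.inl (tor_of_not_off k))
          fun _ => .of_forall fun _ => dual_left hu' 1 0
        refine ⟨fun y => S (Φ y), ⟨hS.self_of_nhds.1.comp (Φ.contMDiff x), hS.self_of_nhds.2.1⟩, ?_⟩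
        filter_upwards [Φ.continuous.continuousAt.eventually hS, Φ.continuous.continuousAt.eventually
          (T'.isOpen_tor.mem_nhds (tor_of_not_off k))] with y c1 c2 c3
        obtain ⟨⟨w, t⟩, hw, e⟩ := T'.mem_rod hu' c2 (Or.inr (Fl.Jr_const _ _))
        have c4 : w.2 ≠ 0 := (rod_mem_off hu' hw).1 ((congrArg (· ∈ off T' _) e).mpr c3)
        have c5 : y = T.ext _ (T.mer.τ w, t) := by
          rw [← F.cyf_e _ hu (T.mer_mem w)]
          refine (cyD F hu).toEquiv.symm_apply_eq.1 ((cyD F' hu').injective (e.symm.trans ?_))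
          rw [← F'.cyf_it, hm]
          rfl
        have c6 : chi T' _ (dual a' b' 1 0) (Φ y) = g y := by
          rw [← e, chi_rod hu' c4, dual_left hu', dual_right hu', zpow_one, zpow_zero, mul_one, c5]
          exact ((congrArg (fun z : N × ℝ => T.ang z.1) (ext_symm_ext (q := (_, t)) (T.mer_mem w))).trans
            (T.ang_mer c4)).symm
        rw [c1.2.2 c3, Matrix.mul_assoc, show sc (chi T' _ _) (Φ y) = sc g y from congrArg
          (fun z : Circle => (Matrix.of fun _ _ => (z : ℂ) : Matrix Unit Unit ℂ)) c6, sc_mul_inv, Matrix.mul_one]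
  refine ⟨s, s1.mono inter_subset_right, fun x _ o => ⟨-(1, 0), .of_forall fun _ => by simp [dot],
    fun y => σ (Φ y), ?_⟩⟩
  have k : Φ x ∈ off T' fun _ => a' := by
    rw [h0]
    rcases F.surj' ((cyD F hu).symm x).1 with ⟨p, hp, e⟩ | ⟨u, e⟩
    · exact absurd ((cyD F hu).apply_symm_apply x ▸ (cyD_off F hu).2 (e ▸ F.bijOn_e.mapsTo hp)) o
    · exact e ▸ F.it_mem_mer (by simp)
  filter_upwards [h1 x k, T.continuous_eta.continuousAt.eventually
    (lt_mem_nhds ((show (4 / 5 : ℝ) < 1 by norm_num).trans_le (not_lt.1 o)))] with y c1 c2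
  refine ⟨(h2 y c1).1, (h2 y c1).2, fun c3 => (s2 y c3 c1).trans (congrArg _ (sc_eq ?_))⟩
  obtain ⟨⟨p, t⟩, hp, rfl⟩ := exists_ext_of_off c3
  rw [Tb.eta, T.hf_ext _ _ hp] at c2
  obtain ⟨z, rfl⟩ : p ∈ range T.τ := by_contra fun n => by rw [T.rf_not _ _ n] at c2; norm_num at c2
  rw [T.rf_τ, lt_inv_comm₀ (by norm_num) (by positivity)] at c2
  rw [chi_neg c3, Pi.inv_apply, chi_ext (T.τ_mem.1 hp)]
  simp only [g, ext_symm_ext hp, T.ang_τ, ga_near (show ‖z.2‖ ≤ 1 / 4 by linarith), chT]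
  simp

include hm in
/-- **the core of the meridian tube is `- a.1` times the core of the filling** -/
theorem link {R : Ref T ι κ} {R' : Ref T' ι' κ'} {D : Dat (𝓡 4) (univ : Set (Rod53.X T fun _ => a))}
    {D₁ D₂ : Dat (𝓡 4) (univ : Set (Rod53.X T' fun _ => a'))} {m m' : ℤ} (h : R.Lab D.d (fun _ => m) univ)
    (h₁ : R'.Lab D₁.d (fun _ => m') univ) (h₂ : R'.Lab D₂.d (fun _ => m' + 2) univ)
    (e : (Quot.mk _ D : Cls (𝓡 4) univ) = Cls.dif (Quot.mk _ D₁) (cy2 F hu F' hu')) :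
    R.Lab (D₂.d.pull (𝓡 4) (cy2 F hu F' hu')) (fun _ => m + 2 * -1 * a.1) univ := by
  classical
  have := sigX (T := T) (Fl.loc_const hu)
  have := sigX (T := T') (Fl.loc_const hu')
  obtain ⟨q, σ, hq⟩ := exists_TL (T := T') (v := fun _ => a') (m := fun _ => 1) (e := fun _ => dual a' b' 1 0)
    (A := fun _ : Unit => univ) id (fun _ => isOpen_univ) (fun _ => ⟨(), trivial⟩) (fun _ _ _ _ _ _ => rfl)
    fun _ _ _ => dual_left hu' 1 0
  obtain ⟨s, hs⟩ := exists_tl_mer F hu F' hu' hm hq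
  have ld := fun z (_ : z ∈ univ) => (cy2 F hu F' hu').isLocalDiffeomorph z
  have k1 := D₁.ok.tw (LOn.of_ln (hq.on isOpen_univ))
  have k2 := D₁.ok.pull ld (mapsTo_univ _ _)
  have i := ((h₁.tw isOpen_univ D₁.ok hq).eqv isOpen_univ (R'.rfx _) k1 D₂.ok h₂).pull k1 D₂.ok ld
    (mapsTo_univ _ _)
  convert ((h.of_eqv isOpen_univ (R.rfx _) D.ok k2 ((mk_eq_iff isOpen_univ).1 e)).tw isOpen_univ k2 hs).of_eqv
    isOpen_univ (R.rfx _) (k1.pull ld (mapsTo_univ _ _)) (D₂.ok.pull ld (mapsTo_univ _ _)) i using 2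
  simp only [Pi.add_apply]
  ring

end mer

end Crest.Agent.X212.Lab56
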