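import Crest.Agent.X212.Std94.Pt
import Crest.Agent.X212.Pj41.Iso

/-!
# X212 / Lab56, part Pt (helper56): complex spinor modules at a point

`PC P p ρ` : an irreducible complex Clifford module (rank four) for the range of `P`; `It` : intertwiners;
`hP ρ ρ'` : the projector onto the line of intertwiners (a polynomial in `ρ`, `ρ'`); `Un` : unitary intertwiners.
-/

set_option autoImplicit false
set_option linter.unusedSectionVars false
set_option linter.unusedSimpArgs false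

open Matrix Finset
open scoped Kronecker ComplexOrder
open Crest.Agent.X212.Pj41
open Crest.Agent.X212.Wz78 (Pr Cl)
open Crest.Agent.X212.Std94 (ON fr exists_ON)

noncomputable section

namespace Crest.Agent.X212.Lab56

/-- `K (K² - 4) (K + 4) / 384` -/
def qR {A : Type*} [Ring A] [Algebra ℝ A] (K : A) : A :=
  (1 / 384 : ℝ) • (K * (K * (K * K)) + (4 : ℝ) • (K * (K * K)) - (4 : ℝ) • (K * K) - (16 : ℝ) • K)

theorem qR_sum {A : Type*} [Ring A] [Algebra ℝ A] (c : Fin 4 → A) (e : A) (cc : ∀ i, c i * c i = e)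
    (cm : ∀ i k, c i * c k = c k * c i) (ec : ∀ i, e * c i = c i) (ee : e * e = e) :
    qR (∑ i, c i) = (1 / 16 : ℝ) • ((e + c 0) * ((e + c 1) * ((e + c 2) * (e + c 3)))) := by
  have ce : ∀ i, c i * e = c i := fun i => by rw [← cc i, ← mul_assoc, cc, ec]
  have cc' : ∀ i y, c i * (c i * y) = e * y := fun i y => by rw [← mul_assoc, cc]
  have cm' : ∀ i k y, c i * (c k * y) = c k * (c i * y) := fun i k y => by
    rw [← mul_assoc, cm, mul_assoc]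
  have ec' : ∀ i y, e * (c i * y) = c i * y := fun i y => by rw [← mul_assoc, ec]
  have ce' : ∀ i y, c i * (e * y) = c i * y := fun i y => by rw [← mul_assoc, ce]
  have k2 : (∑ i, c i) * ∑ i, c i = (4 : ℝ) • e + (2 : ℝ) • (c 0 * c 1 + c 0 * c 2 + c 0 * c 3 +
      c 1 * c 2 + c 1 * c 3 + c 2 * c 3) := by
    simp only [Fin.sum_univ_four, mul_add, add_mul, cc, cm 1 0, cm 2 0, cm 3 0, cm 2 1, cm 3 1, cm 3 2]
    module
  have k3 : (∑ i, c i) * ((∑ i, c i) * ∑ i, c i) = (10 : ℝ) • (c 0 + c 1 + c 2 + c 3) + (6 : ℝ) •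
      (c 0 * (c 1 * c 2) + c 0 * (c 1 * c 3) + c 0 * (c 2 * c 3) + c 1 * (c 2 * c 3)) := by
    rw [k2]
    simp only [Fin.sum_univ_four, mul_add, add_mul, mul_smul_comm, cc, cc', ec, ce, ec', ce', cm 1 0,
      cm 2 0, cm 3 0, cm 2 1, cm 3 1, cm 3 2, cm' 1 0, cm' 2 0, cm' 3 0, cm' 2 1, cm' 3 1, cm' 3 2]
    module
  have k4 : (∑ i, c i) * ((∑ i, c i) * ((∑ i, c i) * ∑ i, c i)) = (40 : ℝ) • e +
      (32 : ℝ) • (c 0 * c 1 + c 0 * c 2 + c 0 * c 3 + c 1 * c 2 + c 1 * c 3 + c 2 * c 3) +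
      (24 : ℝ) • (c 0 * (c 1 * (c 2 * c 3))) := by
    rw [k3]
    simp only [Fin.sum_univ_four, mul_add, add_mul, mul_smul_comm, cc, cc', ec, ce, ec', ce', cm 1 0,
      cm 2 0, cm 3 0, cm 2 1, cm 3 1, cm 3 2, cm' 1 0, cm' 2 0, cm' 3 0, cm' 2 1, cm' 3 1, cm' 3 2]
    module
  rw [qR, k4, k3, k2]
  simp only [Fin.sum_univ_four, mul_add, add_mul, ec, ce, ec', ce', ee]
  module

theorem exp16 {A : Type*} [Ring A] (c : Fin 4 → A) (e : A) (ec : ∀ i, e * c i = c i)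
    (ce : ∀ i, c i * e = c i) (ee : e * e = e) :
    (e + c 0) * ((e + c 1) * ((e + c 2) * (e + c 3))) = e + (c 0 + c 1 + c 2 + c 3) +
      (c 0 * c 1 + c 0 * c 2 + c 0 * c 3 + c 1 * c 2 + c 1 * c 3 + c 2 * c 3) +
      (c 0 * (c 1 * c 2) + c 0 * (c 1 * c 3) + c 0 * (c 2 * c 3) + c 1 * (c 2 * c 3)) +
      c 0 * (c 1 * (c 2 * c 3)) := by
  have ec' : ∀ i y, e * (c i * y) = c i * y := fun i y => by rw [← mul_assoc, ec]
  simp only [mul_add, add_mul, ec, ce, ec', ee]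
  abel

variable {ι ι' κ l m : Type*} [Fintype ι] [Fintype ι'] [Fintype κ] [Fintype l] [Fintype m]
  [DecidableEq κ] [DecidableEq l] [DecidableEq m]

/-- a projector of rank four -/
structure P4 (P : ι → ι → ℝ) : Prop where
  pr : Pr P
  rk : ∑ a, P a a = 4

/-- a complex spinor module at a point -/
structure PC (P : ι → ι → ℝ) (p : Matrix κ κ ℂ) (ρ : ι → Matrix κ κ ℂ) : Prop where
  prj : Prj p
  tr : p.trace = 4
  cl : Cl P p ρ
  sk : ∀ a, (ρ a)ᴴ = -ρ a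

/-- intertwiners -/
structure It (p : Matrix κ κ ℂ) (ρ : ι → Matrix κ κ ℂ) (p' : Matrix l l ℂ) (ρ' : ι → Matrix l l ℂ)
    (A : Matrix l κ ℂ) : Prop where
  pl : p' * A = A
  pr : A * p = A
  ρ : ∀ a, A * ρ a = ρ' a * A

/-- unitary intertwiners -/
structure Un (p : Matrix κ κ ℂ) (ρ : ι → Matrix κ κ ℂ) (p' : Matrix l l ℂ) (ρ' : ι → Matrix l l ℂ)
    (A : Matrix l κ ℂ) : Prop where
  iso : PIso A p p'
  ρ : ∀ a, A * ρ a = ρ' a * A

/-- a matrix as a column -/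
def vec (A : Matrix l κ ℂ) : Matrix (l × κ) Unit ℂ := of fun i _ => A i.1 i.2

/-- a column as a matrix -/
def mat (s : Matrix (l × κ) Unit ℂ) : Matrix l κ ℂ := of fun i k => s (i, k) ()

@[simp] theorem mat_vec (A : Matrix l κ ℂ) : mat (vec A) = A := rfl
@[simp] theorem vec_mat (s : Matrix (l × κ) Unit ℂ) : vec (mat s) = s := rfl

theorem vec_inj {A B : Matrix l κ ℂ} (h : vec A = vec B) : A = B := congrArg mat h

theorem vec_smul (c : ℂ) (A : Matrix l κ ℂ) : vec (c • A) = c • vec A := rfl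
theorem vec_neg (A : Matrix l κ ℂ) : vec (-A) = -vec A := rfl

theorem kron_vec {l' κ' : Type*} (X : Matrix l' l ℂ) (Y : Matrix κ κ' ℂ) (A : Matrix l κ ℂ) :
    (X ⊗ₖ Yᵀ) * vec A = of fun (i : l' × κ') _ => (X * A * Y) i.1 i.2 := by
  ext i u
  simp only [vec, mul_apply, Fintype.sum_prod_type, kroneckerMap_apply, transpose_apply, of_apply,
    sum_mul]
  rw [sum_comm]
  exact sum_congr rfl fun _ _ => sum_congr rfl fun _ _ => by ring

theorem vec_ct_mul (A B : Matrix l κ ℂ) : (vec A)ᴴ * vec B = of fun _ _ => (Aᴴ * B).trace := by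
  ext i u
  simp only [vec, mul_apply, Fintype.sum_prod_type, conjTranspose_apply, of_apply, trace, Matrix.diag]
  exact sum_comm

/-- `A ↦ -∑ ρ' a A ρ a` -/
def hK (ρ : ι → Matrix κ κ ℂ) (ρ' : ι → Matrix l l ℂ) : Matrix (l × κ) (l × κ) ℂ :=
  -∑ a, ρ' a ⊗ₖ (ρ a)ᵀ

/-- the projector onto the intertwiners -/
def hP (ρ : ι → Matrix κ κ ℂ) (ρ' : ι → Matrix l l ℂ) : Matrix (l × κ) (l × κ) ℂ := qR (hK ρ ρ')

variable {P : ι → ι → ℝ} {p : Matrix κ κ ℂ} {ρ : ι → Matrix κ κ ℂ} {p' : Matrix l l ℂ}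
  {ρ' : ι → Matrix l l ℂ} {p'' : Matrix m m ℂ} {ρ'' : ι → Matrix m m ℂ} {U : Fin 4 → ι → ℝ}
  {A B : Matrix l κ ℂ}

theorem Un.it (h : Un p ρ p' ρ' A) : It p ρ p' ρ' A := ⟨h.iso.left, h.iso.idem, h.ρ⟩

theorem It.smul (h : It p ρ p' ρ' A) (c : ℂ) : It p ρ p' ρ' (c • A) :=
  ⟨by rw [Matrix.mul_smul, h.pl], by rw [Matrix.smul_mul, h.pr], fun a => by
    rw [Matrix.mul_smul, Matrix.smul_mul, h.ρ]⟩

theorem It.mul {C : Matrix m l ℂ} (h : It p ρ p' ρ' A) (h' : It p' ρ' p'' ρ'' C) :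
    It p ρ p'' ρ'' (C * A) :=
  ⟨by rw [← Matrix.mul_assoc, h'.pl], by rw [Matrix.mul_assoc, h.pr], fun a => by
    rw [Matrix.mul_assoc, h.ρ, ← Matrix.mul_assoc, h'.ρ, Matrix.mul_assoc]⟩

theorem ct_rho {P' : ι → ι → ℝ} (h : PC P p ρ) (h' : PC P' p' ρ') {a : ι} (e : A * ρ a = ρ' a * A) :
    Aᴴ * ρ' a = ρ a * Aᴴ := by
  have := congrArg conjTranspose e
  rw [conjTranspose_mul, conjTranspose_mul, h.sk, h'.sk, Matrix.neg_mul, Matrix.mul_neg] at this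
  exact (neg_injective this).symm

theorem It.ct (h : PC P p ρ) (h' : PC P p' ρ') (i : It p ρ p' ρ' A) : It p' ρ' p ρ Aᴴ :=
  ⟨by rw [← h.prj.herm, ← conjTranspose_mul, i.pr], by rw [← h'.prj.herm, ← conjTranspose_mul, i.pl],
    fun a => ct_rho h h' (i.ρ a)⟩

theorem PC.refl (h : PC P p ρ) : Un p ρ p ρ p := ⟨h.prj.refl, fun a => by rw [h.cl.pl, h.cl.pr]⟩

theorem Un.symm (h : PC P p ρ) (h' : PC P p' ρ') (i : Un p ρ p' ρ' A) : Un p' ρ' p ρ Aᴴ :=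
  ⟨i.iso.symm, fun a => ct_rho h h' (i.ρ a)⟩

theorem Un.trans {C : Matrix m l ℂ} (h : Un p ρ p' ρ' A) (h' : Un p' ρ' p'' ρ'' C) :
    Un p ρ p'' ρ'' (C * A) := ⟨h.iso.trans h'.iso, (h.it.mul h'.it).ρ⟩

section frame

variable (h : PC P p ρ) (hU : ON P U)
include h hU

theorem PC.rr (i : Fin 4) : fr U ρ i * fr U ρ i = -p := by
  have e := hU.rel h.cl i i
  rw [if_pos rfl, ← two_smul ℝ, mul_one, neg_smul, ← smul_neg] at e
  exact smul_right_injective _ two_ne_zero e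

theorem PC.ra {i k : Fin 4} (n : i ≠ k) : fr U ρ i * fr U ρ k = -(fr U ρ k * fr U ρ i) := by
  have e := hU.rel h.cl i k
  rw [if_neg n, mul_zero, zero_smul] at e
  exact eq_neg_of_add_eq_zero_left e

omit hU in
theorem PC.pf (i : Fin 4) : p * fr U ρ i = fr U ρ i := by simp [fr, Matrix.mul_sum, h.cl.pl]

omit hU in
theorem PC.fp (i : Fin 4) : fr U ρ i * p = fr U ρ i := by simp [fr, Matrix.sum_mul, h.cl.pr]

omit hU in
theorem PC.fs (i : Fin 4) : (fr U ρ i)ᴴ = -fr U ρ i := by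
  simp [fr, conjTranspose_sum, h.sk]

theorem PC.tr0 (a : Fin 4) {X : Matrix κ κ ℂ} (e : fr U ρ a * X = -(X * fr U ρ a)) (hX : p * X = X) :
    X.trace = 0 := by
  have e1 : (fr U ρ a * (fr U ρ a * X)).trace = -X.trace := by
    rw [← Matrix.mul_assoc, h.rr hU, Matrix.neg_mul, hX, trace_neg]
  have e2 : (fr U ρ a * (X * fr U ρ a)).trace = -X.trace := by
    rw [← Matrix.mul_assoc, trace_mul_cycle, h.rr hU, Matrix.neg_mul, hX, trace_neg]
  rw [e, Matrix.mul_neg, trace_neg, e2, neg_neg] at e1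
  linear_combination e1 / 2

theorem hK_frame (ρ' : ι → Matrix l l ℂ) : hK ρ ρ' = ∑ i, -(fr U ρ' i ⊗ₖ (fr U ρ i)ᵀ) := by
  have e : ∀ a, (ρ a)ᵀ = ∑ i, U i a • (fr U ρ i)ᵀ := fun a => by
    conv_lhs => rw [hU.rho_eq h.cl a]
    simp [transpose_sum]
  rw [hK, sum_neg_distrib]
  congr 1
  ext i k
  simp only [e, Matrix.sum_apply, kroneckerMap_apply, Matrix.smul_apply, mul_sum]
  rw [sum_comm]
  refine sum_congr rfl fun j _ => ?_
  simp only [fr, Matrix.sum_apply, Matrix.smul_apply, sum_mul (f := fun a => U j a • ρ' a i.1 k.1)]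
  exact sum_congr rfl fun a _ => by simp only [Complex.real_smul]; ring

end frame

/-- the four commuting involutions -/
def ci (U : Fin 4 → ι → ℝ) (ρ : ι → Matrix κ κ ℂ) (ρ' : ι → Matrix l l ℂ) (i : Fin 4) :
    Matrix (l × κ) (l × κ) ℂ := -(fr U ρ' i ⊗ₖ (fr U ρ i)ᵀ)

theorem neg_kron (X : Matrix l l ℂ) (Y : Matrix κ κ ℂ) : (-X) ⊗ₖ Y = -(X ⊗ₖ Y) := by
  ext; simp

theorem kron_neg (X : Matrix l l ℂ) (Y : Matrix κ κ ℂ) : X ⊗ₖ (-Y) = -(X ⊗ₖ Y) := by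
  ext; simp

section two

variable (h : PC P p ρ) (h' : PC P p' ρ') (hU : ON P U)
include h h' hU

theorem ci_sq (i : Fin 4) : ci U ρ ρ' i * ci U ρ ρ' i = p' ⊗ₖ pᵀ := by
  rw [ci, neg_mul_neg, ← mul_kronecker_mul, ← transpose_mul, h.rr hU, h'.rr hU, transpose_neg,
    neg_kron, kron_neg, neg_neg]

theorem ci_comm (i k : Fin 4) : ci U ρ ρ' i * ci U ρ ρ' k = ci U ρ ρ' k * ci U ρ ρ' i := by
  rcases eq_or_ne i k with rfl | n
  · rfl
  · simp only [ci, neg_mul_neg, ← mul_kronecker_mul, ← transpose_mul]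
    rw [h'.ra hU n, h.ra hU n.symm, transpose_neg, neg_kron, kron_neg, neg_neg]

omit hU in
theorem e_ci (i : Fin 4) : p' ⊗ₖ pᵀ * ci U ρ ρ' i = ci U ρ ρ' i := by
  rw [ci, Matrix.mul_neg, ← mul_kronecker_mul, ← transpose_mul, h.fp, h'.pf]

omit hU in
theorem ci_e (i : Fin 4) : ci U ρ ρ' i * p' ⊗ₖ pᵀ = ci U ρ ρ' i := by
  rw [ci, Matrix.neg_mul, ← mul_kronecker_mul, ← transpose_mul, h.pf, h'.fp]

omit hU in
theorem ci_ct (i : Fin 4) : (ci U ρ ρ' i)ᴴ = ci U ρ ρ' i := by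
  rw [ci, conjTranspose_neg, conjTranspose_kronecker, ct_tr, h.fs, h'.fs, transpose_neg, neg_kron,
    kron_neg, neg_neg]

theorem hP_eq : hP ρ ρ' = (1 / 16 : ℝ) • ((p' ⊗ₖ pᵀ + ci U ρ ρ' 0) * ((p' ⊗ₖ pᵀ + ci U ρ ρ' 1) *
    ((p' ⊗ₖ pᵀ + ci U ρ ρ' 2) * (p' ⊗ₖ pᵀ + ci U ρ ρ' 3)))) := by
  rw [hP, hK_frame h hU]
  exact qR_sum _ _ (ci_sq h h' hU) (ci_comm h h' hU) (e_ci h h') (h'.prj.kron h.prj.transpose).idem

theorem ci_hP (i : Fin 4) : ci U ρ ρ' i * hP ρ ρ' = hP ρ ρ' := by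
  have c : ∀ k (Y : Matrix (l × κ) (l × κ) ℂ), ci U ρ ρ' i * ((p' ⊗ₖ pᵀ + ci U ρ ρ' k) * Y) =
      (p' ⊗ₖ pᵀ + ci U ρ ρ' k) * (ci U ρ ρ' i * Y) := fun k Y => by
    rw [← Matrix.mul_assoc, ← Matrix.mul_assoc, Matrix.mul_add, Matrix.add_mul (N := ci U ρ ρ' i),
      ci_e h h', e_ci h h', ci_comm h h' hU]
  have d : ci U ρ ρ' i * (p' ⊗ₖ pᵀ + ci U ρ ρ' i) = p' ⊗ₖ pᵀ + ci U ρ ρ' i := by
    rw [Matrix.mul_add, ci_e h h', ci_sq h h' hU, add_comm]
  have d' : ∀ Y : Matrix (l × κ) (l × κ) ℂ, ci U ρ ρ' i * ((p' ⊗ₖ pᵀ + ci U ρ ρ' i) * Y) =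
      (p' ⊗ₖ pᵀ + ci U ρ ρ' i) * Y := fun Y => by rw [← Matrix.mul_assoc, d]
  rw [hP_eq h h' hU, Matrix.mul_smul]
  congr 1
  fin_cases i
  · exact d' _
  · rw [c]; exact congrArg _ (d' _)
  · rw [c, c]; exact congrArg _ (congrArg _ (d' _))
  · rw [c, c, c]; exact congrArg _ (congrArg _ (congrArg _ d))

theorem hP_mul {n : Type*} {Y : Matrix (l × κ) n ℂ} (e : ∀ i, ci U ρ ρ' i * Y = Y) : hP ρ ρ' * Y = Y := by
  have e0 : p' ⊗ₖ pᵀ * Y = Y := by rw [← e 0, ← Matrix.mul_assoc, e_ci h h']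
  have d : ∀ i, (p' ⊗ₖ pᵀ + ci U ρ ρ' i) * Y = (2 : ℝ) • Y := fun i => by
    rw [Matrix.add_mul, e0, e, two_smul]
  rw [hP_eq h h' hU, Matrix.smul_mul]
  simp only [Matrix.mul_assoc, d, Matrix.mul_smul, smul_smul]
  norm_num

theorem ci_vec (i : Fin 4) : ci U ρ ρ' i * vec A = vec (-(fr U ρ' i * A * fr U ρ i)) := by
  rw [ci, Matrix.neg_mul, kron_vec]; rfl

theorem trace_hP' : (hP ρ ρ').trace = 1 := by
  have s10 := h'.ra hU (i := 1) (k := 0) (by decide)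
  have s20 := h'.ra hU (i := 2) (k := 0) (by decide)
  have s30 := h'.ra hU (i := 3) (k := 0) (by decide)
  have s21 := h'.ra hU (i := 2) (k := 1) (by decide)
  have s31 := h'.ra hU (i := 3) (k := 1) (by decide)
  have s32 := h'.ra hU (i := 3) (k := 2) (by decide)
  have w : ∀ {i k : Fin 4}, fr U ρ' i * fr U ρ' k = -(fr U ρ' k * fr U ρ' i) → ∀ Y : Matrix l l ℂ,
      fr U ρ' i * (fr U ρ' k * Y) = -(fr U ρ' k * (fr U ρ' i * Y)) := fun e Y => by
    rw [← Matrix.mul_assoc, e, Matrix.neg_mul, Matrix.mul_assoc]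
  have rr' : ∀ i (Y : Matrix l l ℂ), fr U ρ' i * (fr U ρ' i * Y) = -(p' * Y) := fun i Y => by
    rw [← Matrix.mul_assoc, h'.rr hU, Matrix.neg_mul]
  have pf' : ∀ i (Y : Matrix l l ℂ), p' * (fr U ρ' i * Y) = fr U ρ' i * Y := fun i Y => by
    rw [← Matrix.mul_assoc, h'.pf]
  have t1 : ∀ i, (fr U ρ' i).trace = 0 := fun i =>
    h'.tr0 hU (i + 1) (h'.ra hU (by fin_cases i <;> decide)) (h'.pf i)
  have t2 : ∀ i k, i ≠ k → (fr U ρ' i * fr U ρ' k).trace = 0 := fun i k n => by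
    have := trace_mul_comm (fr U ρ' i) (fr U ρ' k)
    rw [h'.ra hU n.symm, trace_neg] at this
    linear_combination this / 2
  have t3 : ∀ a i j k, a ≠ i → a ≠ j → a ≠ k → (fr U ρ' i * (fr U ρ' j * fr U ρ' k)).trace = 0 :=
    fun a i j k n1 n2 n3 => h'.tr0 hU a (by
      rw [w (h'.ra hU n1), w (h'.ra hU n2), h'.ra hU n3]; simp [Matrix.mul_assoc]) (pf' _ _)
  have t4 : (fr U ρ' 0 * (fr U ρ' 1 * (fr U ρ' 2 * fr U ρ' 3))).trace = 0 :=
    h'.tr0 hU 3 (by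
      rw [w s30, w s31, w s32]; simp [Matrix.mul_assoc]) (pf' _ _)
  have u1 : ∀ i, (ci U ρ ρ' i).trace = 0 := fun i => by
    rw [ci, trace_neg, trace_kronecker, t1, zero_mul, neg_zero]
  have u2 : ∀ i k, i ≠ k → (ci U ρ ρ' i * ci U ρ ρ' k).trace = 0 := fun i k n => by
    rw [ci, ci, neg_mul_neg, ← mul_kronecker_mul, trace_kronecker, t2 i k n, zero_mul]
  have u3 : ∀ a i j k, a ≠ i → a ≠ j → a ≠ k →
      (ci U ρ ρ' i * (ci U ρ ρ' j * ci U ρ ρ' k)).trace = 0 := fun a i j k n1 n2 n3 => by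
    rw [ci, ci, ci, neg_mul_neg, neg_mul, ← mul_kronecker_mul, ← mul_kronecker_mul, trace_neg,
      trace_kronecker, t3 a i j k n1 n2 n3, zero_mul, neg_zero]
  have u4 : (ci U ρ ρ' 0 * (ci U ρ ρ' 1 * (ci U ρ ρ' 2 * ci U ρ ρ' 3))).trace = 0 := by
    rw [ci, ci, ci, ci, neg_mul_neg, neg_mul (fr U ρ' 1 ⊗ₖ _), neg_mul_neg, ← mul_kronecker_mul,
      ← mul_kronecker_mul, ← mul_kronecker_mul, trace_kronecker, t4, zero_mul]
  rw [hP_eq h h' hU, exp16 _ _ (e_ci h h') (ci_e h h') (h'.prj.kron h.prj.transpose).idem, trace_smul]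
  simp only [trace_add]
  rw [u1, u1, u1, u1, u2 0 1 (by decide), u2 0 2 (by decide), u2 0 3 (by decide),
    u2 1 2 (by decide), u2 1 3 (by decide), u2 2 3 (by decide),
    u3 3 0 1 2 (by decide) (by decide) (by decide), u3 2 0 1 3 (by decide) (by decide) (by decide),
    u3 1 0 2 3 (by decide) (by decide) (by decide), u3 0 1 2 3 (by decide) (by decide) (by decide),
    u4, trace_kronecker, trace_transpose, h.tr, h'.tr, Complex.real_smul]
  norm_num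

end two

section main

variable (hP4 : P4 P) (h : PC P p ρ) (h' : PC P p' ρ')
include hP4 h h'

theorem trace_hP : (hP ρ ρ').trace = 1 :=
  let ⟨_, hU⟩ := exists_ON hP4.pr hP4.rk; trace_hP' h h' hU

theorem prj_hP : Prj (hP ρ ρ') := by
  obtain ⟨U, hU⟩ := exists_ON hP4.pr hP4.rk
  refine ⟨?_, hP_mul h h' hU (ci_hP h h' hU)⟩
  have e : (hK ρ ρ')ᴴ = hK ρ ρ' := by
    rw [hK_frame h hU, conjTranspose_sum]
    exact sum_congr rfl fun i _ => ci_ct h h' i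
  simp only [hP, qR, conjTranspose_smul, conjTranspose_sub, conjTranspose_add, conjTranspose_mul, e,
    star_trivial, Matrix.mul_assoc]

theorem hP_vec : hP ρ ρ' * vec A = vec A ↔ It p ρ p' ρ' A := by
  obtain ⟨U, hU⟩ := exists_ON hP4.pr hP4.rk
  constructor
  · intro e
    have e1 : ∀ i, -(fr U ρ' i * A * fr U ρ i) = A := fun i => vec_inj (by
      rw [← ci_vec h h' hU, ← e, ← Matrix.mul_assoc, ci_hP h h' hU])
    have e2 : p' * A = A := by
      rw [← e1 0, Matrix.mul_neg, ← Matrix.mul_assoc, ← Matrix.mul_assoc, h'.pf]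
    have e3 : A * p = A := by rw [← e1 0, Matrix.neg_mul, Matrix.mul_assoc, h.fp]
    have e4 : ∀ i, A * fr U ρ i = fr U ρ' i * A := fun i => by
      conv_rhs => rw [← e1 i, Matrix.mul_neg, ← Matrix.mul_assoc, ← Matrix.mul_assoc, h'.rr hU,
        Matrix.neg_mul, Matrix.neg_mul, neg_neg, e2]
    refine ⟨e2, e3, fun a => ?_⟩
    rw [hU.rho_eq h.cl a, hU.rho_eq h'.cl a]
    simp only [Matrix.mul_sum, Matrix.sum_mul, Matrix.mul_smul, Matrix.smul_mul, e4]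
  · intro i
    refine hP_mul h h' hU fun k => ?_
    have e4 : A * fr U ρ k = fr U ρ' k * A := by
      simp only [fr, Matrix.mul_sum, Matrix.sum_mul, Matrix.mul_smul, Matrix.smul_mul, i.ρ]
    rw [ci_vec h h' hU, Matrix.mul_assoc, e4, ← Matrix.mul_assoc, h'.rr hU, Matrix.neg_mul, neg_neg,
      i.pl]

theorem exists_col : ∃ s : Matrix (l × κ) Unit ℂ, PIso s 1 (hP ρ ρ') := by
  have hp := prj_hP hP4 h h'
  obtain ⟨a, ha⟩ := hp.exists_frame
  have hr : (hP ρ ρ').rank = 1 := by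
    have := hp.trace_eq_rank
    rw [trace_hP hP4 h h'] at this
    exact_mod_cast this.symm
  let e : Unit ≃ Fin (hP ρ ρ').rank := (Equiv.ofUnique Unit (Fin 1)).trans (finCongr hr.symm)
  refine ⟨a.submatrix id e, PIso.of_prj (by simp) ?_ ?_⟩
  · rw [conjTranspose_submatrix, ← Equiv.coe_refl, submatrix_mul_equiv, ha.src, submatrix_one_equiv]
  · rw [conjTranspose_submatrix, submatrix_mul_equiv, ha.tgt, submatrix_id_id]

/-- the intertwiners form a line -/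
theorem It.eq_smul (i : It p ρ p' ρ' A) (j : It p ρ p' ρ' B) (h0 : A ≠ 0) : ∃ c : ℂ, B = c • A := by
  obtain ⟨s, hs⟩ := exists_col hP4 h h'
  have e : ∀ {C}, It p ρ p' ρ' C → vec C = (sᴴ * vec C) () () • s := fun {C} k => by
    conv_lhs => rw [← (hP_vec hP4 h h').2 k, ← hs.tgt, Matrix.mul_assoc]
    ext x u
    simp [mul_apply (M := s), mul_comm]
  have n : (sᴴ * vec A) () () ≠ 0 := fun z => h0 (vec_inj (by rw [e i, z, zero_smul]; rfl))
  refine ⟨(sᴴ * vec B) () () / (sᴴ * vec A) () (), vec_inj ?_⟩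
  rw [vec_smul, e i, e j, smul_smul]
  congr 1
  rw [← e i, ← e j, div_mul_cancel₀ _ n]

omit hP4 h' in
theorem PC.ne_zero : p ≠ 0 := fun z => by simpa [z] using h.tr

omit h' in
/-- **Schur** -/
theorem It.schur {C : Matrix κ κ ℂ} (i : It p ρ p ρ C) : C = (C.trace / 4) • p := by
  obtain ⟨c, rfl⟩ := It.eq_smul hP4 h h h.refl.it i h.ne_zero
  rw [trace_smul, h.tr, smul_eq_mul, mul_div_cancel_right₀ _ (by norm_num)]

theorem It.ct_mul (i : It p ρ p' ρ' A) (j : It p ρ p' ρ' B) : Aᴴ * B = ((Aᴴ * B).trace / 4) • p :=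
  It.schur hP4 h (j.mul (i.ct h h'))

theorem It.mul_ct (i : It p ρ p' ρ' A) (j : It p ρ p' ρ' B) : B * Aᴴ = ((Aᴴ * B).trace / 4) • p' := by
  rw [trace_mul_comm]
  exact It.schur hP4 h' ((i.ct h h').mul j)

theorem It.un (i : It p ρ p' ρ' A) (t : (Aᴴ * A).trace = 4) : Un p ρ p' ρ' A :=
  ⟨⟨by rw [i.ct_mul hP4 h h' i, t]; simp, by rw [i.mul_ct hP4 h h' i, t]; simp, i.pr⟩, i.ρ⟩

/-- unit vectors of the line are halves of unitary intertwiners -/
theorem un_of_col {s : Matrix (l × κ) Unit ℂ} (hs : PIso s 1 (hP ρ ρ')) :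
    Un p ρ p' ρ' ((2 : ℂ) • mat s) := by
  refine (It.smul ((hP_vec (A := mat s) hP4 h h').1 hs.left) 2).un hP4 h h' ?_
  have e := congrFun (congrFun ((vec_ct_mul (mat s) (mat s)).symm.trans hs.src) ()) ()
  simp only [of_apply, one_apply_eq] at e
  rw [conjTranspose_smul, Matrix.smul_mul, Matrix.mul_smul, trace_smul, trace_smul, e]
  norm_num

theorem Un.col (i : Un p ρ p' ρ' A) : PIso (vec ((1 / 2 : ℂ) • A)) 1 (hP ρ ρ') := by
  have e : (vec ((1 / 2 : ℂ) • A))ᴴ * vec ((1 / 2 : ℂ) • A) = 1 := by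
    rw [vec_ct_mul, conjTranspose_smul, Matrix.smul_mul, Matrix.mul_smul, i.iso.src, trace_smul,
      trace_smul, h.tr]
    ext
    norm_num
  have k : PIso (vec ((1 / 2 : ℂ) • A)) 1 (vec ((1 / 2 : ℂ) • A) * (vec ((1 / 2 : ℂ) • A))ᴴ) :=
    ⟨e, rfl, Matrix.mul_one _⟩
  have := k.prj_tgt.eq_of_trace (prj_hP hP4 h h')
    (by rw [← Matrix.mul_assoc, (hP_vec hP4 h h').2 (i.it.smul _)])
    (by rw [← k.trace_eq, trace_hP hP4 h h']; simp)
  exact this ▸ k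

theorem exists_un : ∃ A, Un p ρ p' ρ' A :=
  let ⟨_, hs⟩ := exists_col hP4 h h'; ⟨_, un_of_col hP4 h h' hs⟩

/-- two unitary intertwiners differ by a unit scalar -/
theorem Un.ratio (i : Un p ρ p' ρ' A) (j : Un p ρ p' ρ' B) :
    B = ((Aᴴ * B).trace / 4) • A ∧ ‖(Aᴴ * B).trace / 4‖ = 1 := by
  have e : B = ((Aᴴ * B).trace / 4) • A := by
    rw [← i.iso.idem, ← Matrix.mul_smul, i.iso.idem, ← i.it.ct_mul hP4 h h' j.it, ← Matrix.mul_assoc,
      i.iso.tgt, j.iso.left]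
  refine ⟨e, ?_⟩
  have e2 := congrArg trace j.iso.src
  generalize (Aᴴ * B).trace / 4 = c at e
  rw [e, conjTranspose_smul, Matrix.smul_mul, Matrix.mul_smul, i.iso.src, trace_smul, trace_smul,
    h.tr, smul_eq_mul, smul_eq_mul, ← mul_assoc, mul_eq_right₀ (by norm_num), Complex.star_def,
    Complex.conj_mul'] at e2
  have : ‖c‖ ^ 2 = 1 := by exact_mod_cast e2
  exact (pow_eq_one_iff_of_nonneg (norm_nonneg _) two_ne_zero).1 this

end main

theorem Un.smul (i : Un p ρ p' ρ' A) (c : Circle) : Un p ρ p' ρ' ((c : ℂ) • A) := by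
  have e : star (c : ℂ) * c = 1 := by rw [Complex.star_def, Complex.conj_mul', Circle.norm_coe]; simp
  refine ⟨⟨?_, ?_, (i.it.smul c).pr⟩, (i.it.smul c).ρ⟩
  · rw [conjTranspose_smul, Matrix.smul_mul, Matrix.mul_smul, i.iso.src, smul_smul, e, one_smul]
  · rw [conjTranspose_smul, Matrix.smul_mul, Matrix.mul_smul, i.iso.tgt, smul_smul, mul_comm, e, one_smul]

/-! ### rotation, conjugation, twisting, push forward -/

/-- the generators in another frame -/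
def rot (R : Matrix ι ι' ℝ) (ρ : ι → Matrix κ κ ℂ) (k : ι') : Matrix κ κ ℂ := ∑ a, R a k • ρ a

theorem rot_rot {ι'' : Type*} (R : Matrix ι ι' ℝ) (S : Matrix ι' ι'' ℝ) (ρ : ι → Matrix κ κ ℂ) (k : ι'') :
    ∑ b, S b k • rot R ρ b = ∑ a, (R * S) a k • ρ a := by
  simp only [rot, smul_sum, smul_smul, mul_apply, sum_smul, mul_comm]
  exact sum_comm

theorem PC.rot_self (h : PC P p ρ) (hs : ∀ a b, P a b = P b a) : rot (of P) ρ = ρ :=
  funext fun k => by simp only [rot, of_apply, hs _ k, h.cl.proj]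

theorem PC.rot {Q : Matrix ι ι ℝ} {Q' : Matrix ι' ι' ℝ} {R : Matrix ι ι' ℝ} (h : PC Q p ρ)
    (hR : PIso R Q' Q) : PC Q' p (rot R ρ) := by
  have e1 : Rᵀ * R = Q' := by rw [← conjTranspose_eq_transpose_of_trivial, hR.src]
  refine ⟨h.prj, h.tr, ⟨fun a b => ?_, fun a => ?_, fun a => ?_, fun a => ?_⟩, fun a => ?_⟩
  · have e2 : Lab56.rot R ρ b * Lab56.rot R ρ a = ∑ i, ∑ j, (R i a * R j b) • (ρ j * ρ i) := by
      simp only [Lab56.rot, sum_mul_sum, smul_mul_smul_comm]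
      rw [sum_comm]
      simp only [mul_comm]
    have e3 : Q' a b = ∑ i, ∑ j, R i a * R j b * Q i j := by
      rw [show Q' = Rᵀ * (Q * R) by rw [hR.left, e1]]
      simp only [mul_apply, transpose_apply, mul_sum]
      exact sum_congr rfl fun _ _ => sum_congr rfl fun _ _ => by ring
    have e4 : Lab56.rot R ρ a * Lab56.rot R ρ b = ∑ i, ∑ j, (R i a * R j b) • (ρ i * ρ j) := by
      simp only [Lab56.rot, sum_mul_sum, smul_mul_smul_comm]
    rw [e2, e3, e4]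
    simp only [← sum_add_distrib, ← smul_add, h.cl.rel, smul_smul, ← sum_smul, mul_sum]
    congr 1
    exact sum_congr rfl fun _ _ => sum_congr rfl fun _ _ => by ring
  · simp [Lab56.rot, Matrix.mul_sum, h.cl.pl]
  · simp [Lab56.rot, Matrix.sum_mul, h.cl.pr]
  · have s : ∀ b, Q' a b = Q' b a := fun b => by
      conv_lhs => rw [← hR.prj_src.herm]
      simp
    simp only [s, rot_rot, hR.idem]
    rfl
  · simp [Lab56.rot, conjTranspose_sum, h.sk]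

theorem Un.rot (i : Un p ρ p' ρ' A) (R : Matrix ι ι' ℝ) : Un p (rot R ρ) p' (rot R ρ') A :=
  ⟨i.iso, fun k => by
    simp only [Lab56.rot, Matrix.mul_sum, Matrix.sum_mul, Matrix.mul_smul, Matrix.smul_mul, i.ρ]⟩

/-- the conjugate matrix -/
abbrev cj {α β : Type*} (A : Matrix α β ℂ) : Matrix α β ℂ := Aᴴᵀ

theorem cj_mul {α β : Type*} (A : Matrix α κ ℂ) (B : Matrix κ β ℂ) : cj (A * B) = cj A * cj B := by
  rw [cj, conjTranspose_mul, transpose_mul]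

theorem cj_cj {α β : Type*} (A : Matrix α β ℂ) : cj (cj A) = A := by ext; simp

theorem cj_rot (R : Matrix ι ι' ℝ) (ρ : ι → Matrix κ κ ℂ) (k : ι') :
    cj (rot R ρ k) = rot R (fun a => cj (ρ a)) k := by
  ext; simp [rot, Matrix.sum_apply]

theorem PC.bar (h : PC P p ρ) : PC P (cj p) fun a => cj (ρ a) := by
  refine ⟨by rw [cj, h.prj.herm]; exact h.prj.transpose, by rw [cj, h.prj.herm, trace_transpose, h.tr],
    ⟨fun a b => ?_, fun a => ?_, fun a => ?_, fun a => ?_⟩, fun a => ?_⟩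
  · rw [← cj_mul, ← cj_mul, ← transpose_add, ← conjTranspose_add, h.cl.rel]; simp
  · rw [← cj_mul, h.cl.pl]
  · rw [← cj_mul, h.cl.pr]
  · conv_rhs => rw [← h.cl.proj a]
    ext; simp [Matrix.sum_apply]
  · rw [ct_tr, cj, h.sk, conjTranspose_neg, h.sk, transpose_neg]

theorem Un.bar (i : Un p ρ p' ρ' A) :
    Un (cj p) (fun a => cj (ρ a)) (cj p') (fun a => cj (ρ' a)) (cj A) :=
  ⟨by simpa only [cj, i.iso.prj_src.herm, i.iso.prj_tgt.herm] using i.iso.bar,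
    fun a => by rw [← cj_mul, ← cj_mul, i.ρ]⟩

theorem PC.tw (h : PC P p ρ) {q : Matrix m m ℂ} (hq : Prj q) (ht : q.trace = 1) :
    PC P (p ⊗ₖ q) fun a => ρ a ⊗ₖ q := by
  refine ⟨h.prj.kron hq, by rw [trace_kronecker, h.tr, ht, mul_one],
    ⟨fun a b => ?_, fun a => ?_, fun a => ?_, fun a => ?_⟩, fun a => ?_⟩
  · rw [← mul_kronecker_mul, ← mul_kronecker_mul, ← add_kronecker, h.cl.rel, hq.idem]
    ext; simp [mul_assoc]
  · rw [← mul_kronecker_mul, h.cl.pl, hq.idem]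
  · rw [← mul_kronecker_mul, h.cl.pr, hq.idem]
  · conv_rhs => rw [← h.cl.proj a]
    ext
    simp [Matrix.sum_apply, sum_mul, mul_assoc]
  · rw [conjTranspose_kronecker, h.sk, hq.herm, neg_kron]

theorem Un.tw {n : Type*} [Fintype n] [DecidableEq n] (i : Un p ρ p' ρ' A) {q : Matrix m m ℂ}
    {q' : Matrix n n ℂ} {u : Matrix n m ℂ} (hu : PIso u q q') :
    Un (p ⊗ₖ q) (fun a => ρ a ⊗ₖ q) (p' ⊗ₖ q') (fun a => ρ' a ⊗ₖ q') (A ⊗ₖ u) :=
  ⟨i.iso.kron hu, fun a => by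
    rw [← mul_kronecker_mul, ← mul_kronecker_mul, i.ρ, hu.idem, hu.left]⟩

theorem rot_tw (R : Matrix ι ι' ℝ) (ρ : ι → Matrix κ κ ℂ) (q : Matrix m m ℂ) (k : ι') :
    rot R (fun a => ρ a ⊗ₖ q) k = rot R ρ k ⊗ₖ q := by
  ext
  simp [rot, Matrix.sum_apply, sum_mul, mul_assoc]

theorem PC.push (h : PC P p ρ) (hA : PIso A p p') :
    PC P p' (fun a => A * ρ a * Aᴴ) ∧ Un p ρ p' (fun a => A * ρ a * Aᴴ) A := by
  have e : ∀ X Y : Matrix κ κ ℂ, X * p = X → A * X * Aᴴ * (A * Y * Aᴴ) = A * (X * Y) * Aᴴ :=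
    fun X Y k => by
      simp only [Matrix.mul_assoc]
      rw [← Matrix.mul_assoc Aᴴ, hA.src, ← Matrix.mul_assoc X, k]
  refine ⟨⟨hA.prj_tgt, hA.trace_eq ▸ h.tr,
    ⟨fun a b => ?_, fun a => ?_, fun a => ?_, fun a => ?_⟩, fun a => ?_⟩, hA, fun a => ?_⟩
  · rw [e _ _ (h.cl.pr a), e _ _ (h.cl.pr b), ← Matrix.add_mul, ← Matrix.mul_add, h.cl.rel,
      Matrix.mul_smul, Matrix.smul_mul, hA.conj]
  · rw [← Matrix.mul_assoc, ← Matrix.mul_assoc, hA.left]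
  · rw [Matrix.mul_assoc, hA.ct_right]
  · conv_rhs => rw [← h.cl.proj a]
    simp [Matrix.mul_sum, Matrix.sum_mul]
  · simp [h.sk, Matrix.mul_assoc]
  · rw [Matrix.mul_assoc, Matrix.mul_assoc, hA.src, h.cl.pr]

end Crest.Agent.X212.Lab56
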