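import Crest.Agent.X212.Lab56.Cls
import Crest.Agent.X212.Cls19.Log

/-!
# X212 / Lab56, part Ref (helper56): data with a section of the determinant line

* `Rf r j O` : `j` is a unit section of `det r`;  `RI r j r' j' O` : an isomorphism that maps `j` to `j'`;
* `RI.symm`, `RI.trans`, `RI.pull`, `RI.bar`, `Rf.ratio`, `ri_of_sq`, `Dfm.ri`, `RI.cyl`, `ri_time`;
* `Iw.ext` : an isomorphism whose determinant extends across a non separating set extends;
* `H1 g O`, `Pic0 I O` and their behaviour under deformations and pull-backs;  `tk2`.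
-/

set_option autoImplicit false
set_option linter.unusedSectionVars false

open Set Filter Topology Function Matrix Module TopologicalSpace Metric
open scoped ContDiff Manifold Kronecker ComplexOrder
open Crest.Agent.X212.Pj41 Crest.Agent.X212.Met55
open Crest.Agent.X212.Pic56 (IsLine IsFrame HasLog clm Rk1)
open Crest.Agent.X212.Line51 (Uni sc)
open Crest.Agent.X212.Cyl58 (IsOE Up)
open Crest.Agent.X212.Hz56 (NSep)

noncomputable section

namespace Crest.Agent.X212.Lab56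

variable {E : Type} [NormedAddCommGroup E] [NormedSpace ℝ E] [FiniteDimensional ℝ E]
  {H : Type} [TopologicalSpace H] {I : ModelWithCorners ℝ E H}
  {M : Type} [TopologicalSpace M] [ChartedSpace H M] [IsManifold I ∞ M]
  {E' : Type} [NormedAddCommGroup E'] [NormedSpace ℝ E'] [FiniteDimensional ℝ E']
  {H' : Type} [TopologicalSpace H'] {I' : ModelWithCorners ℝ E' H'}
  {N : Type} [TopologicalSpace N] [ChartedSpace H' N] [IsManifold I' ∞ N]
  {ι ι' ι'' κ l n k : Type} [Fintype ι] [Fintype ι'] [Fintype ι''] [Fintype κ] [Fintype l] [Fintype n]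
  [Fintype k] [DecidableEq ι] [DecidableEq ι'] [DecidableEq ι''] [DecidableEq κ] [DecidableEq l]
  [DecidableEq n] [DecidableEq k]
  {r a : Sc I M ι κ} {r' a' : Sc I M ι' l} {r'' : Sc I M ι'' n} {j b : M → Matrix (κ × κ) Unit ℂ}
  {j' b' : M → Matrix (l × l) Unit ℂ} {j'' : M → Matrix (n × n) Unit ℂ} {O O' : Set M} {f : N → M}
  {W : Set N} {u : M → Matrix l κ ℂ} {x : M}

theorem mul_sc {X : Type*} (s : Matrix κ Unit ℂ) (g : X → Circle) (x : X) : s * sc g x = (g x : ℂ) • s := by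
  ext i j; simp [sc, mul_apply, mul_comm]

theorem cj_qR (K : Matrix κ κ ℂ) : cj (qR K) = qR (cj K) := by
  simp only [qR, ← cj_mul]
  ext; simp

theorem cj_hP (ρ : ι → Matrix κ κ ℂ) (ρ' : ι → Matrix l l ℂ) :
    cj (hP ρ ρ') = hP (fun a => cj (ρ a)) fun a => cj (ρ' a) :=
  (cj_qR _).trans (congrArg qR (by ext; simp [hK, Matrix.sum_apply]))

theorem det_bar (d : Sc I M ι κ) (x : M) : d.bar.det x = cj (d.det x) := (cj_hP _ _).symm

theorem kk_cj (u : M → Matrix l κ ℂ) (x : M) : kk (fun y => cj (u y)) x = cj (kk u x) := by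
  ext; simp [kk]

/-- a continuous square root of a smooth function is smooth -/
theorem fsm_of_sq {c φ : M → ℂ} (hc : ContinuousAt c x) (h : ∀ᶠ y in 𝓝 x, FSm I φ y ∧ c y ^ 2 = φ y)
    (h0 : c x ≠ 0) : FSm I c x := by
  have c1 : ContinuousAt (fun y => c y * (c x)⁻¹) x := hc.mul_const _
  have m : c x * (c x)⁻¹ ∈ Complex.slitPlane := by simp [h0]
  have k := fsm_log (I := I) (φ := fun y => φ y * ((c x)⁻¹) ^ 2)
    (ψ := fun y => 2 * Complex.log (c y * (c x)⁻¹)) (h.self_of_nhds.1.mul' contMDiffAt_const)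
    ((c1.clog m).const_mul _) (by
      filter_upwards [h, c1.eventually_mem (Complex.isOpen_slitPlane.mem_nhds m)] with y a b
      rw [two_mul, Complex.exp_add, Complex.exp_log (Complex.slitPlane_ne_zero b), ← a.2]; ring)
  refine (FSm.mul' (((Complex.contDiff_exp (𝕜 := ℝ)).contDiffAt).comp_contMDiffAt
    (k.mul' (contMDiffAt_const (c := (2 : ℂ)⁻¹)))) (contMDiffAt_const (c := c x))).congr_of_eventuallyEq ?_
  filter_upwards [c1.eventually_mem (Complex.isOpen_slitPlane.mem_nhds m)] with y b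
  simp only [Function.comp_apply]
  rw [mul_right_comm, mul_inv_cancel₀ two_ne_zero, one_mul, Complex.exp_log (Complex.slitPlane_ne_zero b),
    inv_mul_cancel_right₀ h0]

theorem norm_of_sq {c : ℂ} (h : ‖c ^ 2‖ = 1) : ‖c‖ = 1 :=
  (pow_eq_one_iff_of_nonneg (norm_nonneg _) two_ne_zero).1 (by rwa [norm_pow] at h)

/-! ### references -/

/-- a datum with a unit section of its determinant line -/
structure Rf (r : Sc I M ι κ) (j : M → Matrix (κ × κ) Unit ℂ) (O : Set M) : Prop where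
  ok : r.On O
  sec : Uni I (fun _ => 1) r.det j O

/-- an isomorphism that respects the sections -/
def RI (r : Sc I M ι κ) (j : M → Matrix (κ × κ) Unit ℂ) (r' : Sc I M ι' l) (j' : M → Matrix (l × l) Unit ℂ)
    (O : Set M) : Prop := ∃ σ, Iw r r' σ O ∧ ∀ x ∈ O, kk σ x * j x = j' x

theorem Rf.mono (h : Rf r j O) (hO : O' ⊆ O) : Rf r j O' := ⟨h.ok.mono hO, h.sec.mono hO⟩

theorem RI.mono (h : RI r j r' j' O) (hO : O' ⊆ O) : RI r j r' j' O' :=
  let ⟨σ, a, b⟩ := h; ⟨σ, a.mono hO, fun x hx => b x (hO hx)⟩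

theorem RI.eqv (h : RI r j r' j' O) : Eqv r r' O := let ⟨σ, a, _⟩ := h; ⟨σ, a⟩

theorem Rf.pull (h : Rf r j O) (hf : ∀ y ∈ W, IsLocalDiffeomorphAt I' I ∞ f y) (hm : MapsTo f W O) :
    Rf (r.pull I' f) (fun y => j (f y)) W :=
  ⟨h.ok.pull hf hm, h.sec.comp ⟨fun y hy => (hf y hy).contMDiffAt, hm⟩⟩

theorem RI.pull (i : RI r j r' j' O) (h : r.On O) (h' : r'.On O)
    (hf : ∀ y ∈ W, IsLocalDiffeomorphAt I' I ∞ f y) (hm : MapsTo f W O) :
    RI (r.pull I' f) (fun y => j (f y)) (r'.pull I' f) (fun y => j' (f y)) W :=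
  let ⟨_, a, b⟩ := i; ⟨_, a.pull h h' hf hm, fun _ hy => b _ (hm hy)⟩

theorem Rf.smul (h : Rf r j O) {c : M → ℂ} (s : ∀ x ∈ O, FSm I c x) (hc : ∀ x ∈ O, ‖c x‖ = 1) :
    Rf r (fun x => c x • j x) O := ⟨h.ok, uni_smul h.sec s hc⟩

theorem Rf.bar (h : Rf r j O) : Rf r.bar (fun x => cj (j x)) O :=
  ⟨h.ok.bar, fun x hx => (h.sec.sm x hx).ct.transpose, fun x hx => by
    rw [det_bar, cj, cj, (h.ok.det.prj x hx).herm]
    simpa using (h.sec.iso x hx).bar⟩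

theorem RI.bar (i : RI r j r' j' O) : RI r.bar (fun x => cj (j x)) r'.bar (fun x => cj (j' x)) O :=
  let ⟨_, a, b⟩ := i; ⟨_, a.bar, fun x hx => by rw [kk_cj, ← cj_mul, b x hx]⟩

theorem Rf.of_eq (h : Rf r j O) (hO : IsOpen O) (e : r.Eq a O) (e' : EqOn b j O) : Rf a b O :=
  ⟨e.on hO h.ok, uni_congr hO (uni_of_eq h.sec (fun _ _ => rfl) fun _ => e.det) e'⟩

theorem RI.of_eq (i : RI r j r' j' O) (e : r.Eq a O) (e₁ : EqOn b j O) (e' : r'.Eq a' O)
    (e₂ : EqOn b' j' O) : RI a b a' b' O :=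
  let ⟨σ, h, k⟩ := i; ⟨σ, h.of_eq e e', fun x hx => by rw [e₁ hx, e₂ hx, k x hx]⟩

theorem Sc.On.kk_p (h : r.On O) (hx : x ∈ O) {s : Matrix (κ × κ) Unit ℂ} (hs : r.det x * s = s) :
    kk r.m.p x * s = s := by
  rw [← hs, ← Matrix.mul_assoc]
  exact congrArg (· * s) (h.m.dm_self hx)

theorem Rf.refl (h : Rf r j O) : RI r j r j O :=
  ⟨_, .refl h.ok, fun x hx => h.ok.kk_p hx (h.sec.iso x hx).left⟩

theorem Rf.ri_of_eq (h : Rf r j O) (e : r.Eq a O) (e' : EqOn b j O) : RI r j a b O :=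
  h.refl.of_eq (.refl _ _) (fun _ _ => rfl) e e'

theorem Iw.kk_ct (h : r.On O) (i : Iw r r' u O) (hx : x ∈ O) {s : Matrix (κ × κ) Unit ℂ}
    (hs : r.det x * s = s) : kk (fun y => (u y)ᴴ) x * (kk u x * s) = s := by
  rw [← Matrix.mul_assoc, ← kk_mul, kk, (i.un x hx).iso.src]
  exact h.kk_p hx hs

theorem RI.symm (h : Rf r j O) (h' : r'.On O) (i : RI r j r' j' O) : RI r' j' r j O :=
  let ⟨_, a, b⟩ := i
  ⟨_, a.symm h.ok h', fun x hx => by rw [← b x hx, a.kk_ct h.ok hx (h.sec.iso x hx).left]⟩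

theorem Rf.iw (h : Rf r j O) (h' : r'.On O) (i : Iw r r' u O) : Rf r' (fun x => kk u x * j x) O :=
  ⟨h', i.sec h.ok h' h.sec⟩

theorem RI.rf (hO : IsOpen O) (h : Rf r j O) (h' : r'.On O) (i : RI r j r' j' O) : Rf r' j' O :=
  let ⟨_, a, b⟩ := i; (h.iw h' a).of_eq hO (.refl _ _) fun x hx => (b x hx).symm

theorem RI.smul (i : RI r j r' j' O) (c : M → ℂ) :
    RI r (fun x => c x • j x) r' (fun x => c x • j' x) O :=
  let ⟨σ, a, b⟩ := i; ⟨σ, a, fun x hx => by rw [Matrix.mul_smul, b x hx]⟩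

theorem uni_ratio {p : M → Matrix κ κ ℂ} {q : M → Matrix l l ℂ} {w : M → Matrix l κ ℂ}
    (ht : ∀ x ∈ O, (p x).trace = 1) (h : Uni I p q u O) (h' : Uni I p q w O) :
    ∃ c : M → ℂ, ∀ x ∈ O, FSm I c x ∧ ‖c x‖ = 1 ∧ w x = c x • u x :=
  ⟨fun x => ((u x)ᴴ * w x).trace, fun x hx =>
    have k := piso_ratio (ht x hx) (h.iso x hx) (h'.iso x hx)
    ⟨((h.sm x hx).ct.mul (h'.sm x hx)).trace, k.2, k.1⟩⟩

theorem Rf.ratio (h : Rf r j O) (h' : Rf r b O) : ∃ c : M → ℂ, ∀ x ∈ O, FSm I c x ∧ ‖c x‖ = 1 ∧ b x = c x • j x :=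
  uni_ratio (fun _ _ => by simp) h.sec h'.sec

/-- squares can be absorbed -/
theorem ri_of_sq (i : Iw r r' u O) {c : M → ℂ} (s : ∀ x ∈ O, FSm I c x) (hc : ∀ x ∈ O, ‖c x‖ = 1)
    (e : ∀ x ∈ O, j' x = c x ^ 2 • (kk u x * j x)) : RI r j r' j' O :=
  ⟨_, CI.smul' i s hc, fun x hx => by rw [kk_smul, Matrix.smul_mul, e x hx]⟩

theorem ri_of_log (hO : IsOpen O) (i : Iw r r' u O) {φ : M → ℂ} (s : ∀ x ∈ O, FSm I φ x)
    (hc : ∀ x ∈ O, ‖φ x‖ = 1) (hl : HasLog φ O) (e : ∀ x ∈ O, j' x = φ x • (kk u x * j x)) :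
    RI r j r' j' O := by
  obtain ⟨t, ht⟩ := exists_arg hO s hc hl
  refine ri_of_sq i (c := fun x => Circle.exp (t x * 2⁻¹))
    (fun x hx => fsm_exp ((ht x hx).1.mul contMDiffAt_const)) (fun _ _ => Circle.norm_coe _) fun x hx => ?_
  rw [e x hx, (ht x hx).2, ← Circle.coe_pow, pow_two, ← Circle.exp_add]
  congr 3; ring

/-- **extension of isomorphisms** -/
theorem Iw.ext [I.Boundaryless] {D : Set M} (hD : Dense D) (hO : IsOpen O) (hn : ∀ x ∈ O, x ∉ D → NSep D x)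
    (h : r.On O) (h' : r'.On O) (i : Iw r r' u (O ∩ D)) {U : M → Matrix (l × l) (κ × κ) ℂ}
    (hU : Uni I r.det r'.det U O) (e : ∀ x ∈ O, x ∈ D → U x = Lab56.dm r.det u x) :
    ∃ w, Iw r r' w O ∧ ∀ x ∈ O, x ∈ D → w x = u x := by
  have hl := h.hl h'
  have ci := fun {V : Set M} (hV : V ⊆ O) {w : M → Matrix l κ ℂ} (k : Iw r r' w V) =>
    CI.col ((h.mono hV).tp (h'.mono hV).fr) (h'.mono hV).m k
  obtain ⟨S, s1, s2⟩ := Line51.exists_ext_uni (I := I) hD hO (p := fun _ => 1) (q := r.hl r') (u := col u)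
    fun x hx => by
      by_cases k : x ∈ D
      · exact ⟨_, ⟨(ci inter_subset_left i).sm x ⟨hx, k⟩, (ci inter_subset_left i).iso x ⟨hx, k⟩⟩,
          .of_forall fun _ _ => rfl⟩
      obtain ⟨a₀, h₀⟩ := Line51.exists_unit (hl.prj x hx) (hl.tr x hx)
      obtain ⟨V, S, h1, h2, h3, -, h4⟩ := exists_iso_near (I := I) (p := fun _ => 1) hO
        (fun _ _ => ⟨MSm.const _, Prj.one⟩) (fun y hy => ⟨hl.sm y hy, hl.prj y hy⟩) hx h₀
      have i1 : Iw r r' (unc S) V := ci_unc ((h.mono h3).tp (h'.mono h3).fr) (h'.mono h3).m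
        ⟨fun y hy => (h4 y hy).1, fun y hy => (h4 y hy).2⟩
      have hs : V ∩ D ⊆ O := inter_subset_left.trans h3
      obtain ⟨c, hc⟩ := Iw.ratio (h.mono hs) (h'.mono hs) (i1.mono inter_subset_left)
        (i.mono (inter_subset_inter_left _ h3))
      have i2 := i1.dm (h.mono h3) (h'.mono h3)
      obtain ⟨φ, hφ⟩ := uni_ratio (fun y hy => h.det.tr y (h3 hy)) i2 (hU.mono h3)
      have e1 : ∀ y ∈ V ∩ D, c y ^ 2 = φ y := fun y hy =>
        smul_cancel (h.det.tr y (hs hy)) (i2.iso y hy.1) (by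
          rw [← (hφ y hy.1).2.2, e y (hs hy) hy.2, Lab56.dm, Lab56.dm, ← Matrix.smul_mul, ← kk_smul, kk, kk,
            (hc y hy).2.2])
      obtain ⟨L, hL⟩ := Cls19.exists_slog (I := I) (eventually_of_mem (h1.mem_nhds h2) fun y hy => (hφ y hy).1)
        (norm_ne_zero_iff.1 (by rw [(hφ x h2).2.1]; exact one_ne_zero))
      obtain ⟨V', v1, v2, v3, v4⟩ := hn x hx k _ (hL.and (h1.mem_nhds h2))
      have sρ : ∀ y ∈ V', FSm I (fun y => Complex.exp (L y * 2⁻¹)) y := fun y hy =>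
        ((Complex.contDiff_exp (𝕜 := ℝ)).contDiffAt).comp_contMDiffAt ((v3 hy).1.1.mul' contMDiffAt_const)
      have e2 : ∀ y ∈ V', Complex.exp (L y * 2⁻¹) ^ 2 = φ y := fun y hy => by
        rw [(v3 hy).1.2, pow_two, ← Complex.exp_add]; congr 1; ring
      have key : ∀ ε : ℂ, ‖ε‖ = 1 → (∀ y ∈ V' ∩ D, c y = ε * Complex.exp (L y * 2⁻¹)) →
          ∃ w, (MSm I w x ∧ PIso (w x) 1 (r.hl r' x)) ∧ ∀ᶠ y in 𝓝 x, y ∈ D → col u y = w y :=
        fun ε h5 h6 => ⟨fun y => (ε * Complex.exp (L y * 2⁻¹)) • S y,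
          ⟨MSm.smul (FSm.mul' contMDiffAt_const (sρ x v2)) (h4 x h2).1, piso_smul (h4 x h2).2 (by
            rw [norm_mul, h5, one_mul]; exact norm_of_sq (by rw [e2 x v2, (hφ x h2).2.1]))⟩,
          eventually_of_mem (v1.mem_nhds v2) fun y hy k' => by
            beta_reduce
            rw [← h6 y ⟨hy, k'⟩, col, (hc y ⟨(v3 hy).2, k'⟩).2.2, smul_comm, vec_smul]
            exact congrArg _ (congrFun (col_unc S) y)⟩
      rcases v4.eq_or_eq_neg_of_sq_eq (f := c) (g := fun y => Complex.exp (L y * 2⁻¹))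
        (fun y hy => (hc y ⟨(v3 hy.1).2, hy.2⟩).1.continuousAt.continuousWithinAt)
        (fun y hy => (sρ y hy.1).continuousAt.continuousWithinAt)
        (fun y hy => (e1 y ⟨(v3 hy.1).2, hy.2⟩).trans (e2 y hy.1).symm)
        (fun _ => Complex.exp_ne_zero _) with e3 | e3
      · exact key 1 norm_one fun y hy => by rw [e3 hy, one_mul]
      · exact key (-1) (by simp) fun y hy => by rw [e3 hy, neg_one_mul]; rfl
  exact ⟨unc S, ci_unc (h.tp h'.fr) h'.m s1, fun x hx k => by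
    rw [unc, s2 x hx k]; exact congrFun (unc_col u) x⟩

/-! ### the twisted section -/

/-- the section `a ⊗ s ⊗ s` of the determinant line of a twist -/
def tk2 (a : Matrix (l × l) Unit ℂ) (s : Matrix n Unit ℂ) : Matrix ((l × n) × (l × n)) Unit ℂ :=
  of fun i _ => a (i.1.1, i.2.1) () * (s i.1.2 () * s i.2.2 ())

theorem kk_tk (u : M → Matrix l κ ℂ) (s : M → Matrix n Unit ℂ) (x : M) (a : Matrix (κ × κ) Unit ℂ) :
    kk (fun y => tk (u y) (s y)) x * a = tk2 (kk u x * a) (s x) := by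
  ext i t
  simp only [kk, tk, tk2, mul_apply, kroneckerMap_apply, of_apply, Finset.sum_mul]
  exact Finset.sum_congr rfl fun _ _ => by ring

theorem tk2_smul (a : Matrix (l × l) Unit ℂ) (s : Matrix n Unit ℂ) (c c' : ℂ) :
    tk2 (c • a) (c' • s) = (c * (c' * c')) • tk2 a s := by
  ext; simp only [tk2, of_apply, Matrix.smul_apply, smul_eq_mul]; ring

theorem msm_tk2 {s : M → Matrix n Unit ℂ} (h : MSm I j' x) (hs : MSm I s x) :
    MSm I (fun y => tk2 (j' y) (s y)) x := fun _ _ => (h _ _).mul' ((hs _ _).mul' (hs _ _))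

theorem piso_tk2 (h : r.On O) (hx : x ∈ O) {q : M → Matrix n n ℂ} {a : Matrix (κ × κ) Unit ℂ}
    {s : Matrix n Unit ℂ} (ha : PIso a 1 (r.det x)) (hs : PIso s 1 (q x)) :
    PIso (tk2 a s) 1 ((r.tw q).det x) := by
  have k := h.m.pc x hx
  have := ha.trans ((k.refl.tk hs).piso_dm (h.m.p4 x hx) k
    (k.tw hs.prj_tgt (hs.trace_eq.symm.trans (by simp))))
  rw [Matrix.mul_assoc, show hP (fun a => cj (r.m.r x a)) (r.m.r x) * a = a from ha.left] at this
  have e := kk_tk r.m.p (fun _ => s) x a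
  rw [h.kk_p hx ha.left] at e
  exact e ▸ this

/-! ### units and lines -/

/-- every unit on `O` is a power of `g` up to an exponential -/
def H1 {X : Type*} [TopologicalSpace X] (g : X → Circle) (O : Set X) : Prop :=
  ∀ c : X → ℂ, ContinuousOn c O → (∀ x ∈ O, c x ≠ 0) → ∃ k : ℤ, HasLog (fun x => c x * ((g x : ℂ) ^ k)⁻¹) O

section top

variable {X Y : Type*} [TopologicalSpace X] [TopologicalSpace Y] {g : X → Circle} {S S₀ : Set X}

theorem H1.dfm (h : H1 g S₀) (k : Dfm S S₀) (h0 : S₀ ⊆ S) (hg : ContinuousOn g S) : H1 g S :=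
  fun c a b =>
    let ⟨i, e⟩ := h c (a.mono h0) fun x hx => b x (h0 hx)
    ⟨i, k.hasLog (a.mul (((Pic56.continuous_circle_zpow i).comp_continuousOn hg).inv₀
      fun _ _ => zpow_ne_zero _ (Circle.coe_ne_zero _)))
      (fun x hx => mul_ne_zero (b x hx) (inv_ne_zero (zpow_ne_zero _ (Circle.coe_ne_zero _)))) e⟩

/-- transport along a homeomorphism of subsets -/
theorem H1.comp (h : H1 g S) {p : Y → X} {q : X → Y} {T : Set Y} (hp : ContinuousOn p T) (mp : MapsTo p T S)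
    (hq : ContinuousOn q S) (mq : MapsTo q S T) (e : ∀ y ∈ T, q (p y) = y) : H1 (fun y => g (p y)) T :=
  fun c a b =>
    let ⟨i, k⟩ := h (fun x => c (q x)) (a.comp hq mq) fun _ hx => b _ (mq hx)
    ⟨i, (k.comp hp mp).congr fun y hy => by rw [e y hy]⟩

theorem H1.congr (h : H1 g S) {g' : X → Circle} (e : EqOn g' g S) : H1 g' S := fun c a b =>
  let ⟨i, k⟩ := h c a b; ⟨i, k.congr fun x hx => by rw [e hx]⟩

theorem Dfm.comp (h : Dfm S S₀) {p : Y → X} {q : X → Y} {T T₀ : Set Y} (hp : ContinuousOn p T)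
    (mp : MapsTo p T S) (hq : ContinuousOn q S) (mq : MapsTo q S T) (m0 : MapsTo q (S ∩ S₀) T₀)
    (e : ∀ y ∈ T, q (p y) = y) : Dfm T T₀ :=
  let ⟨g, a, b, c, d⟩ := h
  ⟨fun z => q (g (z.1, p z.2)), hq.comp (a.comp (continuousOn_fst.prodMk (hp.comp continuousOn_snd
    fun _ hz => hz.2)) fun _ hz => ⟨hz.1, mp hz.2⟩) fun z hz => b _ hz.1 _ (mp hz.2),
    fun t ht _ hy => mq (b t ht _ (mp hy)),
    fun _ hy => m0 ⟨b 0 (left_mem_Icc.2 zero_le_one) _ (mp hy), c _ (mp hy)⟩,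
    fun y hy => by beta_reduce; rw [d _ (mp hy), e y hy]⟩

/-- square roots extend along deformations -/
theorem Dfm.sqrt (h : Dfm S S₀) {φ c : X → ℂ} (hφ : ContinuousOn φ S) (h0 : ∀ x ∈ S, φ x ≠ 0)
    (hc : ContinuousOn c (S ∩ S₀)) (e : ∀ x ∈ S ∩ S₀, c x ^ 2 = φ x) :
    ∃ ρ, ContinuousOn ρ S ∧ ∀ x ∈ S, ρ x ^ 2 = φ x := by
  obtain ⟨g, a, b, c0, d⟩ := h
  have z := left_mem_Icc.2 (zero_le_one' ℝ)
  have m : MapsTo (fun x => g (0, x)) S (S ∩ S₀) := fun x hx => ⟨b 0 z x hx, c0 x hx⟩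
  have c1 : ContinuousOn (fun x => g (0, x)) S := a.comp (by fun_prop) fun _ hx => ⟨z, hx⟩
  have c2 : Continuous fun w : unitInterval × S => φ (g (w.1, w.2)) :=
    hφ.comp_continuous (a.comp_continuous (by fun_prop) fun w => ⟨w.1.2, w.2.2⟩) fun w => b _ w.1.2 _ w.2.2
  have n : ∀ w : unitInterval × S, φ (g (w.1, w.2)) ≠ 0 := fun w => h0 _ (b _ w.1.2 _ w.2.2)
  obtain ⟨L, l1, l2⟩ := HasLog.of_subtype (φ := fun x => φ x * (φ (g (0, x)))⁻¹) (S := S)
    (((HasLog.homotopy (H := fun w : unitInterval × S => φ (g (w.1, w.2)) * (φ (g (0, w.2)))⁻¹)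
      (c2.mul ((c2.comp (f := fun w : unitInterval × S => (0, w.2)) (by fun_prop)).inv₀ fun w => n (0, w.2)))
      (fun w => mul_ne_zero (n w) (inv_ne_zero (n (0, w.2))))
      ((HasLog.const one_ne_zero _).congr fun x _ => mul_inv_cancel₀ (n (0, x)))).comp
      (g := fun x : S => (1, x)) (by fun_prop) (mapsTo_univ _ _)).congr fun x _ => by
        simp only [Icc.coe_one, d _ x.2])
  refine ⟨fun x => c (g (0, x)) * Complex.exp (L x * 2⁻¹), (hc.comp c1 m).mul (l1.mul_const _).cexp,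
    fun x hx => ?_⟩
  rw [mul_pow, e _ (m hx), pow_two, ← Complex.exp_add, show L x * 2⁻¹ + L x * 2⁻¹ = L x by ring, ← l2 x hx,
    mul_comm, inv_mul_cancel_right₀ (h0 _ (m hx).1)]

end top

variable (I) in
/-- every line on `O` is trivial on `O'` -/
def Pic0 (O O' : Set M) : Prop :=
  ∀ (n : Type) [Fintype n] [DecidableEq n] (q : M → Matrix n n ℂ), LOn I q O →
    ∃ s : M → Matrix n Unit ℂ, Uni I (fun _ => 1) q s O'

theorem Pic0.eqv (k : Pic0 I O O') (h0 : O' ⊆ O) (h : r.On O) (h' : r'.On O) : Eqv r r' O' :=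
  (eqv_iff (h.mono h0) (h'.mono h0)).2 (k _ _ (h.hl h'))

theorem Pic0.mono {U U' : Set M} (k : Pic0 I O O') (h : O ⊆ U) (h' : U' ⊆ O') : Pic0 I U U' :=
  fun n _ _ q hq => let ⟨s, e⟩ := k n q (hq.mono h); ⟨s, e.mono h'⟩

theorem Pic0.comp (k : Pic0 I O O') {W' : Set N} {g : M → N} (hf : ∀ y ∈ W', ContMDiffAt I' I ∞ f y)
    (mf : MapsTo f W' O') (hg : ∀ x ∈ O, ContMDiffAt I I' ∞ g x) (mg : MapsTo g O W)
    (e : ∀ y ∈ W', g (f y) = y) : Pic0 I' W W' := fun n _ _ q hq =>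
  let ⟨_, a⟩ := k n _ (hq.comp hg mg)
  ⟨_, uni_of_eq (a.comp ⟨hf, mf⟩) (fun _ _ => rfl) fun y hy => by rw [e y hy]⟩

variable [T2Space M] [SigmaCompactSpace M] [I.Boundaryless]

theorem Pic0.dfm {O₀ : Set M} (k : Pic0 I O O₀) (hd : Dfm O' O₀) (hO : IsOpen O') (h : O' ⊆ O) :
    Pic0 I O O' := fun n _ _ q hq =>
  let ⟨_, a⟩ := k n q hq; hd.fr hO (hq.mono h) (frame_of_uni a)

theorem RI.trans (hO : IsOpen O) (h : Rf r j O) (h' : r'.On O) (h'' : r''.On O) (i : RI r j r' j' O)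
    (i' : RI r' j' r'' j'' O) : RI r j r'' j'' O := by
  obtain ⟨σ, a, b⟩ := i
  obtain ⟨σ', a', b'⟩ := i'
  obtain ⟨w, c, e⟩ := a.trans' hO h.ok h' h'' a'
  exact ⟨w, c, fun x hx => by rw [e x hx _ (h.sec.iso x hx).left, b x hx, b' x hx]⟩

/-- **extension along a deformation** -/
theorem Dfm.ri {O₀ : Set M} (k : Dfm O O₀) (hO : IsOpen O) (h0 : O₀ ⊆ O) (h : Rf r j O) (h' : Rf r' j' O)
    (i : RI r j r' j' O₀) : RI r j r' j' O := by
  obtain ⟨σ, a⟩ := k.eqv hO h0 h.ok h'.ok i.eqv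
  obtain ⟨σ₀, a₀, b₀⟩ := i
  obtain ⟨c, hc⟩ := Iw.ratio (h.ok.mono h0) (h'.ok.mono h0) (a.mono h0) a₀
  have h1 := h.iw h'.ok a
  obtain ⟨φ, hφ⟩ := h1.ratio h'
  have n : ∀ x ∈ O, φ x ≠ 0 := fun x hx => norm_ne_zero_iff.1 (by rw [(hφ x hx).2.1]; exact one_ne_zero)
  obtain ⟨ρ, c1, e⟩ := k.sqrt (φ := φ) (c := c) (fun x hx => (hφ x hx).1.continuousAt.continuousWithinAt) n
    (fun x hx => (hc x hx.2).1.continuousAt.continuousWithinAt) fun x hx =>
      smul_cancel (by simp) (h1.sec.iso x hx.1) (by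
        rw [← (hφ x hx.1).2.2, ← b₀ x hx.2, ← Matrix.smul_mul, ← kk_smul, kk, kk, (hc x hx.2).2.2])
  exact ri_of_sq a (c := ρ) (fun x hx => fsm_of_sq (c1.continuousAt (hO.mem_nhds hx))
    (eventually_of_mem (hO.mem_nhds hx) fun y hy => ⟨(hφ y hy).1, e y hy⟩)
    fun z => n x hx (by rw [← e x hx, z]; simp))
    (fun x hx => norm_of_sq (by rw [e x hx, (hφ x hx).2.1])) fun x hx => by rw [e x hx, (hφ x hx).2.2]

/-! ### cylinders -/

local notation "IC" => ModelWithCorners.prod I 𝓘(ℝ, ℝ)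

variable {S : Set M} {J J' : Set ℝ} {d : Sc (I.prod 𝓘(ℝ, ℝ)) (M × ℝ) ι κ}
  {d' : Sc (I.prod 𝓘(ℝ, ℝ)) (M × ℝ) ι' l}
  {s : M × ℝ → Matrix (κ × κ) Unit ℂ} {s' : M × ℝ → Matrix (l × l) Unit ℂ}

theorem RI.cyl (hS : IsOpen S) (hJ : IsOpen J) (hc : OrdConnected J) (h0 : J' ⊆ J) (hn : J'.Nonempty)
    (h : Rf d s (S ×ˢ J)) (h' : Rf d' s' (S ×ˢ J)) (i : RI d s d' s' (S ×ˢ J')) : RI d s d' s' (S ×ˢ J) :=
  (dfm_cyl S hc (h0 hn.some_mem) hn.some_mem).ri (hS.prod hJ) (prod_mono_right h0) h h' i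

theorem ld_up {φ : ℝ → ℝ} (h : Up φ univ) (z : M × ℝ) : IsLocalDiffeomorphAt IC IC ∞ (Prod.map id φ) z :=
  Cyl58.ld_prodMap (Cyl58.ld_id _) (h.ld isOpen_univ (mem_univ _))

/-- reparametrisations of the cylinder that agree somewhere -/
theorem ri_up (hS : IsOpen S) (h : Rf d s (S ×ˢ univ)) {φ ψ : ℝ → ℝ} (hφ : Up φ univ) (hψ : Up ψ univ)
    (hJ : IsOpen J) (hn : J.Nonempty) (e : EqOn ψ φ J) :
    RI (d.pull IC (Prod.map id φ)) (fun z => s (Prod.map id φ z)) (d.pull IC (Prod.map id ψ))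
      (fun z => s (Prod.map id ψ z)) (S ×ˢ univ) :=
  have k := fun {φ : ℝ → ℝ} (hφ : Up φ univ) => h.pull (I' := IC) (W := S ×ˢ univ)
    (fun z _ => ld_up hφ z) fun _ hz => ⟨hz.1, trivial⟩
  RI.cyl hS isOpen_univ ordConnected_univ (subset_univ J) hn (k hφ) (k hψ)
    (((k hφ).mono (prod_mono_right (subset_univ J))).ri_of_eq (pull_congr d fun _ hz =>
      eventually_of_mem ((hJ.preimage continuous_snd).mem_nhds hz.2) fun _ hy => Prod.ext rfl (e hy))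
      fun _ hz => congrArg s (Prod.ext rfl (e hz.2)))

theorem up_add (c : ℝ) : Up (fun t => t + c) univ := fun _ _ => ⟨by fun_prop, by simp⟩

/-- **invariance under increasing reparametrisations of the cylinder** -/
theorem ri_time (hS : IsOpen S) (h : Rf d s (S ×ˢ univ)) {φ : ℝ → ℝ} (hφ : Up φ univ) :
    RI d s (d.pull IC (Prod.map id φ)) (fun z => s (Prod.map id φ z)) (S ×ˢ univ) := by
  have u1 : Up id univ := fun _ _ => ⟨contDiffAt_id, by simp⟩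
  obtain ⟨l, l1, l2, l3, -⟩ := Cyl58.exists_up_univ (a := min 0 (φ 0) - 1) (b := 0)
    (by linarith [min_le_left 0 (φ 0)]) u1 univ_mem (subset_univ _) hφ univ_mem (subset_univ _)
    (by simp only [id]; linarith [min_le_right 0 (φ 0)])
  have k := fun {φ : ℝ → ℝ} (hφ : Up φ univ) => h.pull (I' := IC) (W := S ×ˢ univ)
    (fun z _ => ld_up hφ z) fun _ hz => ⟨hz.1, trivial⟩
  exact ((ri_up hS h u1 l1 isOpen_Iio nonempty_Iio fun t ht => l2 t (le_of_lt ht)).trans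
    (hS.prod isOpen_univ) (k u1) (k l1).ok (k hφ).ok
    (ri_up hS h l1 hφ isOpen_Ioi nonempty_Ioi fun t ht => (l3 t (le_of_lt ht)).symm)).of_eq
    (pull_id d _).symm (fun _ _ => rfl) (.refl _ _) fun _ _ => rfl

end Crest.Agent.X212.Lab56
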