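import Crest.Agent.X212.Lab56.Lk
import Crest.Agent.X212.Sw87.Base
import Crest.Agent.X212.Rfl19.Th

/-!
# X212 / Lab56, part Th (helper56): `clsStmt`, `linkStmt`
-/

set_option autoImplicit false
set_option linter.unusedSectionVars false

open Set Filter Topology Function
open scoped ContDiff Manifold
open Crest.Agent.X212.Line51
open Crest.Agent.X212.Rod53 hiding Uni X cj
open Crest.Agent.X212.Bor5.T Crest.Agent.X212.Rfl19

noncomputable section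

namespace Crest.Agent.X212.Lab56

section wd

variable {a b c η η' : Z2} {m m' m'' : ℤ} {t : ℝ}

theorem jv_w1 (hu : Rod53.Uni a b) (t : ℝ) : t ∈ Jv (wd (w1 a b)) a b 0 := by
  rcases lt_trichotomy t 0 with h | rfl | h
  · exact Jv.of_left (Iio_subset_Jr (j := -1) (fun k hk => Or.inl (if_pos (by omega))) (by simpa using h)) h
  · simpa [w1] using mem_Jv_wd (a := w1 a b) (i := 0) (by simpa [w1] using hu)
  · exact Jv.of_right (Ioi_subset_Jr (i := 0) (fun k hk => Or.inl (if_neg (by omega))) (by simpa using h)) h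

theorem jr_w2 (h : t ∈ Ioo (0 : ℝ) 1) : t ∈ Jr (wd (w2 a b c)) b := by
  simpa [w2] using Ioo_subset_Jr (a := w2 a b c) (i := 0) (by simpa using h)

theorem jv_w2 (hu : Rod53.Uni a b) (t : ℝ) (ht : t < 1) : t ∈ Jv (wd (w2 a b c)) a b 0 := by
  rcases lt_trichotomy t 0 with h | rfl | h
  · exact Jv.of_left (Iio_subset_Jr (j := -1) (fun k hk => Or.inl (if_pos (by omega))) (by simpa using h)) h
  · simpa [w2] using mem_Jv_wd (a := w2 a b c) (i := 0) (by simpa [w2] using hu)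
  · exact Jv.of_right (jr_w2 ⟨h, ht⟩) h

theorem jv_w2' (hu : Rod53.Uni b c) (t : ℝ) (ht : 0 < t) : t ∈ Jv (wd (w2 a b c)) b c 1 := by
  rcases lt_trichotomy t 1 with h | rfl | h
  · exact Jv.of_left (jr_w2 ⟨ht, h⟩) h
  · simpa [w2] using mem_Jv_wd (a := w2 a b c) (i := 1) (by simpa [w2] using hu)
  · exact Jv.of_right (Ioi_subset_Jr (i := 1) (fun k hk => Or.inl ((if_neg (by omega)).trans (if_neg (by omega))))
      (by simpa using h)) h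

theorem wm_w1 (h : dot η a = m) (h' : dot η b = m') :
    wm (w1 a b) (w1 m m') = fun t => dot η (wd (w1 a b) t) := by
  rw [← wm_dot, ← h, ← h']
  exact congrArg _ (funext fun i => (apply_ite (dot η) _ _ _).symm)

theorem wm_w2 (h : dot η a = m) (h' : dot η b = m') (ht : t < 1) :
    wm (w2 a b c) (w2 m m' m'') t = dot η (wd (w2 a b c) t) :=
  (dot_wd (i := ⌊t⌋ - 1) (j := 0) (fun k _ hk => by
    unfold w2; split_ifs; exacts [h, h', by omega]) ⟨by push_cast; linarith [Int.floor_le t], by simpa⟩).symm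

theorem wm_w2' (h : dot η b = m') (h' : dot η c = m'') (ht : 0 < t) :
    wm (w2 a b c) (w2 m m' m'') t = dot η (wd (w2 a b c) t) :=
  (dot_wd (i := 0) (j := ⌊t⌋) (fun k hk _ => by
    unfold w2; split_ifs; exacts [by omega, h, h']) ⟨by simpa, Int.lt_floor_add_one t⟩).symm

end wd

variable {τ : Tub} {θ : τ.N.M → Circle} {δ a b e : Z2} {L : Lb τ.T θ δ} {m m' m'' : ℤ}

theorem c1_iff (hu : Rod53.Uni a b) {c : Cls (𝓡 4) (univ : Set (τ.X (wd (w1 a b))))} :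
    L.CL c (wm (w1 a b) (w1 m m')) ↔ L.C1 c a b m m' :=
  ⟨fun h => ⟨_, dual_left hu m m', dual_right hu m m', wm_w1 (dual_left hu m m') (dual_right hu m m') ▸ h⟩,
    fun ⟨_, h1, h2, h⟩ => (wm_w1 h1 h2).symm ▸ h⟩

theorem c2_iff (hu : Rod53.Uni a b) (hu' : Rod53.Uni b e) {c : Cls (𝓡 4) (univ : Set (τ.X (wd (w2 a b e))))} :
    L.CL c (wm (w2 a b e) (w2 m m' m'')) ↔ L.C2 c a b e 0 1 m m' m'' :=
  ⟨fun h => ⟨_, _, _, dual_left hu m m', dual_right hu m m', dual_left hu' m' m'', dual_right hu' m' m'', h,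
    fun _ => wm_w2 (dual_left hu m m') (dual_right hu m m'),
    fun _ => wm_w2' (dual_left hu' m' m'') (dual_right hu' m' m'')⟩,
    fun ⟨_, _, _, h1, h2, h3, h4, h, k, k'⟩ => (funext fun t => (lt_or_ge t 1).elim
      (fun o => (k t o).trans (wm_w2 h1 h2 o).symm) fun o => (k' t (one_pos.trans_le o)).trans
        (wm_w2' h3 h4 (one_pos.trans_le o)).symm : _ = wm (w2 a b e) (w2 m m' m'')) ▸ h⟩

theorem lo_dif {n N : ℕ} {R : Ref τ.T (Fin n) (Fin N)} {A : O3} {f : Fo τ A a} {s : A.L} :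
    Lo R f s m ↔ ∃ d, (Lc R d fun _ => m) ∧ d.dif (cyD f.F f.hu) = s :=
  exists_congr fun _ => and_comm.trans (and_congr_right fun _ =>
    ⟨fun h => pb_unique (pb_pull _) h, fun h => h ▸ pb_pull _⟩)

theorem lo_iff {A : O3} {f : Fo τ A a} {s : A.L} : Lo L.R f s m ↔ L.FL f.F f.hu s m := lo_dif

section rt

variable {A B : Q3} {C : Cob A B} {v : ℝ → Z2} {hv : Loc v} {f : Fo τ A.toO3 a} {g : Fo τ B.toO3 b} {x y : ℝ}
  (r : Rt C hv f g x y) {d : C.L} {μ : ℝ → ℤ}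

/-- the class on the rod manifold -/
def rc (d : C.L) : Cls (𝓡 4) (univ : Set (τ.X v)) := Cls.dif d r.K.toDiffeo

theorem rc_bijective : Bijective (rc r) := Cls.dif_bijective r.K.toDiffeo

theorem pb_rc (d : C.L) : Pb (fun p : τ.X v => (r.K p : C.M)) univ d (rc r d) :=
  pb_pull fun _ _ => r.K.ld (mem_univ _)

theorem lb_iff : r.Lb L.R d μ ↔ L.CL (rc r d) μ :=
  ⟨fun ⟨_, h, k⟩ => pb_unique h (pb_rc r d) ▸ k, fun h => ⟨_, pb_rc r d, h⟩⟩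

theorem rc_in {s : A.L} (h : Pb (N := A.cyl.P.M) (f.cy v) (univ ×ˢ Iio x) (rc r d) s) : C.In d s :=
  pb_mono (pb_congr (pb_comp (pb_rc r d) h (mapsTo_univ _ _)) fun _ hp =>
    eventually_of_mem ((isOpen_univ.prod isOpen_Iio).mem_nhds hp) fun q hq => (r.ki q hq.2).symm)
    fun _ hp => ⟨trivial, r.ha ▸ hp⟩

theorem rc_out {s : B.L} (h : Pb (N := B.cyl.P.M) (g.cy v) (univ ×ˢ Ioi y) (rc r d) s) : C.Out d s :=
  pb_mono (pb_congr (pb_comp (pb_rc r d) h (mapsTo_univ _ _)) fun _ hp =>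
    eventually_of_mem ((isOpen_univ.prod isOpen_Ioi).mem_nhds hp) fun q hq => (r.ko q hq.2).symm)
    fun _ hp => ⟨trivial, r.hb ▸ hp⟩

end rt

theorem cw {S : Scene} {I : Type} {V : Set I} {v : I → Z2} (X : Ex S τ V v) (L : Lb τ.T θ δ) :
    X.Cw L.R δ fun i => L.ε (v i) where
  ex0 h _ k := (Lb.exists_fl' (X.f _ h).F (X.f _ h).hu k).imp fun _ => lo_iff.2
  sj0 h s := (L.exists_fl (X.f _ h).F (X.f _ h).hu s).imp fun _ k => ⟨k.par, lo_iff.2 k⟩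
  eq0 _ _ _ _ _ k k' := (lo_iff.1 k).eq_iff (lo_iff.1 k')
  ex1 h _ _ k k' :=
    let ⟨c, q⟩ := Lb.exists_c1 h.2.2 (jv_w1 h.2.2) k k'
    let ⟨d, o⟩ := (rc_bijective (X.r1 h)).2 c
    ⟨d, (lb_iff _).2 ((c1_iff h.2.2).2 (o ▸ q))⟩
  sj1 h d :=
    let ⟨m, m', q⟩ := L.c1_surj h.2.2 (jv_w1 h.2.2) (rc (X.r1 h) d)
    ⟨m, m', (q.par h.2.2 (jv_w1 h.2.2)).1, (q.par h.2.2 (jv_w1 h.2.2)).2, (lb_iff _).2 ((c1_iff h.2.2).2 q)⟩
  eq1 h _ _ _ _ _ _ k k' := (rc_bijective (X.r1 h)).1.eq_iff.symm.trans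
    (((c1_iff h.2.2).1 ((lb_iff _).1 k)).eq_iff h.2.2 (jv_w1 h.2.2) ((c1_iff h.2.2).1 ((lb_iff _).1 k')))
  in1 h _ _ _ _ k k' := rc_in (X.r1 h) ⟨_, ((c1_iff h.2.2).1 ((lb_iff _).1 k)).left (jv_w1 h.2.2) (lo_iff.1 k')⟩
  out1 h _ _ _ _ k k' :=
    rc_out (X.r1 h) ⟨_, ((c1_iff h.2.2).1 ((lb_iff _).1 k)).right (jv_w1 h.2.2) (lo_iff.1 k')⟩
  ex2 h h' _ _ _ k k' k'' :=
    let ⟨c, q⟩ := Lb.exists_c2 h.2.2 h'.2.2 one_pos (jv_w2 h.2.2) (jv_w2' h'.2.2) k k' k''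
    let ⟨d, o⟩ := (rc_bijective (X.r2 h h')).2 c
    ⟨d, (lb_iff _).2 ((c2_iff h.2.2 h'.2.2).2 (o ▸ q))⟩
  eq2 h h' _ _ _ _ _ k k' := (rc_bijective (X.r2 h h')).1 (((lb_iff _).1 k).eq (X.h2 h h').loc ((lb_iff _).1 k'))

/-- **R-CLS** -/
theorem clsStmt : ClsStmt := fun _ _ _ _ _ X _ _ h hc _ =>
  let ⟨L⟩ := h.lb hc
  ⟨_, _, L.R, _, cw X L⟩

/-- **R-LINK** -/
theorem linkStmt : Sw87.LinkStmt := ⟨-1, Or.inr rfl, fun _ _ _ _ _ _ _ _ R R' _ _ _ f f' hm s t m m' h h₁ h₂ => by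
  obtain ⟨_, ⟨D, rfl, h⟩, e⟩ := lo_dif.1 h
  obtain ⟨_, ⟨D₁, rfl, h₁⟩, e₁⟩ := lo_dif.1 h₁
  obtain ⟨_, ⟨D₂, rfl, h₃⟩, rfl⟩ := lo_dif.1 h₂
  have k : ∀ c, Cls.dif (Cls.dif c (cy2 f.F f.hu f'.F f'.hu)) (cyD f.F f.hu) = c.dif (cyD f'.F f'.hu) := fun c =>
    (c.pull_pull _ _ _ _).trans (c.pull_congr _ _ _ _ fun _ _ => .of_forall fun z =>
      congrArg (cyD f'.F f'.hu) ((cyD f.F f.hu).symm_apply_apply z).symm)
  exact lo_dif.2 ⟨_, ⟨⟨_, _, _, D₂.ok.pull (fun z _ => (cy2 f.F f.hu f'.F f'.hu).isLocalDiffeomorph z)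
    (mapsTo_univ _ _)⟩, rfl, link f.F f.hu f'.F f'.hu hm h h₁ h₃
      ((Cls.dif_bijective (cyD f.F f.hu)).1 (e.trans ((k _).trans e₁).symm))⟩, k (Quot.mk _ D₂)⟩⟩

end Crest.Agent.X212.Lab56
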